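import Vale.Agent.P073.H726.Align

/-!
# P073 / H726, block B05 (ALIGN): adapted size functions
-/

open Set Metric Topology Filter WithLp MeasureTheory
open scoped ENNReal InnerProductSpace

namespace Vale.Agent.P073.H726

open _root_.P073
open Vale.Agent.P073.St (V)
open Vale.Agent.P073.H471 (Cubes)

variable {Λ V₀ X : Set V} {h : ℝ} {T : V → V}

/-- locally bounded below on `Λ` by positive constants -/
def LBOn (Λ : Set V) (f : V → ℝ) : Prop := ∀ x ∈ Λ, ∃ c > 0, ∀ᶠ w in 𝓝 x, w ∈ Λ → c ≤ f w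

theorem LBOn.pos {f : V → ℝ} (hf : LBOn Λ f) {x : V} (hx : x ∈ Λ) : 0 < f x := by
  obtain ⟨c, hc, h⟩ := hf x hx
  exact hc.trans_le (h.self_of_nhds hx)

theorem LBOn.min {f g : V → ℝ} (hf : LBOn Λ f) (hg : LBOn Λ g) :
    LBOn Λ fun x => min (f x) (g x) := by
  intro x hx
  obtain ⟨a, ha, h1⟩ := hf x hx
  obtain ⟨b, hb, h2⟩ := hg x hx
  refine ⟨Min.min a b, lt_min ha hb, ?_⟩
  filter_upwards [h1, h2] with w k1 k2 hw
  exact min_le_min (k1 hw) (k2 hw)

theorem LBOn.of_continuous (hΛ : IsOpen Λ) {f : V → ℝ} (hf : Continuous f)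
    (h0 : ∀ x ∈ Λ, 0 < f x) : LBOn Λ f :=
  lb_of_continuousOn hΛ hf.continuousOn h0

/-- lower bounds on compact sets -/
theorem LBOn.exists_le {f : V → ℝ} (hf : LBOn Λ f) {K : Set V} (hK : IsCompact K) (hKΛ : K ⊆ Λ) :
    ∃ c > 0, ∀ x ∈ K, c ≤ f x := by
  refine hK.induction_on (p := fun S => ∃ c > 0, ∀ x ∈ S, c ≤ f x) ⟨1, one_pos, by simp⟩ ?_ ?_ ?_
  · rintro S S' hS ⟨c, hc, h⟩
    exact ⟨c, hc, fun x hx => h x (hS hx)⟩
  · rintro S S' ⟨c, hc, h⟩ ⟨c', hc', h'⟩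
    refine ⟨Min.min c c', lt_min hc hc', ?_⟩
    rintro x (hx | hx)
    · exact (min_le_left _ _).trans (h x hx)
    · exact (min_le_right _ _).trans (h' x hx)
  · intro x hx
    obtain ⟨c, hc, h⟩ := hf x (hKΛ hx)
    refine ⟨{w | w ∈ Λ → c ≤ f w} ∩ K, ?_, c, hc, fun w hw => hw.1 (hKΛ hw.2)⟩
    exact inter_mem_nhdsWithin_of h
where
  inter_mem_nhdsWithin_of {x : V} {S K : Set V} (h : S ∈ 𝓝 x) : S ∩ K ∈ 𝓝[K] x := by
    rw [inter_comm]
    exact inter_mem_nhdsWithin K h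

/-- the preimage of a compact subset of `Λ` is a compact subset of `Λ` -/
theorem Coll.compact_preimage (C : Coll Λ V₀ X h T) {K : Set V} (hK : IsCompact K)
    (hKΛ : K ⊆ Λ) : IsCompact (T ⁻¹' K) ∧ T ⁻¹' K ⊆ Λ := by
  have h1 : T ⁻¹' K ⊆ Λ := by
    intro y hy
    by_contra hc
    have := C.off y hc
    rw [mem_preimage, this] at hy
    exact hc (hKΛ hy)
  exact ⟨Metric.isCompact_of_isClosed_isBounded (hK.isClosed.preimage C.continuous)
    (C.bdd.subset h1), h1⟩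

theorem Coll.measurable_X (C : Coll Λ V₀ X h T) : MeasurableSet X := by
  have : X = (X ∪ Λᶜ) ∩ Λ := by
    ext x
    constructor
    · intro hx; exact ⟨Or.inl hx, C.Xsub hx⟩
    · rintro ⟨hx | hx, hx'⟩
      · exact hx
      · exact absurd hx' hx
  rw [this]
  exact C.Xcl.measurableSet.inter C.opn.measurableSet

/-- an open neighbourhood of `X` with small preimage (without the preimage of `X`) -/
theorem Coll.exists_open (C : Coll Λ V₀ X h T) {ν : Measure V}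
    (hν : ∀ K ⊆ Λ, IsCompact K → ν K < ∞) {ε : ℝ≥0∞} (hε : ε ≠ 0) :
    ∃ U : Set V, IsOpen U ∧ X ⊆ U ∧ U ⊆ Λ ∧ ν {y | y ∈ Λ ∧ T y ∉ X ∧ T y ∈ U} ≤ ε := by
  have hTm : Measurable T := C.continuous.measurable
  have hXm := C.measurable_X
  set A : Set V := {y | y ∈ Λ ∧ T y ∉ X} with hA
  have hAm : MeasurableSet A := C.opn.measurableSet.inter (hTm hXm).compl
  set μ : Measure V := (ν.restrict A).map T with hμ
  have hμ1 : ∀ S, MeasurableSet S → μ S = ν (T ⁻¹' S ∩ A) := fun S hS => by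
    rw [hμ, Measure.map_apply hTm hS, Measure.restrict_apply (hTm hS)]
  set μ' : Measure Λ := μ.comap Subtype.val with hμ'
  have hemb : MeasurableEmbedding (Subtype.val : Λ → V) :=
    MeasurableEmbedding.subtype_coe C.opn.measurableSet
  have hμ2 : ∀ S : Set Λ, μ' S = μ (Subtype.val '' S) := fun S => hemb.comap_apply μ S
  have : IsLocallyFiniteMeasure μ' := by
    refine ⟨fun x => ?_⟩
    obtain ⟨r, hr, hb⟩ := Metric.nhds_basis_closedBall.mem_iff.1 (C.opn.mem_nhds x.2)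
    refine ⟨Subtype.val ⁻¹' closedBall x.1 r,
      (continuous_subtype_val.continuousAt (x := x)).preimage_mem_nhds
        (closedBall_mem_nhds _ hr), ?_⟩
    rw [hμ2]
    have hK : IsCompact (closedBall x.1 r) := isCompact_closedBall _ _
    obtain ⟨h1, h2⟩ := C.compact_preimage hK hb
    calc μ (Subtype.val '' (Subtype.val ⁻¹' closedBall x.1 r))
        ≤ μ (closedBall x.1 r) := measure_mono (image_preimage_subset _ _)
      _ = ν (T ⁻¹' closedBall x.1 r ∩ A) := hμ1 _ hK.measurableSet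
      _ ≤ ν (T ⁻¹' closedBall x.1 r) := measure_mono inter_subset_left
      _ < ∞ := hν _ h2 h1
  obtain ⟨U, hU1, hU2, hU3⟩ := Set.exists_isOpen_le_add (Subtype.val ⁻¹' X : Set Λ) μ' hε
  have h0 : μ' (Subtype.val ⁻¹' X : Set Λ) = 0 := by
    rw [hμ2]
    refine measure_mono_null (image_preimage_subset _ _) ?_
    rw [hμ1 _ hXm]
    have : T ⁻¹' X ∩ A = ∅ := by
      ext y
      simp only [hA, mem_inter_iff, mem_preimage, mem_ofPred_eq, mem_empty_iff_false, iff_false]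
      tauto
    rw [this, measure_empty]
  rw [h0, zero_add] at hU3
  have hUo : IsOpen (Subtype.val '' U) := C.opn.isOpenMap_subtype_val U hU2
  refine ⟨Subtype.val '' U, hUo, fun x hx => ⟨⟨x, C.Xsub hx⟩, hU1 hx, rfl⟩, ?_, ?_⟩
  · rintro _ ⟨x, -, rfl⟩
    exact x.2
  · rw [hμ2, hμ1 _ hUo.measurableSet] at hU3
    refine le_trans (measure_mono ?_) hU3
    rintro y ⟨h1, h2, h3⟩
    exact ⟨h3, h1, h2⟩

/-- the planes property -/
def Pl (X : Set V) (x : V) (ρ : ℝ) : Prop :=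
  ∃ q : Finset ((V →L[ℝ] ℝ) × ℝ), q.card ≤ 16 ∧ (∀ p ∈ q, p.1 ≠ 0) ∧
    ∀ x' ∈ closedBall x ρ, x' ∈ X → ∃ p ∈ q, p.1 x' = p.2

theorem Pl.mono {x x' : V} {ρ ρ' : ℝ} (H : Pl X x ρ) (hs : closedBall x' ρ' ⊆ closedBall x ρ) :
    Pl X x' ρ' := by
  obtain ⟨q, h1, h2, h3⟩ := H
  exact ⟨q, h1, h2, fun y hy => h3 y (hs hy)⟩

theorem Coll.exists_pl (C : Coll Λ V₀ X h T) :
    ∃ F : V → ℝ, LBOn Λ F ∧ ∀ x ∈ Λ, Pl X x (F x) := by
  set S : V → Set ℝ := fun x => {ρ | 0 ≤ ρ ∧ ρ ≤ 1 ∧ Pl X x ρ} with hS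
  have hbdd : ∀ x, BddAbove (S x) := fun x => ⟨1, fun ρ hρ => hρ.2.1⟩
  have hloc : ∀ x ∈ Λ, ∃ c > 0, ∀ᶠ w in 𝓝 x, c ∈ S w := by
    intro x hx
    obtain ⟨q, h1, h2, h3⟩ := C.planes x hx
    obtain ⟨ρ, hρ, hb⟩ := Metric.nhds_basis_closedBall.mem_iff.1 h3
    have hc : 0 < Min.min 1 (ρ / 2) := by positivity
    refine ⟨Min.min 1 (ρ / 2), hc, ?_⟩
    filter_upwards [ball_mem_nhds x (show 0 < ρ / 2 by positivity)] with w hw
    refine ⟨hc.le, min_le_left _ _, q, h1, h2, fun x' hx' => hb ?_⟩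
    rw [mem_ball] at hw
    rw [mem_closedBall] at hx' ⊢
    have := dist_triangle x' w x
    have := min_le_right 1 (ρ / 2)
    linarith
  refine ⟨fun x => sSup (S x) / 2, fun x hx => ?_, fun x hx => ?_⟩
  · obtain ⟨c, hc, h1⟩ := hloc x hx
    refine ⟨c / 2, by positivity, ?_⟩
    filter_upwards [h1] with w hw _
    have := le_csSup (hbdd w) hw
    show c / 2 ≤ sSup (S w) / 2
    linarith
  · obtain ⟨c, hc, h1⟩ := hloc x hx
    have h2 := le_csSup (hbdd x) h1.self_of_nhds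
    obtain ⟨ρ, hρ, hlt⟩ := exists_lt_of_lt_csSup ⟨c, h1.self_of_nhds⟩
      (show sSup (S x) / 2 < sSup (S x) by linarith)
    exact hρ.2.2.mono (closedBall_subset_closedBall hlt.le)

/-- **(T2)**: adapted size functions exist -/
theorem Coll.exists_adapted (C : Coll Λ V₀ X h T) {δ : V → ℝ} (hδ : LBOn Λ δ) {ν : Measure V}
    (hν : ∀ K ⊆ Λ, IsCompact K → ν K < ∞) {ε : ℝ≥0∞} (hε : ε ≠ 0) :
    ∃ s, Adapted Λ X T δ ν ε s := by
  have hne := compl_nonempty C.bdd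
  obtain ⟨U, hU1, hU2, hU3, hU4⟩ := C.exists_open hν hε
  obtain ⟨F, hF1, hF2⟩ := C.exists_pl
  -- the first function
  have hnU : (Uᶜ).Nonempty := hne.mono (compl_subset_compl.2 hU3)
  have hnX : (X ∪ Λᶜ).Nonempty := hne.mono subset_union_right
  set s₁ : V → ℝ := fun x => max (infDist x Uᶜ) (infDist x (X ∪ Λᶜ)) / 2 with hs₁
  have hs₁c : Continuous s₁ :=
    ((continuous_infDist_pt _).max (continuous_infDist_pt _)).div_const 2
  have hs₁0 : ∀ x ∈ Λ, 0 < s₁ x := by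
    intro x hx
    have : 0 < max (infDist x Uᶜ) (infDist x (X ∪ Λᶜ)) := by
      by_cases hxU : x ∈ U
      · exact lt_max_of_lt_left ((hU1.isClosed_compl.notMem_iff_infDist_pos hnU).1
          (fun h => h hxU))
      · refine lt_max_of_lt_right ((C.Xcl.notMem_iff_infDist_pos hnX).1 ?_)
        rw [mem_union, not_or]
        exact ⟨fun h => hxU (hU2 h), fun h => h hx⟩
    simp only [hs₁]; positivity
  have hs₁U : ∀ x ∈ Λ, (∃ x' ∈ X, ‖x - x'‖ ≤ s₁ x) → x ∈ U := by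
    rintro x hx ⟨x', hx', hd⟩
    by_contra hxU
    have h1 : infDist x Uᶜ = 0 := infDist_zero_of_mem hxU
    have h2 : infDist x (X ∪ Λᶜ) ≤ ‖x - x'‖ := by
      rw [← dist_eq_norm]; exact infDist_le_dist_of_mem (Or.inl hx')
    have h3 := hs₁0 x hx
    have h4 : s₁ x ≤ s₁ x / 2 := by
      calc s₁ x = max (infDist x Uᶜ) (infDist x (X ∪ Λᶜ)) / 2 := rfl
        _ ≤ s₁ x / 2 := by
          rw [h1, max_eq_right infDist_nonneg]
          linarith
    linarith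
  -- the closeness function
  set S : V → Set ℝ := fun x => insert 1 {a | ∃ y ∈ Λ, T y = x ∧ a = δ y} with hS
  have hbdd : ∀ x, BddBelow (S x) := fun x => ⟨0, by
    rintro a (rfl | ⟨y, hy, -, rfl⟩)
    · exact zero_le_one
    · exact (hδ.pos hy).le⟩
  have hδ₂ : LBOn Λ fun x => sInf (S x) := by
    intro x hx
    obtain ⟨r, hr, hb⟩ := Metric.nhds_basis_closedBall.mem_iff.1 (C.opn.mem_nhds hx)
    obtain ⟨h1, h2⟩ := C.compact_preimage (isCompact_closedBall x r) hb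
    obtain ⟨c, hc, h3⟩ := hδ.exists_le h1 h2
    refine ⟨Min.min 1 c, lt_min one_pos hc, ?_⟩
    filter_upwards [closedBall_mem_nhds x hr] with w hw _
    refine le_csInf ⟨1, mem_insert _ _⟩ ?_
    rintro a (rfl | ⟨y, hy, hyw, rfl⟩)
    · exact min_le_left _ _
    · exact (min_le_right _ _).trans (h3 y (by rw [mem_preimage, hyw]; exact hw))
  have hall : LBOn Λ fun x => Min.min (s₁ x) (Min.min (F x) (sInf (S x))) :=
    (LBOn.of_continuous C.opn hs₁c hs₁0).min (hF1.min hδ₂)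
  obtain ⟨s, hr1, hr2, hr3, hr4, hr5⟩ := exists_lower C.opn hne hall (fun y hy => hall.pos hy)
  refine ⟨s, ⟨hr1, hr2, hr5, fun x hx => ?_, fun y hy => ?_, ?_⟩⟩
  · have h1 : s x ≤ F x := (hr3 x hx).trans ((min_le_right _ _).trans (min_le_left _ _))
    exact (hF2 x hx).mono (closedBall_subset_closedBall h1)
  · have h1 : s (T y) ≤ sInf (S (T y)) :=
      (hr3 _ (C.maps hy)).trans ((min_le_right _ _).trans (min_le_right _ _))
    exact h1.trans (csInf_le (hbdd _) (mem_insert_of_mem _ ⟨y, hy, rfl, rfl⟩))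
  · refine le_trans (measure_mono ?_) hU4
    rintro y ⟨h1, h2, x', hx', hd⟩
    refine ⟨h1, h2, hs₁U _ (C.maps h1) ⟨x', hx', hd.trans ?_⟩⟩
    exact (hr3 _ (C.maps h1)).trans (min_le_left _ _)

end Vale.Agent.P073.H726
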