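import Vale.Agent.P073.ConHomeo
import Vale.Agent.P073.H471.Stage

/-!
# P073 / H726, block B05 (ALIGN): definitions

`Coll Λ V₀ X h T`  : `T` is a collapse of `Λ` in the sup norm space `V` (the output of [COL-PL]),
`Adapted …  s`      : `s` is a size function adapted to the collapse,
`AlignG …  g`       : `g` is a homeomorphism near `T` and aligned with a family of cubes finer
                      than `s / 16`.
-/

open Set Metric Topology Filter WithLp MeasureTheory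
open scoped ENNReal InnerProductSpace

namespace Vale.Agent.P073.H726

open _root_.P073
open Vale.Agent.P073.St (V)
open Vale.Agent.P073.H471 (Cubes)

/-- the output of the piecewise linear collapse theorem, in the sup norm space `V` -/
structure Coll (Λ V₀ X : Set V) (h : ℝ) (T : V → V) : Prop where
  opn : IsOpen Λ
  bdd : Bornology.IsBounded Λ
  h0 : 0 ≤ h
  h1 : h ≤ 1 / 8
  /-- (C1) -/
  firm : ∀ y y', ‖toLp 2 (T y - T y')‖ ^ 2 ≤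
    (1 + h) * ⟪toLp 2 (y - y'), toLp 2 (T y - T y')⟫_ℝ
  off : ∀ y ∉ Λ, T y = y
  maps : MapsTo T Λ Λ
  con : ConicalOn T Λ
  Xsub : X ⊆ Λ
  Xcl : IsClosed (X ∪ Λᶜ)
  planes : ∀ x ∈ Λ, ∃ s : Finset ((V →L[ℝ] ℝ) × ℝ), s.card ≤ 16 ∧ (∀ q ∈ s, q.1 ≠ 0) ∧
    ∀ᶠ x' in 𝓝 x, x' ∈ X → ∃ q ∈ s, q.1 x' = q.2
  V0X : ∀ y ∈ Λ, y ∈ V₀ → T y ∈ X
  inj : ∀ y y', T y ∉ X → T y = T y' → y = y'
  aff : ∀ C ⊆ Λ \ X, IsPreconnected C → ∃ w : V, ∀ y, T y ∈ C →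
    ∀ᶠ y' in 𝓝 y, T y' = (1 + h) • y' - w
  null : volume X = 0
  good : volume {y | y ∈ Λ ∧ T y ∉ X} = ENNReal.ofReal ((1 + h) ^ 3)⁻¹ * volume Λ

/-- a size function adapted to the collapse: small, the skeleton is near every point of `Λ`
contained in at most `16` planes, closeness `δ`, small `ν`-measure of the neighbourhood of `X`
(without `X`) -/
structure Adapted (Λ X : Set V) (T : V → V) (δ : V → ℝ) (ν : Measure V) (ε : ℝ≥0∞)
    (s : V → ℝ) : Prop where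
  lip : ∀ x y, s x ≤ s y + ‖x - y‖
  pos : ∀ x ∈ Λ, 0 < s x
  off : ∀ x ∉ Λ, s x ≤ 0
  planes : ∀ x ∈ Λ, ∃ q : Finset ((V →L[ℝ] ℝ) × ℝ), q.card ≤ 16 ∧ (∀ p ∈ q, p.1 ≠ 0) ∧
    ∀ x' ∈ closedBall x (s x), x' ∈ X → ∃ p ∈ q, p.1 x' = p.2
  close : ∀ y ∈ Λ, s (T y) ≤ δ y
  vol : ν {y | y ∈ Λ ∧ T y ∉ X ∧ ∃ x' ∈ X, ‖T y - x'‖ ≤ s (T y)} ≤ ε

/-- the homeomorphism `g` near the collapse `T`, aligned with the cubes `closedBall (z i) (σ i)`
with centres `c i` off `X`; core radius `σ i / 224`; kept parts `(1 - k i) σ i` of the cubes which do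
not meet `X`. -/
structure AlignG {ι : Type*} (Λ V₀ X : Set V) (h : ℝ) (T : V → V) (s : V → ℝ) (z : ι → V)
    (σ : ι → ℝ) (k : ι → ℝ) (ε : ℝ) (c : ι → V) (g : V → V) : Prop where
  cont : Continuous g
  off : ∀ y ∉ Λ, g y = y
  near : ∀ y ∈ Λ, ‖g y - T y‖ ≤ s (T y) / 16
  near' : ∀ y ∈ Λ, ∀ i, g y ∈ closedBall (z i) (σ i) → ‖g y - T y‖ ≤ σ i / 896
  /-- `g - T` is `ε`-Lipschitz in the Euclidean norm -/
  lip : ∀ y y', ‖toLp 2 ((g y - T y) - (g y' - T y'))‖ ≤ ε * ‖toLp 2 (y - y')‖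
  cz : ∀ i, ‖c i - z i‖ ≤ σ i / 2
  hole : ∀ i, ∀ x ∈ X, σ i / 112 < ‖x - c i‖
  /-- `V₀` avoids the cores -/
  core : ∀ y ∈ Λ, y ∈ V₀ → ∀ i, σ i / 224 < ‖g y - c i‖
  /-- `V₀` avoids the middle of the cubes which do not meet the skeleton -/
  mid : ∀ y ∈ Λ, y ∈ V₀ → ∀ i, Disjoint (closedBall (z i) (σ i)) X →
    (1 - k i) * σ i < ‖g y - z i‖
  affcore : ∀ i, ∃ w : V, ∀ y, g y ∈ closedBall (c i) (σ i / 224) →
    ∀ᶠ y' in 𝓝 y, g y' = (1 + h) • y' - w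
  affmid : ∀ i, Disjoint (closedBall (z i) (σ i)) X → ∃ w : V, ∀ y,
    g y ∈ closedBall (z i) ((1 - k i) * σ i) → ∀ᶠ y' in 𝓝 y, g y' = (1 + h) • y' - w

end Vale.Agent.P073.H726
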