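import Vale.Agent.P073.H880.TopN
import Vale.Agent.P073.H267.K3Last
import Vale.Agent.P073.H523.TopP
import Vale.Agent.P073.H236.TopG
import Vale.Agent.P073.H582.TopE

/-!
# P073, H726: **[TopR]**, the numbers of the rows (`RowNum` of H267) from the slots

`exists_rowNum`: for a tolerance `tt` which depends on the numbers `bn` of ROUND T alone, there are
slots such that `RowNum` holds with the tolerance `tt X.bn`.
-/

open Set Metric Topology Filter
open scoped ENNReal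

set_option linter.unusedSectionVars false

namespace Vale.Agent.P073.Top880

open _root_.P073 _root_.P073.Net _root_.P073.PA691 _root_.P073.H236 _root_.P073.H579
open _root_.P073.H142 (FStar)
open _root_.P073.H345 (PK)
open _root_.P073.H880.RP
open _root_.P073.H429
open Vale.Agent.P073.St (V)
open Vale.Agent.P073.H471 Vale.Agent.P073.H267
open Vale.Agent.P073.H73 (Mesh)
open Vale.Agent.P073.H193 (Edges edges mesh_sub)
open Vale.Agent.P073.H304 (Nb Zmax)
open Vale.Agent.P073.H926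
open Vale.Agent.P073.H238.K3
open Vale.Agent.P073.H267.K3
open Vale.Agent.P073.H212.K3 (muT muT_pos muT_le muT_len)
open Vale.Agent.P073.H236.Slot (exists_min_over exists_givTolP)

variable {c₀ n δ : ℝ} {j : ℕ} {Ω Λ : Set V} {v w : V} {ρ : V → ℝ} {M : Mesh Ω} {h : ConHomeo Ω Λ}
  {J₀ J : Set (ℕ × (Fin 3 → ℤ))} {P Z : Set M.ι} {K : BoxCx Λ w}

/-- the tolerance of the second staircases (slot (6)) -/
theorem exists_row4 (D : KIn3 c₀ n j δ v w ρ M h J₀ J P Z) (C : Cells ρ w K) {C₀ μT : ℝ}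
    (X : S1 D C C₀ μT) {τ : M.κ → ℝ} (hτ : ∀ k, 0 < τ k) (f : ConHomeo Ω Λ) :
    ∃ t : (D.dat C).S₀ → ℝ, (∀ s, 0 < t s) ∧
      (∀ s, t s ≤ (exists_tol4 D C f).choose s) ∧
      ∀ (s : (D.dat C).S₀) k, (D.dat C).PkS (D.G C) X.h1 s.1 k → ∀ e ≤ t s, 16 * e ≤ τ k := by
  obtain ⟨t, t0, ht⟩ := exists_givTolP (D := D) (C := C) X.h1 hτ
  refine ⟨fun s => min (t s) ((exists_tol4 D C f).choose s),
    fun s => lt_min (t0 s) ((exists_tol4 D C f).choose_spec.1 s), fun s => min_le_right _ _,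
    fun s k hk e he => ht s k hk e (he.trans (min_le_left _ _))⟩

/-- the tolerance of the last staircase (slot (7)) -/
theorem exists_row5 (D : KIn3 c₀ n j δ v w ρ M h J₀ J P Z) (C : Cells ρ w K)
    {τ : M.κ → ℝ} (hτ : ∀ k, 0 < τ k) (f5 f : ConHomeo Ω Λ) :
    ∃ t : pG C J₀ → ℝ, (∀ b, 0 < t b) ∧
      (∀ b, t b ≤ (exists_tol5 D C f).choose b) ∧
      ∀ (b : pG C J₀) k, (f5.toFun '' M.F k ∩
        YB ((YS (D.G C)).add (rT (D.G C)) (rT_pos (D.G C))
        (fun e k => (YS_p_lt (D.G C) e k).le)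
        fun e k => (YS_q_lt (D.G C) e k).le) b.1).Nonempty → ∀ e ≤ t b, 16 * e ≤ τ k := by
  obtain ⟨t, t0, ht⟩ := exists_min_over f5 (A := M.F) (mesh_sub M) M.ffin
    (N := fun b : pG C J₀ => YB ((YS (D.G C)).add (rT (D.G C)) (rT_pos (D.G C))
      (fun e k => (YS_p_lt (D.G C) e k).le) fun e k => (YS_q_lt (D.G C) e k).le) b.1)
    (fun _ => isCompact_Icc) (fun _ => YB_sub _ _) (m := fun k => τ k / 16)
    (fun k => by have := hτ k; positivity)
  refine ⟨fun b => min (t b) ((exists_tol5 D C f).choose b),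
    fun b => lt_min (t0 b) ((exists_tol5 D C f).choose_spec.1 b), fun b => min_le_right _ _,
    fun b k hk e he => ?_⟩
  have h1 := ht b k hk
  have h2 := he.trans (min_le_left _ _)
  linarith

/-- **[TopR]** the numbers of the rows from the slots -/
theorem exists_rowNum (D : KIn3 c₀ n j δ v w ρ M h J₀ J P Z) (C : Cells ρ w K) {C₀ μT : ℝ}
    (hC₀ : 1 ≤ C₀) {Ys : Set M.κ} {sc : Sharp} {ε : M.κ → ℝ} (hε : ∀ k, 0 < ε k)
    (tt : ((edges M).ε → ℝ) → M.κ → ℝ) (tt0 : ∀ b, (∀ e, 0 < b e) → ∀ k, 0 < tt b k)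
    (tte : ∀ b, (∀ e, 0 < b e) → ∀ k e, (edges M).seg e ⊆ M.F k →
      tt b k * ‖(edges M).b e - (edges M).a e‖ ≤ b e) :
    ∃ S : Slots D C C₀ μT Ys sc, ∀ {N : RTn M C J₀} {X : S1 D C C₀ μT} {Y₂ : S2 X}
      {Y₃ : S3 Y₂ Ys sc} {Y₄ : S4 Y₃} (Y₅ : S5 Y₄), Ok5 S N Y₅ →
      ∃ (t4 : (D.dat C).S₀ → ℝ) (t5 : pG C J₀ → ℝ), RowNum Y₅ (tt X.bn) ε t4 t5 := by
  classical
  obtain ⟨x, x0, -, xk, -⟩ := Vale.Agent.P073.H582.exists_edge_le M (g := fun _ => 1)
    (fun _ => one_pos) hε (q := fun _ => 1) (fun _ => one_pos)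
  have hb : ∀ X : S1 D C C₀ μT, ∀ e, 0 < X.bn e := fun X => X.num.b_pos
  choose r4 r40 r4t r4k using fun X : S1 D C C₀ μT => exists_row4 D C X (tt0 X.bn (hb X))
  choose r5 r50 r5t r5k using fun X : S1 D C C₀ μT => exists_row5 D C (tt0 X.bn (hb X))
  let S : Slots D C C₀ μT Ys sc :=
    { Slots.one with
      εe := x
      εe0 := x0
      m := fun _ s => (D.G C).oS s / 2
      m0 := fun _ s => half_pos (oS_pos' D C s)
      tol4 := fun {X} {_} _ f _ s => r4 X f s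
      tol40 := fun {X} {_} _ f _ s => r40 X f s
      tol5 := fun {X} {_} {_} Y₄ f _ b => r5 X Y₄.f5 f b
      tol50 := fun {X} {_} {_} Y₄ f _ b => r50 X Y₄.f5 f b }
  refine ⟨S, fun {N X Y₂ Y₃ Y₄} Y₅ H => ⟨(exists_tol4 D C Y₄.h5).choose,
    (exists_tol5 D C Y₅.h6).choose, ?_⟩⟩
  have hP := Y₃.numP (fun s => by
    rw [H.J s]
    have := D.ω3S_pos C s
    linarith) (fun s => H.muP s)
  have hn := D.pos
  have h4 : ∀ s, Y₄.ε s ≤ r4 X Y₄.h5 s := H.ε4
  have h5 : ∀ b, Y₅.ε b ≤ r5 X Y₄.f5 Y₅.h6 b := H.ε5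
  exact
    { C₀1 := hC₀
      n1 := by have := D.lt; linarith
      fat := fun b => (H.fat b).ge
      Ds := hP.1
      cs := hP.2.1
      st := hP.2.2.1
      q := fun s => (H.q4 s).ge
      r := fun s => (H.r4 s).ge
      μ0 := fun b => by rw [H.μ5 b]; exact (muT_pos D C b.1).le
      μn := fun b => by rw [H.μ5 b]; have := muT_le D C b.1; linarith
      μu := fun b => by
        rw [H.μ5 b, muT_len]
        have := (D.G C).uT_pos b.1
        nlinarith
      τ0 := tt0 X.bn (hb X)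
      τe := tte X.bn (hb X)
      ε5 := fun s k hk => r4k X Y₄.h5 ⟨s, hk.1⟩ k hk _ (h4 _)
      ε6 := fun b k hk => r5k X Y₄.f5 Y₅.h6 b k hk _ (h5 b)
      tP4 := (exists_tol4 D C Y₄.h5).choose_spec.2
      ε4 := fun s => (h4 s).trans (r4t X Y₄.h5 s)
      tP5 := (exists_tol5 D C Y₅.h6).choose_spec.2
      ε5' := fun b => (h5 b).trans (r5t X Y₄.f5 Y₅.h6 b)
      εe := fun k e he => (H.εe e).trans (xk k e he) }

end Vale.Agent.P073.Top880
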