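import Vale.Agent.P073.H880.TopM
import Vale.Agent.P073.H726.TopR

/-!
# P073, H726: **[TopR]**, the row `RowNum` in the form of `RowP`
-/

open Set Metric Topology Filter
open scoped ENNReal

set_option linter.unusedSectionVars false

namespace Vale.Agent.P073.Top880

open _root_.P073 _root_.P073.Net _root_.P073.PA691
open Vale.Agent.P073.St (V)
open Vale.Agent.P073.H471 Vale.Agent.P073.H267
open Vale.Agent.P073.H73 (Mesh)
open Vale.Agent.P073.H193 (Edges edges)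
open Vale.Agent.P073.H926
open Vale.Agent.P073.H238.K3
open Vale.Agent.P073.H267.K3

variable {c₀ n δ : ℝ} {j : ℕ} {Ω Λ : Set V} {v w : V} {ρ : V → ℝ} {M : Mesh Ω} {h : ConHomeo Ω Λ}
  {J₀ J : Set (ℕ × (Fin 3 → ℤ))} {P Z : Set M.ι} {K : BoxCx Λ w}

/-- **[TopR]** the row of the numbers -/
theorem row_rowNum (D : KIn3 c₀ n j δ v w ρ M h J₀ J P Z) (C : Cells ρ w K) {C₀ μT : ℝ}
    (hC₀ : 1 ≤ C₀) {Ys : Set M.κ} {sc : Sharp} {ε τ₀ : M.κ → ℝ} (hε : ∀ k, 0 < ε k)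
    (hτ₀ : ∀ k, 0 < τ₀ k) :
    RowP D C C₀ μT Ys sc fun {X _ _ _} Y₅ => ∃ t4 t5, RowNum Y₅ (tauF τ₀ X.bn) ε t4 t5 :=
  exists_rowNum D C hC₀ hε (fun b => tauF τ₀ b) (fun b _ => tauF_pos hτ₀ b)
    fun _ hb _ _ he => tauF_edge hb he

end Vale.Agent.P073.Top880
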