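import Vale.Agent.P073.H880.TopA

/-!
# P073, **[K3-TOP]**, the choice of the numbers: the constants `n`, `j`, `δ`
-/

open Set Metric Topology Filter
open scoped ENNReal

set_option linter.unusedSectionVars false

namespace Vale.Agent.P073.Top880

open _root_.P073 _root_.P073.Net _root_.P073.PA691 _root_.P073.H236 _root_.P073.H579
open Vale.Agent.P073.St (V)
open Vale.Agent.P073.H471 Vale.Agent.P073.H267
open Vale.Agent.P073.H73 (Mesh)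
open Vale.Agent.P073.H926
open Vale.Agent.P073.H238.K3

/-- **the number `n`**; `ν`: slope of the sharp faces, `ρs`: the constant of the sharp faces, `β`:
any other bound -/
theorem exists_n {c₀ ν ρs β : ℝ} (hc : 0 < c₀) (hc1 : c₀ ≤ 1 / 64) (hν : 0 < ν) (hρ : 0 < ρs)
    (hβ : 0 < β) :
    ∃ n : ℝ, 0 < n ∧ n ≤ c₀ ∧ n ≤ β ∧ n ≤ ν ∧ n ≤ ρs ∧ 31 * n / 32 ≤ ν ∧ 31 / 32 * n ≤ ν ∧
      20 / (1 / μN n) ≤ ν ∧ (1 + 3 * (20 / (1 / μN n))) * (1 + n / 64) ≤ 1 + c₀ ∧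
      (1 + 31 / 32 * n) * (1 + n / 64) ≤ 1 + c₀ ∧ 1 + n / 64 ≤ 1 + ρs / 64 := by
  set n : ℝ := min (min c₀ β) (min ν ρs) with hn
  have h0 : 0 < n := lt_min (lt_min hc hβ) (lt_min hν hρ)
  have h1 : n ≤ c₀ := (min_le_left _ _).trans (min_le_left _ _)
  have h2 : n ≤ β := (min_le_left _ _).trans (min_le_right _ _)
  have h3 : n ≤ ν := (min_le_right _ _).trans (min_le_left _ _)
  have h4 : n ≤ ρs := (min_le_right _ _).trans (min_le_right _ _)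
  have e : 20 / (1 / μN n) = 5 / 16 * n := by
    unfold μN
    field_simp
    ring
  refine ⟨n, h0, h1, h2, h3, h4, by linarith, by linarith, ?_, ?_, ?_, by linarith⟩
  · rw [e]; linarith
  · rw [e]; nlinarith
  · nlinarith

/-- a small power of one half -/
theorem exists_pow_lt {x : ℝ} (hx : 0 < x) : ∃ j : ℕ, (1:ℝ) / 2 ^ j < x := by
  obtain ⟨j, hj⟩ := exists_pow_lt_of_lt_one hx (show (1 / 2 : ℝ) < 1 by norm_num)
  exact ⟨j, by rwa [one_div_pow] at hj⟩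

/-- **the number `j`**; `β`: any other bound -/
theorem exists_j {n c₀ β : ℝ} (hn : 0 < n) (hc : 0 < c₀) (hβ : 0 < β) :
    ∃ j : ℕ, (1:ℝ) / 2 ^ j ≤ δ3 n ∧ (1:ℝ) / 2 ^ j ≤ n * δ3 n ∧ (1:ℝ) / 2 ^ j < c₀ ∧
      (1:ℝ) / 2 ^ j ≤ β := by
  have h1 := δ3_pos hn
  obtain ⟨j, hj⟩ := exists_pow_lt (lt_min (lt_min h1 (mul_pos hn h1)) (lt_min hc hβ))
  exact ⟨j, (hj.trans_le ((min_le_left _ _).trans (min_le_left _ _))).le,
    (hj.trans_le ((min_le_left _ _).trans (min_le_right _ _))).le,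
    hj.trans_le ((min_le_right _ _).trans (min_le_left _ _)),
    (hj.trans_le ((min_le_right _ _).trans (min_le_right _ _))).le⟩

/-- **the number `δ`**; `β`: any other bound -/
theorem exists_δ {n β : ℝ} {j : ℕ} (hβ : 0 < β) (hj : (1:ℝ) / 2 ^ j ≤ n * δ3 n) :
    ∃ δ : ℝ, 0 < δ ∧ 4096 * δ ≤ 1 / 2 ^ j ∧ 4096 * δ ≤ n * δ3 n ∧ 16777216 * δ ≤ n * o3 n ∧
      307200 * δ ≤ n * o3 n ∧ δ ≤ 1 / 2 ^ j ∧ δ ≤ β := by
  have h1 : (0:ℝ) < 1 / 2 ^ j := by positivity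
  have h2 : δ3 n = o3 n / 4096 := rfl
  refine ⟨min (1 / 2 ^ j / 4096) β, lt_min (by positivity) hβ, ?_, ?_, ?_, ?_, ?_, min_le_right _ _⟩
  all_goals
    have h3 : min ((1:ℝ) / 2 ^ j / 4096) β ≤ 1 / 2 ^ j / 4096 := min_le_left _ _
    have h4 : 0 < min ((1:ℝ) / 2 ^ j / 4096) β := lt_min (by positivity) hβ
    have h5 : n * δ3 n = n * o3 n / 4096 := by rw [h2]; ring
    linarith

/-- **the number `j`**, all large values (form of `H340.K3S`) -/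
theorem exists_j0 {n c₀ β : ℝ} (hn : 0 < n) (hc : 0 < c₀) (hβ : 0 < β) :
    ∃ j₀ : ℕ, ∀ j, j₀ ≤ j → (1:ℝ) / 2 ^ j ≤ δ3 n ∧ (1:ℝ) / 2 ^ j ≤ n * δ3 n ∧
      (1:ℝ) / 2 ^ j < c₀ ∧ (1:ℝ) / 2 ^ j ≤ β := by
  obtain ⟨j₀, h1, h2, h3, h4⟩ := exists_j hn hc hβ
  refine ⟨j₀, fun j hj => ?_⟩
  have h : (1:ℝ) / 2 ^ j ≤ 1 / 2 ^ j₀ :=
    one_div_le_one_div_of_le (by positivity) (pow_le_pow_right₀ (by norm_num) hj)
  exact ⟨h.trans h1, h.trans h2, h.trans_lt h3, h.trans h4⟩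

/-- **the number `δ`**, all small values (form of `H340.K3S`) -/
theorem exists_δ0 {n β : ℝ} {j : ℕ} (hβ : 0 < β) (hj : (1:ℝ) / 2 ^ j ≤ n * δ3 n) :
    ∃ δ₀ : ℝ, 0 < δ₀ ∧ ∀ δ, 0 < δ → δ ≤ δ₀ → 4096 * δ ≤ 1 / 2 ^ j ∧ 4096 * δ ≤ n * δ3 n ∧
      16777216 * δ ≤ n * o3 n ∧ 307200 * δ ≤ n * o3 n ∧ δ ≤ 1 / 2 ^ j ∧ δ ≤ β := by
  obtain ⟨δ₀, h0, h1, h2, h3, h4, h5, h6⟩ := exists_δ hβ hj
  exact ⟨δ₀, h0, fun δ _ hδ => ⟨by linarith, by linarith, by linarith, by linarith, by linarith,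
    by linarith⟩⟩

section

variable {c₀ n δ : ℝ} {j : ℕ} {Ω Λ : Set V} {v w : V} {ρ : V → ℝ} {M : Mesh Ω} {h : ConHomeo Ω Λ}
  {J₀ J : Set (ℕ × (Fin 3 → ℤ))} {P Z : Set M.ι} {K : BoxCx Λ w}

/-- the hypothesis of ROUND T on the lengths of the boxes -/
theorem len_T300 (D : KIn3 c₀ n j δ v w ρ M h J₀ J P Z) (C : Cells ρ w K)
    (hδ : 307200 * δ ≤ n * o3 n) {μ : ℝ} (hμ : n / 1024 ≤ μ) (b : TBx K) :
    300 * ω3T δ C b ≤ μ * ((D.G C).thi true b b.ax - (D.G C).tlo true b b.ax) := by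
  refine len_T D C (by norm_num) ?_ b
  have h1 := mul_le_mul_of_nonneg_right hμ (o3_pos D.pos).le
  linarith

end

end Vale.Agent.P073.Top880
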