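import Vale.Agent.P073.H608.ColApi
import Vale.Agent.P073.H726.Adapt

/-!
# P073 / H726, block B05 (ALIGN): from [COL-PL] to `Coll`
-/

open Set Metric Topology Filter WithLp MeasureTheory
open scoped ENNReal InnerProductSpace

namespace Vale.Agent.P073.H726

open _root_.P073
open Vale.Agent.P073.St (V)
open _root_.P073.H608 (PLCollapse)

/-- the Euclidean space -/
abbrev E3 : Type := EuclideanSpace ℝ (Fin 3)

/-- the identity `V → E3` -/
noncomputable def eu : V ≃L[ℝ] E3 := (PiLp.continuousLinearEquiv 2 ℝ fun _ : Fin 3 => ℝ).symm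

theorem eu_apply (y : V) : eu y = toLp 2 y := rfl

theorem eu_symm_apply (x : E3) : eu.symm x = ofLp x := rfl

theorem ofLp_eu_symm (x : E3) : toLp 2 (ofLp x) = x := rfl

variable {W V0 : Set E3} {h : ℝ} {S : E3 → E3} {tol : E3 → ℝ}

/-- the active cell is constant on preconnected sets off the skeleton -/
theorem exists_act_const {Vb : Set E3} (C : PLCollapse W Vb V0 h S tol) (hW : IsOpen W)
    {D : Set E3} (hD : D ⊆ W \ C.X) (hc : IsPreconnected D) :
    ∃ z : E3, ∀ x ∈ D, C.act x = {z} := by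
  rcases D.eq_empty_or_nonempty with rfl | ⟨x₀, hx₀⟩
  · exact ⟨0, by simp⟩
  obtain ⟨z₀, -, hz₀⟩ := C.act_eq_singleton (hD hx₀).1 (hD hx₀).2
  refine ⟨z₀, ?_⟩
  set O : E3 → Set E3 := fun z => {x | x ∈ W ∧ C.act x = {z}} with hO
  have hOX : ∀ z, ∀ x ∈ O z, x ∉ C.X := by
    rintro z x ⟨_, h⟩ ⟨_, a, ha, b, hb, hab⟩
    rw [h] at ha hb
    exact hab ((mem_singleton_iff.1 ha).trans (mem_singleton_iff.1 hb).symm)
  have hOo : ∀ z, IsOpen (O z) := by
    intro z
    rw [isOpen_iff_mem_nhds]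
    intro x hx
    obtain ⟨z', _, h1, h2⟩ := C.eventually_notMem_X hx.1 (hOX z x hx)
    have hzz : z' = z := by
      have := hx.2
      rw [h1] at this
      exact singleton_injective this
    filter_upwards [h2, hW.mem_nhds hx.1] with x' k1 k2
    refine ⟨k2, ?_⟩
    obtain ⟨a, ha⟩ := C.act_nonempty k2
    rw [hzz] at k1
    refine Subset.antisymm k1 ?_
    rw [singleton_subset_iff]
    have := k1 ha
    rw [mem_singleton_iff] at this
    rwa [← this]
  have hsub : D ⊆ O z₀ := by
    refine hc.subset_left_of_subset_union (hOo z₀) (isOpen_iUnion fun z =>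
      isOpen_iUnion fun (_ : z ≠ z₀) => hOo z) ?_ ?_ ⟨x₀, hx₀, (hD hx₀).1, hz₀⟩
    · rw [Set.disjoint_left]
      rintro x hx hx'
      obtain ⟨z, hz, hx'⟩ := mem_iUnion₂.1 hx'
      have h1 := hx.2
      rw [hx'.2] at h1
      exact hz (singleton_injective h1)
    · intro x hx
      obtain ⟨z, -, hz⟩ := C.act_eq_singleton (hD hx).1 (hD hx).2
      by_cases hzz : z = z₀
      · left
        exact ⟨(hD hx).1, by rw [hz, hzz]⟩
      · right
        exact mem_iUnion₂.2 ⟨z, hzz, (hD hx).1, hz⟩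
  exact fun x hx => (hsub hx).2

/-- **(T1)** -/
theorem Coll.of_pl {Vb : Set E3} (hWo : IsOpen W) (hWb : Bornology.IsBounded W) (h0 : 0 ≤ h)
    (h1 : h ≤ 1 / 8) (C : PLCollapse W Vb V0 (1 + h) S tol) :
    Coll (toLp 2 ⁻¹' W) (toLp 2 ⁻¹' V0) (toLp 2 ⁻¹' C.X) h (fun y => ofLp (C.T2 (toLp 2 y))) := by
  have hs : (0:ℝ) < 1 + h := by linarith
  have hc : Continuous fun y : V => toLp 2 y := PiLp.continuous_toLp 2 _
  have hc' : Continuous fun x : E3 => ofLp x := PiLp.continuous_ofLp 2 _
  have hTc := C.continuous hs.le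
  have hoff : ∀ y : V, toLp 2 y ∉ W → ofLp (C.T2 (toLp 2 y)) = y := fun y hy => by
    rw [C.id_off _ hy]
  refine
    { opn := hWo.preimage hc
      bdd := ?_
      h0 := h0
      h1 := h1
      firm := fun y y' => ?_
      off := fun y hy => hoff y hy
      maps := fun y hy => C.maps hy
      con := ?_
      Xsub := fun x hx => C.X_subset hx
      Xcl := ?_
      planes := fun x hx => ?_
      V0X := fun y hy hy0 => C.T2_mem_X hy hy0
      inj := fun y y' hX he => ?_
      aff := fun D hD hDc => ?_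
      null := ?_
      good := ?_ }
  · obtain ⟨M, hM⟩ := hWb.subset_ball (0 : E3)
    refine (Metric.isBounded_ball (x := (0 : V)) (r := M)).subset fun y hy => ?_
    have h2 := hM (show toLp 2 y ∈ W from hy)
    rw [mem_ball, dist_zero_right] at h2 ⊢
    exact (norm_le_eu y).trans_lt h2
  · have := C.firm (toLp 2 y) (toLp 2 y')
    exact this
  · have hX : ConicalSet (toLp 2 ⁻¹' W : Set V) := (hWo.preimage hc).conicalSet
    have e1 : ConicalOn (fun y : V => eu y) (toLp 2 ⁻¹' W) :=
      conicalOn_linear (eu : V →ₗ[ℝ] E3) hX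
    have e2 : ConicalOn (C.T2 ∘ fun y : V => eu y) (toLp 2 ⁻¹' W) :=
      (C.conicalOn hs.le hWo).comp e1 (fun y hy => hy) eu.continuous.continuousOn
    exact e2.linear_comp (eu.symm : E3 →ₗ[ℝ] V)
  · exact (C.isClosed_X hWo).preimage hc
  · classical
    obtain ⟨J, hJ1, hJ2, hJ3, hJ4, hJ5⟩ := C.exists_planes (x := toLp 2 x) hx
    have hfr : Module.finrank ℝ E3 = 3 := by simp
    rw [hfr] at hJ3
    set f : E3 × E3 → (V →L[ℝ] ℝ) × ℝ := fun p =>
      ((innerSL ℝ (C.w p.1 - C.w p.2)).comp (eu : V →L[ℝ] E3), C.c p.1 - C.c p.2) with hf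
    refine ⟨J.offDiag.image f, ?_, ?_, ?_⟩
    · refine Finset.card_image_le.trans ?_
      rw [Finset.offDiag_card]
      have : J.card * J.card ≤ 4 * 4 := Nat.mul_le_mul hJ3 hJ3
      omega
    · intro q hq
      rw [Finset.mem_image] at hq
      obtain ⟨p, hp, rfl⟩ := hq
      rw [Finset.mem_offDiag] at hp
      have hne := hJ4 p.1 hp.1 p.2 hp.2.1 hp.2.2
      intro h0
      have h2 : ((innerSL ℝ (C.w p.1 - C.w p.2)).comp (eu : V →L[ℝ] E3))
          (eu.symm (C.w p.1 - C.w p.2)) = 0 := by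
        have h3 : (f p).1 = 0 := h0
        simp only [hf] at h3
        rw [h3]
        rfl
      have h4 : ⟪C.w p.1 - C.w p.2, C.w p.1 - C.w p.2⟫_ℝ = 0 := h2
      rw [inner_self_eq_zero] at h4
      exact hne (sub_eq_zero.1 h4)
    · have h6 := (hc.tendsto x).eventually hJ5
      filter_upwards [h6] with x' k1 k2
      obtain ⟨i, hi, j, hj, hij, he⟩ := k1 k2
      refine ⟨f (i, j), Finset.mem_image_of_mem _ (Finset.mem_offDiag.2 ⟨hi, hj, hij⟩), ?_⟩
      exact he
  · have he' : C.T2 (toLp 2 y) = C.T2 (toLp 2 y') := by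
      have := congrArg (toLp 2) he
      exact this
    by_cases hy : toLp 2 y ∈ W
    · have := C.T2_inj hs hy hX he'
      exact toLp_injective 2 this
    · have h3 := C.id_off _ hy
      have h4 : toLp 2 y' ∉ W := fun h5 => by
        have h6 := C.maps h5
        rw [← he', h3] at h6
        exact hy h6
      have h7 := C.id_off _ h4
      rw [h3, h7] at he'
      exact toLp_injective 2 he'
  · have hD' : (fun y : V => toLp 2 y) '' D ⊆ W \ C.X := by
      rintro _ ⟨y, hy, rfl⟩
      exact hD hy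
    obtain ⟨z, hz⟩ := exists_act_const C hWo hD' (hDc.image _ hc.continuousOn)
    refine ⟨ofLp (C.w z), fun y hy => ?_⟩
    have h3 : C.T2 (toLp 2 y) ∈ (fun y : V => toLp 2 y) '' D := ⟨_, hy, rfl⟩
    have h4 := hD' h3
    have hyW : toLp 2 y ∈ W := (C.mem_iff _).1 h4.1
    obtain ⟨z', -, h5, h6⟩ := C.exists_affine hs.le hWo hyW h4.2
    have h7 : z' = z := by
      have := hz _ h3
      rw [h5] at this
      exact singleton_injective this
    have h8 := (hc.tendsto y).eventually h6
    filter_upwards [h8] with y' k1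
    rw [k1, h7]
    rfl
  · have h2 := (PiLp.volume_preserving_toLp (Fin 3)).measure_preimage_emb
      (MeasurableEquiv.toLp 2 (Fin 3 → ℝ)).measurableEmbedding C.X
    rw [h2]
    exact C.measure_X volume
  · have h2 := (PiLp.volume_preserving_toLp (Fin 3)).measure_preimage_emb
      (MeasurableEquiv.toLp 2 (Fin 3 → ℝ)).measurableEmbedding W
    have h3 := (PiLp.volume_preserving_toLp (Fin 3)).measure_preimage_emb
      (MeasurableEquiv.toLp 2 (Fin 3 → ℝ)).measurableEmbedding {y | y ∈ W ∧ C.T2 y ∉ C.X}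
    have h4 := C.measure_good (μ := (volume : Measure E3)) hs hWo
    have hfr : Module.finrank ℝ E3 = 3 := by simp
    rw [hfr, abs_of_nonneg (by positivity)] at h4
    rw [h2, ← h4]
    exact h3

end Vale.Agent.P073.H726
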