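import Vale.Agent.P073.H608.ColB1
import Vale.Agent.P073.H726.OfPL

/-!
# P073 / H726, block B05: the chain [COL] + [COL-PL] + T1 + T2 in the space `V`
-/

open Set Metric Topology Filter WithLp MeasureTheory
open scoped ENNReal InnerProductSpace

namespace Vale.Agent.P073.H726

open _root_.P073
open Vale.Agent.P073.St (V)
open _root_.P073.H608 (PLCollapse LB exists_collapse)

/-- **[B05-CHAIN]**: for every bounded open `Λ`, every slope `h` and every tolerance `ρ` there are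
a weight `(1 / τ)³` and a constant `c > 0` such that for every open `R ⊆ Λ` with weighted volume at
most `c` and every `V₀ ⊆ R` closed in `Λ` there is a collapse `T` of `Λ` which takes `V₀` into its
skeleton `X`, `‖T y - y‖ ≤ ρ y`. -/
theorem exists_coll {Λ : Set V} (hΛ : IsOpen Λ) (hΛb : Bornology.IsBounded Λ) {h : ℝ} (hh : 0 < h)
    (hh1 : h ≤ 1 / 8) {ρ : V → ℝ} (hρ : LBOn Λ ρ) :
    ∃ (τ : V → ℝ) (c : ℝ≥0∞), c ≠ 0 ∧ (∀ y, 0 ≤ τ y) ∧ (∀ y, 0 < τ y ↔ y ∈ Λ) ∧ Continuous τ ∧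
      (∀ y ∈ Λ, τ y ≤ ρ y) ∧
      ∀ R V₀ : Set V, IsOpen R → R ⊆ Λ → ∫⁻ y in R, ENNReal.ofReal (1 / τ y) ^ 3 ≤ c →
        IsClosed (V₀ ∪ Λᶜ) → V₀ ⊆ R →
        ∃ (T : V → V) (X : Set V), Coll Λ V₀ X h T ∧ ∀ y ∈ Λ, ‖T y - y‖ ≤ ρ y := by
  have hc : Continuous fun y : V => (toLp 2 y : E3) := PiLp.continuous_toLp 2 _
  have hc' : Continuous fun x : E3 => (ofLp x : V) := PiLp.continuous_ofLp 2 _
  set W : Set E3 := ofLp ⁻¹' Λ with hW
  have hWo : IsOpen W := hΛ.preimage hc'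
  have hbdd : ∀ S : Set V, Bornology.IsBounded S → Bornology.IsBounded (ofLp ⁻¹' S : Set E3) := by
    intro S hS
    have h1 : (ofLp ⁻¹' S : Set E3) = (fun y : V => (toLp 2 y : E3)) '' S := by
      ext x
      constructor
      · intro hx; exact ⟨ofLp x, hx, rfl⟩
      · rintro ⟨y, hy, rfl⟩; exact hy
    rw [h1]
    exact (LipschitzWith.isBounded_image (f := (eu : V →L[ℝ] E3)) (eu : V →L[ℝ] E3).lipschitz hS)
  have hWb : Bornology.IsBounded W := hbdd _ hΛb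
  have hρ' : LB W fun x : E3 => ρ (ofLp x) := by
    intro x hx
    obtain ⟨a, ha, h1⟩ := hρ (ofLp x) hx
    refine ⟨a, ha, ?_⟩
    have h2 := (hc'.tendsto x).eventually h1
    filter_upwards [h2, hWo.mem_nhds hx] with x' k1 k2
    exact k1 k2
  obtain ⟨τ, t1, t2, t3, t4, t5⟩ := exists_collapse (volume : Measure E3) hWo hWb
    (h := h / 2) (h2 := h) (by positivity) (by linarith) (by linarith) hρ'
  have hτc : Continuous τ :=
    (LipschitzWith.of_le_add fun x y => t3 y x : LipschitzWith 1 τ).continuous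
  refine ⟨fun y => τ (toLp 2 y), COL605.cThin (volume : Measure E3) (h / 2),
    (COL605.cThin_pos _ (by positivity)).ne', fun y => t1 _, fun y => t2 _, hτc.comp hc,
    fun y hy => t4 _ hy, fun R V₀ hR hRΛ hint hV₀ hV₀R => ?_⟩
  have hfr : Module.finrank ℝ E3 = 3 := by simp
  have e1 : ∫⁻ x in (ofLp ⁻¹' R : Set E3), ENNReal.ofReal (1 / τ x) ^ Module.finrank ℝ E3 =
      ∫⁻ y in R, ENNReal.ofReal (1 / τ (toLp 2 y)) ^ 3 := by
    rw [hfr]
    have h2 := (PiLp.volume_preserving_ofLp (Fin 3)).setLIntegral_comp_preimage_emb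
      (MeasurableEquiv.toLp 2 (Fin 3 → ℝ)).symm.measurableEmbedding
      (fun y => ENNReal.ofReal (1 / τ (toLp 2 y)) ^ 3) R
    rw [← h2]
  obtain ⟨T, C, hC⟩ := t5 (ofLp ⁻¹' R) (ofLp ⁻¹' V₀) (hR.preimage hc') (preimage_mono hRΛ)
    (by rw [e1]; exact hint) (by
      have : (ofLp ⁻¹' V₀ ∪ Wᶜ : Set E3) = ofLp ⁻¹' (V₀ ∪ Λᶜ) := rfl
      rw [this]
      exact hV₀.preimage hc') (preimage_mono hV₀R) (fun x => ρ (ofLp x)) hρ'
  refine ⟨_, _, Coll.of_pl hWo hWb hh.le hh1 C, fun y hy => ?_⟩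
  exact (norm_le_eu _).trans (hC (toLp 2 y) hy)

end Vale.Agent.P073.H726
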