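import Vale.Agent.P073.H726.NeckBall
import Vale.Agent.P073.H341.RetC

/-!
# P073, [P2e-ALL]: all the retractions, from the one-disc theorem

`P073.H341.retract` is the one-disc theorem (helper341).  `retract_all`: finitely many discs,
finitely many neck cubes.  The only bookkeeping is the family of sets `N j` of all the points which must never
enter the neck cube `j`.
-/

open Set Metric Topology Filter
open scoped ENNReal NNReal

namespace Vale.Agent.P073.H726.RA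

open _root_.P073 _root_.P073.Net
open Vale.Agent.P073.St (V euc)

/-! ### Preliminaries -/

theorem isPreconnected_ball {E : Type*} [NormedAddCommGroup E] [NormedSpace ℝ E] {n : ℕ}
    {C B : Set E} (h : ConBall n C B) : IsPreconnected C := by
  obtain ⟨-, φ, -⟩ := h
  have h1 : φ.invFun '' closedBall 0 1 = C := φ.symm.image_eq
  rw [← h1]
  exact (convex_closedBall _ _).isPreconnected.image _ φ.cont_inv

theorem isPreconnected_bdry {E : Type*} [NormedAddCommGroup E] [NormedSpace ℝ E]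
    {C B : Set E} (h : ConBall 2 C B) : IsPreconnected B := by
  obtain ⟨φ, hφ⟩ := h.eq_preimage
  rw [← hφ]
  refine IsPreconnected.image ?_ _ (φ.cont_inv.mono sphere_subset_closedBall)
  refine isPreconnected_sphere ?_ _ _
  rw [rank_fin_fun]
  norm_num

variable {Ω Λ : Set V}

/-- a homeomorphism with support in `C ⊆ Λ` preserves `Λ` -/
theorem mem_of_supp {Θ : ConHomeo (univ : Set V) (univ : Set V)} {C : Set V} (hC : C ⊆ Λ)
    (h : ∀ y, y ∉ C → Θ.toFun y = y) {y : V} (hy : y ∈ Λ) : Θ.toFun y ∈ Λ := by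
  by_contra hn
  have h1 := h _ (fun hc => hn (hC hc))
  have h2 := Θ.injOn (mem_univ _) (mem_univ _) h1
  exact hn (h2.symm ▸ hy)

theorem inv_of_supp {Θ : ConHomeo (univ : Set V) (univ : Set V)} {C : Set V}
    (h : ∀ y, y ∉ C → Θ.toFun y = y) (y : V) (hy : y ∉ C) : Θ.invFun y = y := by
  have h1 := Θ.left_inv (mem_univ y)
  rwa [h y hy] at h1

/-- composition with a homeomorphism of the space with support in `Λ` -/
noncomputable def comp (h : ConHomeo Ω Λ) (Θ : ConHomeo (univ : Set V) (univ : Set V))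
    {C : Set V} (hC : C ⊆ Λ) (hs : ∀ y, y ∉ C → Θ.toFun y = y) (hΛ : IsOpen Λ) :
    ConHomeo Ω Λ where
  toFun := Θ.toFun ∘ h.toFun
  invFun := h.invFun ∘ Θ.invFun
  mapsTo := fun x hx => mem_of_supp hC hs (h.mapsTo hx)
  mapsTo_inv := fun y hy => h.mapsTo_inv (mem_of_supp (Θ := Θ.symm) hC (inv_of_supp hs) hy)
  left_inv := fun x hx => by
    simp only [Function.comp]
    rw [Θ.left_inv (mem_univ _), h.left_inv hx]
  right_inv := fun y hy => by
    have e : h.toFun (h.invFun (Θ.invFun y)) = Θ.invFun y :=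
      h.right_inv (mem_of_supp (Θ := Θ.symm) hC (inv_of_supp hs) hy)
    simp only [Function.comp]
    rw [e, Θ.right_inv (mem_univ _)]
  cont := Θ.cont.comp h.cont (mapsTo_univ _ _)
  cont_inv := h.cont_inv.comp (Θ.cont_inv.mono (subset_univ _)) fun y hy =>
    mem_of_supp (Θ := Θ.symm) hC (inv_of_supp hs) hy
  conical := (Θ.conical.mono hΛ.conicalSet (subset_univ _)).comp h.conical h.mapsTo h.cont

theorem comp_apply (h : ConHomeo Ω Λ) (Θ : ConHomeo (univ : Set V) (univ : Set V))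
    {C : Set V} (hC : C ⊆ Λ) (hs : ∀ y, y ∉ C → Θ.toFun y = y) (hΛ : IsOpen Λ) (x : V) :
    (comp h Θ hC hs hΛ).toFun x = Θ.toFun (h.toFun x) := rfl

/-! ### The data -/

variable {I J : Type*}

/-- the discs, the neck cubes, and the sets `N j` of the points which must not enter the cube `j`
-/
structure Data (Ω Λ : Set V) (h : V → V) (q E κ O : I → Set V) (φ : I → V →L[ℝ] ℝ) (c : I → ℝ)
    (b : J → V) (ρ' : J → ℝ) (N : J → Set V) : Prop where
  ball : ∀ i, ConBall 2 (E i) (κ i)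
  one : ∀ i, ∃ n, φ i n = 1
  flat : ∀ i, ∀ x ∈ E i, φ i x = c i
  Oo : ∀ i, IsOpen (O i)
  EO : ∀ i, E i ⊆ O i
  OΩ : ∀ i, O i ⊆ Ω
  Oq : ∀ i, ∀ x ∈ O i, x ∉ q i → φ i x = c i
  EE : ∀ i i', i ≠ i' → Disjoint (E i) (E i')
  qE : ∀ i i', Disjoint (q i) (E i')
  BΛ : ∀ j, closedBall (b j) (ρ' j) ⊆ Λ
  disj : ∀ j j', j ≠ j' → Disjoint (closedBall (b j) (ρ' j)) (closedBall (b j') (ρ' j'))
  Nc : ∀ j, IsPreconnected (N j)
  NΩ : ∀ j, N j ⊆ Ω
  Nq : ∀ i j, Disjoint (N j) (q i)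
  NE : ∀ i j, Disjoint (N j) (E i \ κ i)
  NB : ∀ j, ∀ x ∈ N j, h x ∉ closedBall (b j) (ρ' j)
  far : ∀ j, ∃ L ⊆ Ω, IsCompact L ∧ Ω \ L ⊆ N j

variable {q E κ O : I → Set V} {φ : I → V →L[ℝ] ℝ} {c : I → ℝ} {b : J → V} {ρ' : J → ℝ}
  {N : J → Set V}

/-- the state during the retractions; `R`: the discs which have been retracted -/
structure State (h : V → V) (q E κ : I → Set V) (b : J → V) (ρ' : J → ℝ)
    (N : J → Set V) (R : Set I) (r : J → ℝ) (g : ConHomeo Ω Λ) : Prop where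
  pos : ∀ j, 0 < r j
  lt : ∀ j, r j < ρ' j
  circ : ∀ i, ∃ j, ∀ x ∈ κ i, g.toFun x ∈ Metric.ball (b j) (r j)
  done : ∀ i ∈ R, ∃ j, ∀ x ∈ E i, g.toFun x ∈ Metric.ball (b j) (r j)
  near : ∀ x ∈ Ω, (∀ i, x ∉ q i) → g.toFun x = h x ∨ ∃ j, g.toFun x ∈ Metric.ball (b j) (r j)
  avoid : ∀ j, ∀ x ∈ N j, g.toFun x ∉ closedBall (b j) (ρ' j)
  supp : ∃ C ⊆ Λ, IsCompact C ∧ ∀ x ∈ Ω, h x ∉ C → g.toFun x = h x

/-- one retraction -/
theorem State.step (hΛ : IsOpen Λ) {h : V → V}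
    (D : Data Ω Λ h q E κ O φ c b ρ' N) {R : Set I} {r : J → ℝ} {g : ConHomeo Ω Λ}
    (S : State h q E κ b ρ' N R r g) (i₀ : I) :
    ∃ r' g', State (Ω := Ω) (Λ := Λ) h q E κ b ρ' N (insert i₀ R) r' g' := by
  obtain ⟨j₀, hj₀⟩ := S.circ i₀
  set r' : J → ℝ := fun j => (r j + ρ' j) / 2 with hr'
  have hr1 : ∀ j, r j < r' j := fun j => by have := S.lt j; simp only [hr']; linarith
  have hr2 : ∀ j, r' j < ρ' j := fun j => by have := S.lt j; simp only [hr']; linarith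
  have hsub : ∀ j, closedBall (b j) (r' j) ⊆ closedBall (b j) (ρ' j) := fun j =>
    closedBall_subset_closedBall (hr2 j).le
  have hNE : Disjoint (N j₀) (E i₀) := by
    rw [disjoint_left]
    intro x hxN hxE
    by_cases hxκ : x ∈ κ i₀
    · refine S.avoid j₀ x hxN (ball_subset_closedBall (ball_subset_ball (S.lt j₀).le (hj₀ x hxκ)))
    · exact disjoint_left.1 (D.NE i₀ j₀) hxN ⟨hxE, hxκ⟩
  have hav : ∀ x ∈ N j₀, g.toFun x ∉ closedBall (b j₀) (r' j₀) := fun x hx hc =>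
    S.avoid j₀ x hx (hsub j₀ hc)
  obtain ⟨L, hLΩ, hL, hLN⟩ := D.far j₀
  obtain ⟨Θ, ⟨⟨C, hC, hCΛ, hCs⟩, h2, h4, h3⟩, -, h1⟩ := H341.retract hΛ g (D.Oo i₀)
    (D.OΩ i₀) (D.one i₀) (D.Oq i₀) (D.ball i₀) (D.EO i₀) (D.flat i₀) (D.qE i₀ i₀).symm (S.pos j₀)
    (hr1 j₀) ((hsub j₀).trans (D.BΛ j₀)) hj₀ (D.Nc j₀) (D.NΩ j₀) hNE (D.Nq i₀ j₀) hav hL hLΩ hLN
  have hb1 : ∀ j, Metric.ball (b j) (r j) ⊆ Metric.ball (b j) (r' j) := fun j =>
    ball_subset_ball (hr1 j).le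
  have hb2 : ∀ j, Metric.ball (b j) (r' j) ⊆ closedBall (b j) (ρ' j) := fun j =>
    ball_subset_closedBall.trans (hsub j)
  -- connected sets which are in one small cube
  have key : ∀ A ⊆ Ω, IsPreconnected A → Disjoint A (E i₀) → Disjoint A (q i₀) →
      (∃ j, ∀ x ∈ A, g.toFun x ∈ Metric.ball (b j) (r j)) →
      ∃ j, ∀ x ∈ A, Θ.toFun (g.toFun x) ∈ Metric.ball (b j) (r' j) := by
    rintro A hAΩ hA hAE hAq ⟨j, hj⟩
    by_cases hjj : j = j₀
    · subst hjj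
      refine ⟨j, fun x hx => ?_⟩
      rcases h2 x (hAΩ hx) (disjoint_left.1 hAq hx) with h5 | h5
      · rw [h5]; exact hb1 _ (hj x hx)
      · exact h5
    · rcases h4 A hAΩ hA hAE hAq (fun z hz hzc => disjoint_left.1 (D.disj j j₀ hjj)
        (hb2 j (hb1 j (hj z hz))) (hsub j₀ hzc)) with h5 | h5
      · exact ⟨j, fun x hx => by rw [h5 x hx]; exact hb1 _ (hj x hx)⟩
      · exact ⟨j₀, h5⟩
  refine ⟨r', comp g Θ hCΛ hCs hΛ, fun j => (S.pos j).trans (hr1 j), hr2, fun i => ?_,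
    fun i hi => ?_, fun x hx hxq => ?_, fun j x hx => ?_, ?_⟩
  · -- circles
    rcases eq_or_ne i i₀ with rfl | hii
    · exact ⟨j₀, fun x hx => h1 x ((D.ball i).1 hx)⟩
    · have hκE : κ i ⊆ E i := (D.ball i).1
      refine key (κ i) (hκE.trans ((D.EO i).trans (D.OΩ i))) (isPreconnected_bdry (D.ball i))
        ((D.EE i i₀ hii).mono_left hκE) ((D.qE i₀ i).symm.mono_left hκE) (S.circ i)
  · -- retracted discs
    rcases eq_or_ne i i₀ with rfl | hii
    · exact ⟨j₀, fun x hx => h1 x hx⟩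
    · exact key (E i) ((D.EO i).trans (D.OΩ i)) (isPreconnected_ball (D.ball i)) (D.EE i i₀ hii)
        (D.qE i₀ i).symm (S.done i (hi.resolve_left hii))
  · -- the dichotomy
    rw [comp_apply]
    rcases h2 x hx (hxq i₀) with h5 | h5
    · rw [h5]
      rcases S.near x hx hxq with h6 | ⟨j, hj⟩
      · exact Or.inl h6
      · exact Or.inr ⟨j, hb1 j hj⟩
    · exact Or.inr ⟨j₀, h5⟩
  · -- the sets `N j`
    rw [comp_apply]
    by_cases hjj : j = j₀
    · subst hjj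
      rw [h3 (N j) (D.NΩ j) (D.Nc j) hNE (D.Nq i₀ j) hav ⟨x, hx, hx⟩ x hx]
      exact S.avoid j x hx
    · rcases h2 x (D.NΩ j hx) (disjoint_left.1 (D.Nq i₀ j) hx) with h5 | h5
      · rw [h5]; exact S.avoid j x hx
      · exact fun hc => disjoint_left.1 (D.disj j j₀ hjj) hc (hb2 j₀ h5)
  · -- the support
    obtain ⟨C', hC'Λ, hC', hs⟩ := S.supp
    refine ⟨C' ∪ C, union_subset hC'Λ hCΛ, hC'.union hC, fun x hx hxC => ?_⟩
    rw [comp_apply]
    have h5 := hs x hx fun hc => hxC (Or.inl hc)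
    rw [h5]
    exact hCs _ fun hc => hxC (Or.inr hc)

/-- **[P2e-ALL] All the retractions.** -/
theorem retract_all [Finite I] (hΛ : IsOpen Λ)
    (h : ConHomeo Ω Λ) (D : Data Ω Λ h.toFun q E κ O φ c b ρ' N) {ρ : J → ℝ}
    (hρ : ∀ j, 0 < ρ j) (hρ' : ∀ j, ρ j < ρ' j)
    (hκ : ∀ i, ∃ j, ∀ x ∈ κ i, h.toFun x ∈ Metric.ball (b j) (ρ j)) :
    ∃ h' : ConHomeo Ω Λ,
      (∀ i, ∃ j, ∀ x ∈ E i, h'.toFun x ∈ Metric.ball (b j) (ρ' j)) ∧
      (∀ x ∈ Ω, (∀ i, x ∉ q i) → h'.toFun x = h.toFun x ∨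
        ∃ j, h'.toFun x ∈ Metric.ball (b j) (ρ' j)) ∧
      (∀ j, ∀ x ∈ N j, h'.toFun x ∉ closedBall (b j) (ρ' j)) ∧
      ∃ C ⊆ Λ, IsCompact C ∧ ∀ x ∈ Ω, h.toFun x ∉ C → h'.toFun x = h.toFun x := by
  have key : ∀ R : Set I, R.Finite →
      ∃ r g, State (Ω := Ω) (Λ := Λ) h.toFun q E κ b ρ' N R r g := by
    intro R hR
    induction R, hR using Set.Finite.induction_on with
    | empty =>
      exact ⟨ρ, h, ⟨hρ, hρ', hκ, fun i hi => absurd hi (notMem_empty i),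
        fun x _ _ => Or.inl rfl, D.NB, ∅, empty_subset _, isCompact_empty, fun x _ _ => rfl⟩⟩
    | @insert i R _ _ ih =>
      obtain ⟨r, g, S⟩ := ih
      exact S.step hΛ D i
  obtain ⟨r, g, S⟩ := key univ finite_univ
  refine ⟨g, fun i => ?_, fun x hx hxq => ?_, S.avoid, S.supp⟩
  · obtain ⟨j, hj⟩ := S.done i (mem_univ i)
    exact ⟨j, fun x hx => ball_subset_ball (S.lt j).le (hj x hx)⟩
  · rcases S.near x hx hxq with h1 | ⟨j, hj⟩
    · exact Or.inl h1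
    · exact Or.inr ⟨j, ball_subset_ball (S.lt j).le hj⟩

end Vale.Agent.P073.H726.RA
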