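import Vale.Agent.P073.H726.Final
import Vale.Agent.P073.H880.TopZ

/-!
# P073: all exponents `1 ≤ p`, from the two families of rows
-/

namespace Vale.Agent.P073.H726

open Vale.Agent.P073.H608 (Full)
open Vale.Agent.P073.Top880 (RowsS RowsO k3c_of_rows)

/-- all exponents, from the rows -/
theorem full_of_rows (HR : ∀ p : ℝ, 3 ≤ p → ∀ C₀ : ℝ, 1 ≤ C₀ → RowsS p C₀)
    (HO : ∀ C₀ : ℝ, 1 ≤ C₀ → RowsO C₀) {p : ℝ} (hp : 1 ≤ p) : Full p :=
  full_of_k3c (fun q hq => k3c_of_rows (by linarith) (HR q hq) HO) hp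

end Vale.Agent.P073.H726
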