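import Vale.Agent.P073.H726.PLQ
import Vale.Agent.P073.ConHomeo
import Vale.Agent.P073.IoD

/-!
# P073 / H726: the variable slope lemma

Let `T` be a monotone conical map of `Λ` (in the sense `|T y - T y'|² ≤ (1 + h) ⟪y - y', T y - T y'⟫`),
the identity off `Λ`, injective off `T⁻¹ X`, where `X` is closed in `Λ`. Then for every positive
continuous `δ` on `Λ` there is a conical homeomorphism `g` of `Λ` with `|g y - T y| ≤ δ (T y)`,
`g = T` at the points with `T y` not in the `δ (T y)`-neighbourhood of `X`, and `g - T` is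
`ε`-Lipschitz for the Euclidean norm.
-/

open Set Metric Topology Filter WithLp

namespace Vale.Agent.P073.H726

open _root_.P073

variable {n : ℕ}

/-! ### Algebra in an inner product space -/

section alg

variable {E : Type*} [NormedAddCommGroup E] [InnerProductSpace ℝ E]

open scoped InnerProductSpace

theorem vs_lower {p w d₁ d₂ : E} {a h η c : ℝ} (ha0 : 0 ≤ a) (ha1 : a ≤ 1)
    (hh : h ≤ 1 / 8) (hpw : -(h * ‖p‖ ^ 2) ≤ ⟪p, w⟫_ℝ) (hη : η ≤ 1 / 10) (hc : c ≤ 1 / 10)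
    (h1 : ‖d₁‖ ≤ η * a * ‖w‖) (h2 : ‖d₂‖ ≤ c * ‖p‖) :
    1 / 2 * (‖p‖ + a * ‖w‖) ≤ ‖p + (a • w + d₁ + d₂)‖ := by
  have e1 : ‖p + a • w‖ ^ 2 = ‖p‖ ^ 2 + 2 * (a * ⟪p, w⟫_ℝ) + (a * ‖w‖) ^ 2 := by
    rw [norm_add_sq_real, inner_smul_right, norm_smul, Real.norm_of_nonneg ha0]
  have hp := norm_nonneg p
  have hw := mul_nonneg ha0 (norm_nonneg w)
  have e2 : 3 / 4 * ‖p‖ ^ 2 ≤ ‖p‖ ^ 2 + 2 * (a * ⟪p, w⟫_ℝ) := by
    have k1 : -(1 / 8 * ‖p‖ ^ 2) ≤ ⟪p, w⟫_ℝ := by nlinarith [sq_nonneg ‖p‖]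
    have k2 : a * -(1 / 8 * ‖p‖ ^ 2) ≤ a * ⟪p, w⟫_ℝ := by gcongr
    have k3 : a * (1 / 8 * ‖p‖ ^ 2) ≤ 1 * (1 / 8 * ‖p‖ ^ 2) := by gcongr
    linarith
  have e3 : 3 / 5 * (‖p‖ + a * ‖w‖) ≤ ‖p + a • w‖ := by
    apply le_of_sq_le_sq _ (norm_nonneg _)
    rw [e1]
    nlinarith [sq_nonneg (‖p‖ - a * ‖w‖)]
  have e4 : ‖p + a • w‖ ≤ ‖p + (a • w + d₁ + d₂)‖ + ‖d₁‖ + ‖d₂‖ := by
    have : p + a • w = (p + (a • w + d₁ + d₂)) - d₁ - d₂ := by abel
    calc ‖p + a • w‖ = ‖(p + (a • w + d₁ + d₂)) - d₁ - d₂‖ := by rw [← this]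
      _ ≤ ‖(p + (a • w + d₁ + d₂)) - d₁‖ + ‖d₂‖ := norm_sub_le _ _
      _ ≤ _ := by gcongr; exact norm_sub_le _ _
  have e5 : η * a * ‖w‖ ≤ 1 / 10 * (a * ‖w‖) := by nlinarith
  have e6 : c * ‖p‖ ≤ 1 / 10 * ‖p‖ := by gcongr
  linarith

theorem vs_upper {p w d₁ d₂ : E} {a η c : ℝ} (ha0 : 0 ≤ a)
    (h1 : ‖d₁‖ ≤ η * a * ‖w‖) (h2 : ‖d₂‖ ≤ c * ‖p‖) :
    ‖p + (a • w + d₁ + d₂)‖ ≤ (1 + c) * ‖p‖ + (1 + η) * a * ‖w‖ := by
  calc ‖p + (a • w + d₁ + d₂)‖ ≤ ‖p‖ + (‖a • w‖ + ‖d₁‖ + ‖d₂‖) := by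
        refine (norm_add_le _ _).trans ?_
        gcongr
        refine (norm_add_le _ _).trans ?_
        gcongr
        exact norm_add_le _ _
    _ = ‖p‖ + (a * ‖w‖ + ‖d₁‖ + ‖d₂‖) := by rw [norm_smul, Real.norm_of_nonneg ha0]
    _ ≤ _ := by linarith

theorem vs_mono {p y : E} {h : ℝ} (h0 : 0 ≤ h) (H : ‖p‖ ^ 2 ≤ (1 + h) * ⟪y, p⟫_ℝ) :
    -(h * ‖p‖ ^ 2) ≤ ⟪p, y - p⟫_ℝ := by
  rw [inner_sub_right, real_inner_self_eq_norm_sq, real_inner_comm]
  by_contra hcon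
  push Not at hcon
  have h1 : ⟪y, p⟫_ℝ < (1 - h) * ‖p‖ ^ 2 := by linarith
  have h2 : (1 + h) * ⟪y, p⟫_ℝ < (1 + h) * ((1 - h) * ‖p‖ ^ 2) :=
    mul_lt_mul_of_pos_left h1 (by linarith)
  nlinarith [mul_nonneg (mul_nonneg h0 h0) (sq_nonneg ‖p‖)]

theorem vs_lip {p y : E} {h : ℝ} (h0 : 0 ≤ h) (H : ‖p‖ ^ 2 ≤ (1 + h) * ⟪y, p⟫_ℝ) :
    ‖p‖ ≤ (1 + h) * ‖y‖ := by
  have h1 := real_inner_le_norm y p
  rcases eq_or_lt_of_le (norm_nonneg p) with h2 | h2
  · rw [← h2]; positivity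
  · have h3 : (1 + h) * ⟪y, p⟫_ℝ ≤ (1 + h) * (‖y‖ * ‖p‖) := by gcongr
    have h4 : ‖p‖ * ‖p‖ ≤ ((1 + h) * ‖y‖) * ‖p‖ := by nlinarith
    exact le_of_mul_le_mul_right h4 h2

end alg

/-! ### Euclidean and sup norms -/

theorem norm_le_eu (x : Fin n → ℝ) : ‖x‖ ≤ ‖toLp 2 x‖ := by
  rw [pi_norm_le_iff_of_nonneg (norm_nonneg _)]
  intro k
  exact PiLp.norm_apply_le (toLp 2 x) k

theorem eu_le_of_abs_le {x : Fin n → ℝ} {t : ℝ} (ht : 0 ≤ t) (h : ∀ k, |x k| ≤ t) :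
    ‖toLp 2 x‖ ≤ Real.sqrt n * t := by
  rw [EuclideanSpace.norm_eq]
  have h1 : ∑ k, ‖(toLp 2 x) k‖ ^ 2 ≤ ∑ _k : Fin n, t ^ 2 := by
    refine Finset.sum_le_sum fun k _ => ?_
    rw [Real.norm_eq_abs]
    exact pow_le_pow_left₀ (abs_nonneg _) (h k) 2
  rw [Finset.sum_const, Finset.card_univ, Fintype.card_fin, nsmul_eq_mul] at h1
  calc Real.sqrt (∑ k, ‖(toLp 2 x) k‖ ^ 2) ≤ Real.sqrt (n * t ^ 2) := Real.sqrt_le_sqrt h1
    _ = Real.sqrt n * t := by rw [Real.sqrt_mul (by positivity), Real.sqrt_sq ht]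

theorem eu_mono {x y : Fin n → ℝ} {c : ℝ} (hc : 0 ≤ c) (h : ∀ k, |x k| ≤ c * |y k|) :
    ‖toLp 2 x‖ ≤ c * ‖toLp 2 y‖ := by
  have e : ‖toLp 2 (c • y)‖ = c * ‖toLp 2 y‖ := by
    rw [toLp_smul, norm_smul, Real.norm_of_nonneg hc]
  rw [← e, EuclideanSpace.norm_eq, EuclideanSpace.norm_eq]
  refine Real.sqrt_le_sqrt (Finset.sum_le_sum fun k _ => ?_)
  refine pow_le_pow_left₀ (norm_nonneg _) ?_ 2
  show |x k| ≤ |c * y k|
  rw [abs_mul, abs_of_nonneg hc]
  exact h k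

/-! ### Lipschitz functions below a positive function -/

theorem exists_lower {Λ : Set (Fin n → ℝ)} (hΛ : IsOpen Λ) (hne : Λᶜ.Nonempty)
    {s : (Fin n → ℝ) → ℝ} (hs : ∀ x ∈ Λ, ∃ c > 0, ∀ᶠ w in 𝓝 x, w ∈ Λ → c ≤ s w)
    (hs0 : ∀ y ∈ Λ, 0 < s y) :
    ∃ r : (Fin n → ℝ) → ℝ, (∀ x y, r x ≤ r y + ‖x - y‖) ∧ (∀ x ∈ Λ, 0 < r x) ∧
      (∀ x ∈ Λ, r x ≤ s x) ∧ (∀ x, r x ≤ 1) ∧ ∀ x ∉ Λ, r x ≤ 0 := by
  rcases Λ.eq_empty_or_nonempty with rfl | hne'
  · exact ⟨fun _ => 0, fun x y => by positivity, fun x hx => hx.elim, fun x hx => hx.elim,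
      fun _ => zero_le_one, fun _ _ => le_rfl⟩
  have : Nonempty Λ := hne'.to_subtype
  have hbdd : ∀ x : Fin n → ℝ, BddBelow (range fun w : Λ => s w + ‖x - w‖) := fun x =>
    ⟨0, by
      rintro _ ⟨w, rfl⟩
      exact add_nonneg (hs0 _ w.2).le (norm_nonneg _)⟩
  set τ : (Fin n → ℝ) → ℝ := fun x => ⨅ w : Λ, (s w + ‖x - w‖) with hτ
  have hτ1 : ∀ x y, τ x ≤ τ y + ‖x - y‖ := by
    intro x y
    have h : (⨅ w : Λ, (s w + ‖x - w‖)) - ‖x - y‖ ≤ ⨅ w : Λ, (s w + ‖y - w‖) := by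
      refine le_ciInf fun w => ?_
      have h1 : (⨅ w : Λ, (s w + ‖x - w‖)) ≤ s w + ‖x - w‖ := ciInf_le (hbdd x) w
      have h2 := norm_sub_le_norm_sub_add_norm_sub x y (w : Fin n → ℝ)
      linarith
    show (⨅ w : Λ, (s w + ‖x - w‖)) ≤ (⨅ w : Λ, (s w + ‖y - w‖)) + ‖x - y‖
    linarith
  have hτ2 : ∀ x ∈ Λ, 0 < τ x := by
    intro x hx
    obtain ⟨c, hc, h1⟩ := hs x hx
    obtain ⟨r, hr, hball⟩ := Metric.eventually_nhds_iff_ball.1 h1
    refine lt_of_lt_of_le (lt_min hc hr) (le_ciInf fun w => ?_)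
    by_cases hw : (w : Fin n → ℝ) ∈ ball x r
    · have h2 := hball _ hw w.2
      have h3 := norm_nonneg (x - w)
      exact (min_le_left _ _).trans (by linarith)
    · have h2 : r ≤ ‖x - w‖ := by
        by_contra h
        push Not at h
        refine hw ?_
        rw [mem_ball, dist_comm, dist_eq_norm]
        exact h
      have h3 := hs0 _ w.2
      exact (min_le_right _ _).trans (by linarith)
  refine ⟨fun x => min 1 (min (τ x) (infDist x Λᶜ)), fun x y => ?_, fun x hx => ?_, fun x hx => ?_,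
    fun x => min_le_left _ _, fun x hx => ?_⟩
  · have h0 := norm_nonneg (x - y)
    have h1 := hτ1 x y
    have h2 : infDist x Λᶜ ≤ infDist y Λᶜ + ‖x - y‖ := by
      rw [← dist_eq_norm]; exact infDist_le_infDist_add_dist
    rw [← min_add_add_right, ← min_add_add_right]
    exact min_le_min (by linarith) (min_le_min h1 h2)
  · refine lt_min one_pos (lt_min (hτ2 x hx) ?_)
    exact (hΛ.isClosed_compl.notMem_iff_infDist_pos hne).1 (fun h => h hx)
  · refine (min_le_right _ _).trans ((min_le_left _ _).trans ?_)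
    have := ciInf_le (hbdd x) ⟨x, hx⟩
    simpa using this
  · refine (min_le_right _ _).trans ((min_le_right _ _).trans ?_)
    rw [infDist_zero_of_mem (by exact hx)]

/-- continuous positive functions are locally bounded below -/
theorem lb_of_continuousOn {Λ : Set (Fin n → ℝ)} (hΛ : IsOpen Λ) {s : (Fin n → ℝ) → ℝ}
    (hs : ContinuousOn s Λ) (hs0 : ∀ y ∈ Λ, 0 < s y) :
    ∀ x ∈ Λ, ∃ c > 0, ∀ᶠ w in 𝓝 x, w ∈ Λ → c ≤ s w := by
  intro x hx
  have hcx : ContinuousAt s x := hs.continuousAt (hΛ.mem_nhds hx)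
  have hsx := hs0 x hx
  have h1 : ∀ᶠ w in 𝓝 x, s x / 2 < s w := hcx.eventually_const_lt (by linarith)
  exact ⟨s x / 2, by linarith, h1.mono fun w hw _ => hw.le⟩

/-! ### Injective maps equal to the identity off a bounded set -/

/-- a continuous injective map of `ℝⁿ`, equal to the identity off a bounded set, is a
homeomorphism -/
theorem exists_homeo_of_injective {F : (Fin n → ℝ) → (Fin n → ℝ)} (hF : Continuous F)
    (hi : Function.Injective F) {Λ : Set (Fin n → ℝ)} (hb : Bornology.IsBounded Λ)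
    (hid : ∀ y ∉ Λ, F y = y) :
    ∃ H : (Fin n → ℝ) ≃ₜ (Fin n → ℝ), (∀ y, H y = F y) ∧ ∀ y, H y ∈ Λ ↔ y ∈ Λ := by
  have hopen : IsOpenMap F := fun U hU =>
    Vale.Agent.P073.Sep.isOpen_image_of_injOn hU hF.continuousOn hi.injOn
  obtain ⟨M, hM⟩ := hb.subset_ball (0 : Fin n → ℝ)
  have hrange : range F = F '' closedBall 0 M ∪ (ball 0 M)ᶜ := by
    apply Subset.antisymm
    · rintro _ ⟨y, rfl⟩
      by_cases hy : y ∈ ball (0 : Fin n → ℝ) M
      · exact Or.inl ⟨y, ball_subset_closedBall hy, rfl⟩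
      · right
        rw [hid y (fun h => hy (hM h))]
        exact hy
    · rintro y (⟨x, -, rfl⟩ | hy)
      · exact mem_range_self x
      · exact ⟨y, hid y (fun h => hy (hM h))⟩
  have hclosed : IsClosed (range F) := by
    rw [hrange]
    exact (((isCompact_closedBall _ _).image hF).isClosed).union isOpen_ball.isClosed_compl
  have hsurj : Function.Surjective F := by
    rw [← range_eq_univ]
    exact IsClopen.eq_univ ⟨hclosed, hopen.isOpen_range⟩ (range_nonempty F)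
  refine ⟨(Equiv.ofBijective F ⟨hi, hsurj⟩).toHomeomorphOfContinuousOpen hF hopen, fun y => rfl,
    fun y => ?_⟩
  show F y ∈ Λ ↔ y ∈ Λ
  constructor
  · intro h
    by_contra hy
    rw [hid y hy] at h
    exact hy h
  · intro h
    by_contra hy
    have := hi (hid _ hy)
    rw [this] at hy
    exact hy h

/-! ### The lemma -/

open scoped InnerProductSpace

/-- the componentwise product -/
noncomputable def qv (ρ R a : ℝ) (w : Fin n → ℝ) : Fin n → ℝ := fun k => qo ρ R a (w k)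

/-- truncation -/
noncomputable def cl (θ q : ℝ) : ℝ := max (-θ) (min θ q)

theorem cl_eq {θ q : ℝ} (h : |q| ≤ θ) : cl θ q = q := by
  have := abs_le.1 h
  rw [cl, min_eq_right this.2, max_eq_right this.1]

theorem cl_zero_left {q : ℝ} : cl 0 q = 0 := by
  rw [cl, neg_zero]
  exact max_eq_left (min_le_left _ _)

theorem abs_cl_le {θ q : ℝ} (h : 0 ≤ θ) : |cl θ q| ≤ |q| := by
  rcases le_total |q| θ with h1 | h1
  · rw [cl_eq h1]
  · refine le_trans ?_ h1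
    rw [abs_le, cl]
    exact ⟨le_max_left _ _, max_le (by linarith) (min_le_left _ _)⟩

theorem cl_lip (θ θ' q q' : ℝ) : |cl θ q - cl θ' q'| ≤ |q - q'| + |θ - θ'| := by
  have h1 : |cl θ q - cl θ' q'| ≤ max |(-θ) - (-θ')| |min θ q - min θ' q'| :=
    abs_max_sub_max_le_max _ _ _ _
  have h2 : |min θ q - min θ' q'| ≤ max |θ - θ'| |q - q'| := abs_min_sub_min_le_max _ _ _ _
  have h3 : |(-θ) - (-θ')| = |θ - θ'| := by rw [← abs_neg]; congr 1; ring
  rw [h3] at h1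
  refine h1.trans (max_le ?_ (h2.trans (max_le ?_ ?_)))
  · linarith [abs_nonneg (q - q')]
  · linarith [abs_nonneg (q - q')]
  · linarith [abs_nonneg (θ - θ')]

/-- the hypotheses on the collapse -/
structure CollLite (Λ X : Set (Fin n → ℝ)) (h : ℝ) (T : (Fin n → ℝ) → (Fin n → ℝ)) : Prop where
  opn : IsOpen Λ
  bdd : Bornology.IsBounded Λ
  ne : Λᶜ.Nonempty
  h0 : 0 ≤ h
  h1 : h ≤ 1 / 8
  firm : ∀ y y', ‖toLp 2 (T y - T y')‖ ^ 2 ≤
    (1 + h) * ⟪toLp 2 (y - y'), toLp 2 (T y - T y')⟫_ℝ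
  off : ∀ y ∉ Λ, T y = y
  maps : MapsTo T Λ Λ
  con : ConicalOn T Λ
  Xsub : X ⊆ Λ
  Xcl : IsClosed (X ∪ Λᶜ)
  aff : ∀ C ⊆ Λ \ X, IsPreconnected C → ∃ w : Fin n → ℝ, ∀ y, T y ∈ C → T y = (1 + h) • y - w

/-- the auxiliary functions -/
structure VS (Λ X : Set (Fin n → ℝ)) (T : (Fin n → ℝ) → (Fin n → ℝ)) (R l e μ ε : ℝ)
    (r κ θ : (Fin n → ℝ) → ℝ) : Prop where
  R0 : 0 < R
  hR : ∀ y k, |(y - T y) k| ≤ R
  l0 : 0 ≤ l
  e0 : 0 ≤ e
  cμ : Real.sqrt n * (R * l) ≤ μ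
  eμ : Real.sqrt n * e ≤ μ
  μ0 : 0 ≤ μ
  μ1 : μ ≤ 1 / 16
  μ2 : μ ≤ ε / 6
  rlip : ∀ u v, r u ≤ r v + ‖u - v‖
  rpos : ∀ u ∈ Λ, 0 < r u
  roff : ∀ u ∉ Λ, r u ≤ 0
  κ0 : ∀ u, 0 ≤ κ u
  κμ : ∀ u, κ u ≤ μ
  κpos : ∀ u ∈ Λ, 0 < κ u
  κlip : ∀ u v, |κ u - κ v| ≤ l * ‖u - v‖
  κR : ∀ u, 2 * κ u * R ≤ max 0 (r u) / 512
  θ0 : ∀ u, 0 ≤ θ u
  θlip : ∀ u v, |θ u - θ v| ≤ e * ‖u - v‖
  unc : ∀ u ∈ Λ, (∃ x ∈ X, ‖u - x‖ < r u / 64) → 2 * κ u * R ≤ θ u
  far : ∀ u, θ u ≠ 0 → ∃ x ∈ X, ‖u - x‖ ≤ 2 * r u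
  κcon : ∀ u ∈ Λ, ConicalWithinAt κ univ u
  θcon : ∀ u ∈ Λ, ConicalWithinAt θ univ u

theorem lip_of {f : (Fin n → ℝ) → ℝ} {a : ℝ} (ha : 0 ≤ a) (hf : ∀ u v, f u ≤ f v + ‖u - v‖)
    (u v : Fin n → ℝ) : |a * f u - a * f v| ≤ a * ‖u - v‖ := by
  have e1 := hf u v
  have e2 := hf v u
  rw [norm_sub_rev v u] at e2
  rw [← mul_sub, abs_mul, abs_of_nonneg ha]
  gcongr
  rw [abs_le]
  constructor <;> linarith

theorem CollLite.exists_vs {Λ X : Set (Fin n → ℝ)} {h : ℝ} {T : (Fin n → ℝ) → (Fin n → ℝ)}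
    (C : CollLite Λ X h T)
    {δ : (Fin n → ℝ) → ℝ} (hδ : ∀ x ∈ Λ, ∃ c > 0, ∀ᶠ w in 𝓝 x, w ∈ Λ → c ≤ δ w)
    (hδ0 : ∀ y ∈ Λ, 0 < δ y) {ε : ℝ} (hε : 0 < ε) :
    ∃ (R l e μ : ℝ) (r κ θ : (Fin n → ℝ) → ℝ), VS Λ X T R l e μ ε r κ θ ∧
      ∀ u ∈ Λ, 2 * r u ≤ δ u := by
  -- the bound `R`
  obtain ⟨R, hR0, hR⟩ : ∃ R : ℝ, 0 < R ∧ ∀ y k, |(y - T y) k| ≤ R := by
    obtain ⟨M, hM⟩ := C.bdd.subset_ball (0 : Fin n → ℝ)
    refine ⟨2 * (|M| + 1), by positivity, fun y k => ?_⟩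
    by_cases hy : y ∈ Λ
    · have e1 := hM hy
      have e2 := hM (C.maps hy)
      rw [mem_ball, dist_zero_right] at e1 e2
      have e3 := norm_le_pi_norm (y - T y) k
      have e5 := norm_sub_le y (T y)
      have e6 := le_abs_self M
      rw [Real.norm_eq_abs] at e3
      linarith
    · rw [C.off y hy, sub_self, Pi.zero_apply, abs_zero]; positivity
  -- the functions
  obtain ⟨r, hr1, hr2, hr3', hr4, hr5⟩ := exists_lower C.opn C.ne (s := fun x => δ x / 2)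
    (fun x hx => by
      obtain ⟨c, hc, h2⟩ := hδ x hx
      exact ⟨c / 2, by positivity, h2.mono fun w hw hwΛ => by
        have := hw hwΛ
        show c / 2 ≤ δ w / 2
        linarith⟩) (fun y hy => by
      have := hδ0 y hy
      positivity)
  have hr3 : ∀ x ∈ Λ, 2 * r x ≤ δ x := fun x hx => by
    have h2 : r x ≤ δ x / 2 := hr3' x hx
    linarith
  have hXr : ∀ u, 0 < r u → u ∈ X ∨ ∃ d > 0, ∀ x ∈ X, d ≤ ‖u - x‖ := by
    intro u hu
    by_cases huX : u ∈ X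
    · exact Or.inl huX
    · right
      have huΛ : u ∈ Λ := by
        by_contra hc
        linarith [hr5 u hc]
      have hu' : u ∉ X ∪ Λᶜ := by
        rw [mem_union, not_or]
        exact ⟨huX, fun h => h huΛ⟩
      have hnn : (X ∪ Λᶜ).Nonempty := C.ne.mono subset_union_right
      refine ⟨infDist u (X ∪ Λᶜ), (C.Xcl.notMem_iff_infDist_pos hnn).1 hu', fun x hx => ?_⟩
      rw [← dist_eq_norm]
      exact infDist_le_dist_of_mem (Or.inl hx)
  obtain ⟨κ₀, hκ1, hκ2, hκ3, hκ4, hκ5⟩ := exists_plk hr1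
  obtain ⟨κ₁, hq1, hq2, hq3, hq4, hq6, hq7, hq5⟩ := exists_plk_near hr1 hXr
  set μ : ℝ := min (1 / 16) (ε / 6) with hμ
  have hμ0 : 0 < μ := by positivity
  have hμ1 : μ ≤ 1 / 16 := min_le_left _ _
  have hμ2 : μ ≤ ε / 6 := min_le_right _ _
  have hsn : 0 ≤ Real.sqrt n := Real.sqrt_nonneg _
  set e : ℝ := μ / (Real.sqrt n + 1) with he
  have he0 : 0 < e := by positivity
  have he1 : e * (Real.sqrt n + 1) = μ := by rw [he]; field_simp
  have heμ : e ≤ μ := by nlinarith [mul_nonneg he0.le hsn]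
  have hesn : Real.sqrt n * e ≤ μ := by nlinarith [mul_nonneg he0.le hsn]
  set l : ℝ := e / (64 * ((Real.sqrt n + 1) * (R + 1))) with hl
  have hl0 : 0 < l := by positivity
  have hl1 : l * (64 * ((Real.sqrt n + 1) * (R + 1))) = e := by
    rw [hl]; field_simp
  have hl2 : l * (64 * ((Real.sqrt n + 1) * (R + 1))) =
    64 * (l * Real.sqrt n * R) + 64 * (l * Real.sqrt n) + 64 * (l * R) + 64 * l := by ring
  have hl3 := mul_nonneg hl0.le hsn
  have hl4 := mul_nonneg (mul_nonneg hl0.le hsn) hR0.le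
  have hl5 := mul_nonneg hl0.le hR0.le
  have hle : l ≤ e := by linarith
  have hlμ : l ≤ μ := hle.trans heμ
  have hlR : 2 * R * l ≤ e / 32 := by
    have : 2 * R * l = 2 * (l * R) := by ring
    linarith
  have hcμ : Real.sqrt n * (R * l) ≤ μ := by
    have : Real.sqrt n * (R * l) = l * Real.sqrt n * R := by ring
    linarith
  have hκr : ∀ u, l * κ₀ u ≤ l * max 0 (r u) := fun u =>
    mul_le_mul_of_nonneg_left (hκ3 u) hl0.le
  refine ⟨R, l, e, μ, r, fun u => l * κ₀ u, fun u => e * κ₁ u,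
    ⟨hR0, hR, hl0.le, he0.le, hcμ, hesn, hμ0.le, hμ1, hμ2, hr1, hr2, hr5,
      fun u => mul_nonneg hl0.le (hκ1 u), fun u => ?_, fun u hu => mul_pos hl0 (hκ4 u (hr2 u hu)),
      lip_of hl0.le hκ2, fun u => ?_, fun u => mul_nonneg he0.le (hq1 u), lip_of he0.le hq2,
      fun u hu => ?_, fun u hu => ?_, fun u hu => (hκ5 _ (hr2 _ hu)).const_smul l,
      fun u hu => (hq5 _ (hr2 _ hu)).const_smul e⟩, hr3⟩
  · have : κ₀ u ≤ 1 := (hκ3 u).trans (max_le zero_le_one (hr4 u))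
    calc l * κ₀ u ≤ l * 1 := by gcongr
      _ ≤ μ := by rw [mul_one]; exact hlμ
  · have e2 : (0:ℝ) ≤ max 0 (r u) := le_max_left _ _
    calc 2 * (l * κ₀ u) * R ≤ 2 * (l * max 0 (r u)) * R := by gcongr; exact hκ3 u
      _ = (2 * R * l) * max 0 (r u) := by ring
      _ ≤ (1 / 512) * max 0 (r u) := by gcongr; linarith
      _ = _ := by ring
  · rintro ⟨x, hxX, hx⟩
    have hu' := hr2 _ hu
    have hrx := hr1 u x
    have hrx2 := hq6 x hxX (by linarith) (hr4 x)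
    have hrx3 := hq2 x u
    rw [norm_sub_rev] at hrx3
    have e1 : r u / 32 ≤ κ₁ u := by linarith
    have e3 := hκr u
    rw [max_eq_right hu'.le] at e3
    calc 2 * (l * κ₀ u) * R ≤ 2 * (l * r u) * R := by gcongr
      _ = (2 * R * l) * r u := by ring
      _ ≤ e / 32 * r u := by gcongr
      _ = e * (r u / 32) := by ring
      _ ≤ e * κ₁ u := by gcongr
  · exact hq7 u fun h0 => hu (by simp only [h0, mul_zero])

section main

variable {Λ X : Set (Fin n → ℝ)} {h : ℝ} {T : (Fin n → ℝ) → (Fin n → ℝ)} {R l e μ ε : ℝ}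
  {r κ θ : (Fin n → ℝ) → ℝ}

/-- the correction without truncation -/
noncomputable def cQ (T : (Fin n → ℝ) → (Fin n → ℝ)) (R : ℝ) (κ : (Fin n → ℝ) → ℝ)
    (y : Fin n → ℝ) : Fin n → ℝ := qv (10 / 11) R (κ (T y)) (y - T y)

/-- the truncated correction -/
noncomputable def cG (T : (Fin n → ℝ) → (Fin n → ℝ)) (R : ℝ) (κ θ : (Fin n → ℝ) → ℝ)
    (y : Fin n → ℝ) : Fin n → ℝ := fun k => cl (θ (T y)) (cQ T R κ y k)

namespace VS

variable (W : VS Λ X T R l e μ ε r κ θ)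

include W

theorem κone (u : Fin n → ℝ) : κ u ≤ 1 := (W.κμ u).trans (by linarith [W.μ1])

theorem Q_abs (y : Fin n → ℝ) (k : Fin n) : |cQ T R κ y k| ≤ 2 * κ (T y) * R :=
  qo_abs_le (by norm_num) (by norm_num) (W.κ0 _) (W.κone _) (W.hR y k) (by norm_num)

theorem G_norm (y : Fin n → ℝ) : ‖cG T R κ θ y‖ ≤ max 0 (r (T y)) / 512 := by
  rw [pi_norm_le_iff_of_nonneg (div_nonneg (le_max_left _ _) (by norm_num))]
  intro k
  exact (abs_cl_le (W.θ0 _)).trans ((W.Q_abs y k).trans (W.κR _))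

theorem G_unc {y : Fin n → ℝ} (hy : T y ∈ Λ) (hx : ∃ x ∈ X, ‖T y - x‖ < r (T y) / 64) :
    cG T R κ θ y = cQ T R κ y := by
  funext k
  exact cl_eq ((W.Q_abs y k).trans (W.unc _ hy hx))

omit W in
theorem Q_off {y : Fin n → ℝ} (hy : T y = y) : cQ T R κ y = 0 := by
  unfold cQ
  rw [hy, sub_self]
  funext k
  simp [qv, qo_zero]

theorem G_off {y : Fin n → ℝ} (hy : T y = y) : cG T R κ θ y = 0 := by
  funext k
  unfold cG
  rw [Q_off hy]
  exact cl_eq (by simpa using W.θ0 _)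

/-- the estimate for one component -/
theorem G_comp {y y' : Fin n → ℝ} (hpos : 0 < κ (T y)) (k : Fin n) :
    |cG T R κ θ y k - cG T R κ θ y' k| ≤
      11 / 10 * κ (T y) * |((y - T y) - (y' - T y')) k| + (R * l + e) * ‖T y - T y'‖ := by
  have m1 := cl_lip (θ (T y)) (θ (T y')) (cQ T R κ y k) (cQ T R κ y' k)
  have m2 : |cQ T R κ y k - cQ T R κ y' k| ≤
      11 / 10 * κ (T y) * |((y - T y) - (y' - T y')) k| + R * (l * ‖T y - T y'‖) := by
    have n1 := qo_error (ρ := 10 / 11) (η := 1 / 10) (by norm_num) (by norm_num) hpos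
      (W.κone _) (W.hR y k) (W.hR y' k) (by norm_num) (by norm_num)
    have n2 : |qo (10 / 11) R (κ (T y)) ((y' - T y') k) -
        qo (10 / 11) R (κ (T y')) ((y' - T y') k)| ≤ R * (l * ‖T y - T y'‖) :=
      (qo_lip_left (by norm_num) (by norm_num) W.R0.le (W.κ0 _) (W.κ0 _)).trans
        (mul_le_mul_of_nonneg_left (W.κlip _ _) W.R0.le)
    have n3 : cQ T R κ y k - cQ T R κ y' k =
        (qo (10 / 11) R (κ (T y)) ((y - T y) k) - qo (10 / 11) R (κ (T y)) ((y' - T y') k) -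
          κ (T y) * ((y - T y) k - (y' - T y') k)) + κ (T y) * ((y - T y) k - (y' - T y') k) +
          (qo (10 / 11) R (κ (T y)) ((y' - T y') k) -
            qo (10 / 11) R (κ (T y')) ((y' - T y') k)) := by
      simp only [cQ, qv]
      ring
    rw [n3]
    refine (abs_add_three _ _ _).trans ?_
    rw [abs_mul (κ (T y)), abs_of_pos hpos]
    have n4 : ((y - T y) - (y' - T y')) k = (y - T y) k - (y' - T y') k := rfl
    rw [n4]
    linarith
  have m3 := W.θlip (T y) (T y')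
  show |cl (θ (T y)) (cQ T R κ y k) - cl (θ (T y')) (cQ T R κ y' k)| ≤ _
  linarith

theorem G_lip_pos (C : CollLite Λ X h T) {y y' : Fin n → ℝ} (hpos : 0 < κ (T y)) :
    ‖toLp 2 (cG T R κ θ y - cG T R κ θ y')‖ ≤ 23 / 5 * μ * ‖toLp 2 (y - y')‖ := by
  set a := κ (T y) with ha
  set b : ℝ := (R * l + e) * ‖T y - T y'‖ with hb
  have hb0 : 0 ≤ b := mul_nonneg (add_nonneg (mul_nonneg W.R0.le W.l0) W.e0) (norm_nonneg _)
  set w : Fin n → ℝ := (y - T y) - (y' - T y') with hw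
  have k1 : ∀ k, |(cG T R κ θ y - cG T R κ θ y') k| ≤ 1 * |(11 / 10 * a) * |w k| + b| := by
    intro k
    rw [one_mul]
    exact (W.G_comp hpos k).trans (le_abs_self _)
  have k2 := eu_mono (y := fun k => (11 / 10 * a) * |w k| + b) zero_le_one k1
  rw [one_mul] at k2
  have k3 : ‖toLp 2 (fun k => (11 / 10 * a) * |w k| + b)‖ ≤
      11 / 10 * a * ‖toLp 2 w‖ + Real.sqrt n * b := by
    have n1 : toLp 2 (fun k => (11 / 10 * a) * |w k| + b) =
        toLp 2 (fun k => (11 / 10 * a) * |w k|) + toLp 2 (fun _ : Fin n => b) := by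
      rw [← toLp_add]; rfl
    rw [n1]
    refine (norm_add_le _ _).trans (add_le_add ?_ ?_)
    · refine eu_mono (by positivity) fun k => ?_
      rw [abs_mul, abs_abs, abs_of_nonneg (by positivity : (0:ℝ) ≤ 11 / 10 * a)]
    · exact eu_le_of_abs_le hb0 fun k => by rw [abs_of_nonneg hb0]
  have ew : toLp 2 w = toLp 2 (y - y') - toLp 2 (T y - T y') := by
    rw [← toLp_sub, hw]; congr 1; abel
  have k5 := vs_lip C.h0 (C.firm y y')
  have k6 : ‖toLp 2 w‖ ≤ (2 + h) * ‖toLp 2 (y - y')‖ := by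
    rw [ew]
    refine (norm_sub_le _ _).trans ?_
    linarith
  have k7 : ‖T y - T y'‖ ≤ (1 + h) * ‖toLp 2 (y - y')‖ := (norm_le_eu _).trans k5
  have hy0 := norm_nonneg (toLp 2 (y - y'))
  have haμ : a ≤ μ := W.κμ _
  have hh0 := C.h0
  have hh1 := C.h1
  have hμ0 := W.μ0
  have hRl : 0 ≤ R * l + e := add_nonneg (mul_nonneg W.R0.le W.l0) W.e0
  refine (k2.trans k3).trans ?_
  have j1 : 11 / 10 * a * ‖toLp 2 w‖ ≤ 11 / 10 * μ * ((17 / 8) * ‖toLp 2 (y - y')‖) := by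
    have : ‖toLp 2 w‖ ≤ (17 / 8) * ‖toLp 2 (y - y')‖ := k6.trans (by gcongr; linarith)
    gcongr
  have j2 : Real.sqrt n * b ≤ (μ + μ) * ((9 / 8) * ‖toLp 2 (y - y')‖) := by
    have j3 : ‖T y - T y'‖ ≤ (9 / 8) * ‖toLp 2 (y - y')‖ := k7.trans (by gcongr; linarith)
    calc Real.sqrt n * b = (Real.sqrt n * (R * l) + Real.sqrt n * e) * ‖T y - T y'‖ := by
          rw [hb]; ring
      _ ≤ (μ + μ) * ((9 / 8) * ‖toLp 2 (y - y')‖) := by
          have := W.cμ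
          have := W.eμ
          gcongr
  have j4 : 0 ≤ μ * ‖toLp 2 (y - y')‖ := mul_nonneg hμ0 hy0
  linarith

omit W in
theorem eu_symm (v w : Fin n → ℝ) : ‖toLp 2 (v - w)‖ = ‖toLp 2 (w - v)‖ := by
  rw [← neg_sub, toLp_neg, norm_neg]

theorem zero (C : CollLite Λ X h T) {y : Fin n → ℝ} (hy : κ (T y) = 0) : T y = y :=
  C.off y fun hyΛ => (W.κpos _ (C.maps hyΛ)).ne' hy

theorem G_lip (C : CollLite Λ X h T) (y y' : Fin n → ℝ) :
    ‖toLp 2 (cG T R κ θ y - cG T R κ θ y')‖ ≤ 23 / 5 * μ * ‖toLp 2 (y - y')‖ := by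
  rcases eq_or_lt_of_le (W.κ0 (T y)) with e1 | e1
  · rcases eq_or_lt_of_le (W.κ0 (T y')) with e2 | e2
    · rw [W.G_off (W.zero C e1.symm), W.G_off (W.zero C e2.symm), sub_self, toLp_zero, norm_zero]
      exact mul_nonneg (mul_nonneg (by norm_num) W.μ0) (norm_nonneg _)
    · have := W.G_lip_pos C (y' := y) e2
      rw [eu_symm, eu_symm y y']
      exact this
  · exact W.G_lip_pos C e1

/-- injectivity, no truncation -/
theorem inj0 (C : CollLite Λ X h T) {y y' : Fin n → ℝ} (hpos : 0 < κ (T y))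
    (hy : cG T R κ θ y = cQ T R κ y) (hy' : cG T R κ θ y' = cQ T R κ y')
    (hF : T y + cG T R κ θ y = T y' + cG T R κ θ y') : y = y' := by
  set a := κ (T y) with ha
  set a' := κ (T y') with ha'
  set d₁ : Fin n → ℝ := fun k => qo (10 / 11) R a ((y - T y) k) -
    qo (10 / 11) R a ((y' - T y') k) - a * ((y - T y) k - (y' - T y') k) with hd₁
  set d₂ : Fin n → ℝ := fun k => qo (10 / 11) R a ((y' - T y') k) -
    qo (10 / 11) R a' ((y' - T y') k) with hd₂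
  have e0 : (0 : EuclideanSpace ℝ (Fin n)) = toLp 2 (T y - T y') +
      (a • toLp 2 ((y - T y) - (y' - T y')) + toLp 2 d₁ + toLp 2 d₂) := by
    rw [← toLp_smul, ← toLp_add, ← toLp_add, ← toLp_add, ← toLp_zero]
    congr 1
    have h3 : (T y + cQ T R κ y) - (T y' + cQ T R κ y') = 0 := by
      rw [← hy, ← hy', hF, sub_self]
    rw [← h3]
    funext k
    simp only [cQ, hd₁, hd₂, qv, Pi.add_apply, Pi.sub_apply, Pi.smul_apply, smul_eq_mul]
    ring
  have k1 : ‖toLp 2 d₁‖ ≤ 1 / 10 * a * ‖toLp 2 ((y - T y) - (y' - T y'))‖ := by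
    refine eu_mono (by positivity) fun k => ?_
    exact qo_error (by norm_num) (by norm_num) hpos (W.κone _) (W.hR y k) (W.hR y' k)
      (by norm_num) (by norm_num)
  have k2 : ‖toLp 2 d₂‖ ≤ Real.sqrt n * (R * l) * ‖toLp 2 (T y - T y')‖ := by
    have k3 : ∀ k, |d₂ k| ≤ R * (l * ‖T y - T y'‖) := fun k =>
      (qo_lip_left (by norm_num) (by norm_num) W.R0.le (W.κ0 _) (W.κ0 _)).trans
        (mul_le_mul_of_nonneg_left (W.κlip _ _) W.R0.le)
    refine (eu_le_of_abs_le (mul_nonneg W.R0.le (mul_nonneg W.l0 (norm_nonneg _))) k3).trans ?_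
    have h4 := norm_le_eu (T y - T y')
    calc Real.sqrt n * (R * (l * ‖T y - T y'‖)) = Real.sqrt n * (R * l) * ‖T y - T y'‖ := by ring
      _ ≤ Real.sqrt n * (R * l) * ‖toLp 2 (T y - T y')‖ :=
        mul_le_mul_of_nonneg_left h4
          (mul_nonneg (Real.sqrt_nonneg _) (mul_nonneg W.R0.le W.l0))
  have k4 := vs_mono C.h0 (C.firm y y')
  have ew : toLp 2 ((y - T y) - (y' - T y')) = toLp 2 (y - y') - toLp 2 (T y - T y') := by
    rw [← toLp_sub]; congr 1; abel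
  rw [← ew] at k4
  have e1 := vs_lower hpos.le (W.κone _) C.h1 k4 le_rfl
    (W.cμ.trans (W.μ1.trans (by norm_num))) k1 k2
  rw [← e0, norm_zero] at e1
  have e2 := norm_nonneg (toLp 2 (T y - T y'))
  have e3 := norm_nonneg (toLp 2 ((y - T y) - (y' - T y')))
  have e4 : 0 ≤ a * ‖toLp 2 ((y - T y) - (y' - T y'))‖ := by positivity
  have e5 : ‖toLp 2 (T y - T y')‖ = 0 := by linarith
  have e6 : a * ‖toLp 2 ((y - T y) - (y' - T y'))‖ = 0 := by linarith
  have e7 : ‖toLp 2 ((y - T y) - (y' - T y'))‖ = 0 := by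
    rcases mul_eq_zero.1 e6 with h | h
    · exact absurd h hpos.ne'
    · exact h
  have f1 : ‖T y - T y'‖ ≤ 0 := (norm_le_eu _).trans e5.le
  have f2 : ‖(y - T y) - (y' - T y')‖ ≤ 0 := (norm_le_eu _).trans e7.le
  have f3 := norm_le_zero_iff.1 f1
  have f4 := norm_le_zero_iff.1 f2
  have : y - y' = ((y - T y) - (y' - T y')) + (T y - T y') := by abel
  rw [f3, f4, add_zero] at this
  exact sub_eq_zero.1 this

/-- injectivity, truncation at `y` -/
theorem inj1 (C : CollLite Λ X h T) {y y' : Fin n → ℝ} (hy : cG T R κ θ y ≠ cQ T R κ y)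
    (hF : T y + cG T R κ θ y = T y' + cG T R κ θ y') : y = y' := by
  have hyΛ : y ∈ Λ := by
    by_contra hc
    exact hy ((W.G_off (C.off y hc)).trans (Q_off (C.off y hc)).symm)
  have huΛ := C.maps hyΛ
  have hu := W.rpos _ huΛ
  have hball : ∀ x ∈ X, r (T y) / 64 ≤ ‖T y - x‖ := by
    intro x hx
    by_contra hc
    push Not at hc
    exact hy (W.G_unc huΛ ⟨x, hx, hc⟩)
  -- the two images are close
  have e1 : T y - T y' = cG T R κ θ y' - cG T R κ θ y := by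
    rw [sub_eq_sub_iff_add_eq_add, hF, add_comm]
  have hclose : ‖T y - T y'‖ < r (T y) / 64 := by
    have e2 : ‖T y - T y'‖ ≤ ‖cG T R κ θ y'‖ + ‖cG T R κ θ y‖ := by
      rw [e1]; exact norm_sub_le _ _
    have e3 := W.G_norm y
    have e4 := W.G_norm y'
    rw [max_eq_right hu.le] at e3
    have e5 : max 0 (r (T y')) ≤ r (T y) + ‖T y - T y'‖ := by
      have := W.rlip (T y') (T y)
      rw [norm_sub_rev] at this
      exact max_le (by positivity) this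
    linarith
  have hrball : ball (T y) (r (T y) / 64) ⊆ Λ \ X := by
    intro v hv
    rw [mem_ball, dist_eq_norm] at hv
    refine ⟨?_, fun hvX => ?_⟩
    · by_contra hc
      have e1 := W.roff v hc
      have e2 := W.rlip (T y) v
      rw [norm_sub_rev] at e2
      linarith
    · have := hball v hvX
      rw [norm_sub_rev] at this
      linarith
  obtain ⟨w, hw⟩ := C.aff _ hrball (convex_ball _ _).isPreconnected
  have g1 := hw y (mem_ball_self (by positivity))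
  have g2 := hw y' (by
    rw [mem_ball, dist_eq_norm, norm_sub_rev]
    exact hclose)
  have e3 : T y - T y' = (1 + h) • (y - y') := by
    rw [g1, g2, smul_sub]; abel
  have e4 : toLp 2 (cG T R κ θ y' - cG T R κ θ y) = (1 + h) • toLp 2 (y - y') := by
    rw [← toLp_smul, ← e3, e1]
  have e5 := W.G_lip C y' y
  rw [e4, norm_smul, Real.norm_of_nonneg (by linarith [C.h0]), eu_symm y' y] at e5
  have e6 := norm_nonneg (toLp 2 (y - y'))
  have e7 : ‖toLp 2 (y - y')‖ = 0 := by nlinarith [W.μ1, C.h0]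
  have e8 : ‖y - y'‖ ≤ 0 := (norm_le_eu _).trans e7.le
  exact sub_eq_zero.1 (norm_le_zero_iff.1 e8)

theorem inj (C : CollLite Λ X h T) : Function.Injective fun y => T y + cG T R κ θ y := by
  intro y y' hF
  by_cases g1 : cG T R κ θ y = cQ T R κ y
  · by_cases g2 : cG T R κ θ y' = cQ T R κ y'
    · rcases eq_or_lt_of_le (W.κ0 (T y)) with e1 | e1
      · rcases eq_or_lt_of_le (W.κ0 (T y')) with e2 | e2
        · have e3 := W.zero C e1.symm
          have e4 := W.zero C e2.symm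
          have hF' : T y + cG T R κ θ y = T y' + cG T R κ θ y' := hF
          rw [W.G_off e3, W.G_off e4, add_zero, add_zero, e3, e4] at hF'
          exact hF'
        · exact (W.inj0 C e2 g2 g1 hF.symm).symm
      · exact W.inj0 C e1 g1 g2 hF
    · exact (W.inj1 C g2 hF.symm).symm
  · exact W.inj1 C g1 hF

omit W in
theorem cont_of {f : (Fin n → ℝ) → (Fin n → ℝ)} {L : ℝ}
    (hf : ∀ y y', ‖toLp 2 (f y - f y')‖ ≤ L * ‖toLp 2 (y - y')‖) : Continuous f := by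
  have hc : Continuous fun y : Fin n → ℝ => toLp 2 y := PiLp.continuous_toLp 2 _
  rw [continuous_iff_continuousAt]
  intro y
  rw [ContinuousAt, tendsto_iff_norm_sub_tendsto_zero]
  have h2 : Tendsto (fun y' => L * ‖toLp 2 (y' - y)‖) (𝓝 y) (𝓝 0) := by
    have h3 : Continuous fun y' => L * ‖toLp 2 (y' - y)‖ :=
      continuous_const.mul ((hc.comp (continuous_id.sub continuous_const)).norm)
    have h4 := h3.tendsto y
    simpa using h4
  exact squeeze_zero (fun _ => norm_nonneg _) (fun y' => (norm_le_eu _).trans (hf y' y)) h2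

omit W in
theorem cont_of1 {f : (Fin n → ℝ) → ℝ} {a : ℝ} (hf : ∀ u v, |f u - f v| ≤ a * ‖u - v‖) :
    Continuous f := by
  rw [continuous_iff_continuousAt]
  intro y
  rw [ContinuousAt, tendsto_iff_norm_sub_tendsto_zero]
  have h3 : Continuous fun y' => a * ‖y' - y‖ := by fun_prop
  have h4 := h3.tendsto y
  rw [sub_self, norm_zero, mul_zero] at h4
  exact squeeze_zero (fun _ => norm_nonneg _) (fun y' => hf y' y) h4

theorem con (C : CollLite Λ X h T) (hTc : Continuous T) :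
    ConicalOn (fun y => T y + cG T R κ θ y) Λ := by
  intro x hx
  have c1 : ConicalWithinAt T Λ x := C.con x hx
  have c2 : ConicalWithinAt (fun y => κ (T y)) Λ x :=
    (W.κcon _ (C.maps hx)).comp c1 (mapsTo_univ _ _) hTc.continuousWithinAt
  have c2' : ConicalWithinAt (fun y => θ (T y)) Λ x :=
    (W.θcon _ (C.maps hx)).comp c1 (mapsTo_univ _ _) hTc.continuousWithinAt
  have c3 : Continuous fun y => κ (T y) := (cont_of1 W.κlip).comp hTc
  have c3' : Continuous fun y => θ (T y) := (cont_of1 W.θlip).comp hTc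
  refine c1.add ?_
  refine conicalWithinAt_pi (C.opn.conicalSet x hx) fun k => ?_
  have c4 : ConicalWithinAt (fun y => (y - T y) k) Λ x :=
    (((conicalOn_id C.opn.conicalSet) x hx).sub c1).linear_comp
      (LinearMap.proj k : (Fin n → ℝ) →ₗ[ℝ] ℝ)
  have c5 : Continuous fun y => (y - T y) k :=
    (continuous_apply k).comp (continuous_id.sub hTc)
  obtain ⟨c6, c7⟩ := conicalWithinAt_qo (ρ := 10 / 11) (by norm_num) (by norm_num) W.R0.le c2
    c3.continuousWithinAt c4 c5.continuousWithinAt (W.κpos _ (C.maps hx))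
  have c8 : ConicalWithinAt (fun y => min (θ (T y)) (cQ T R κ y k)) Λ x := by
    have := (c2'.neg.rmax c6.neg c3'.neg.continuousWithinAt c7.neg).neg
    refine this.congr_of_eqOn (fun y _ => ?_) hx
    simp only
    rw [max_neg_neg, neg_neg]
    rfl
  exact c2'.neg.rmax c8 c3'.neg.continuousWithinAt (c3'.continuousWithinAt.inf c7)

end VS

end main

/-- **The variable slope lemma** -/
theorem exists_var_slope {T : (Fin n → ℝ) → (Fin n → ℝ)} {Λ X : Set (Fin n → ℝ)} {h : ℝ}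
    (C : CollLite Λ X h T)
    {δ : (Fin n → ℝ) → ℝ} (hδ : ∀ x ∈ Λ, ∃ c > 0, ∀ᶠ w in 𝓝 x, w ∈ Λ → c ≤ δ w)
    (hδ0 : ∀ y ∈ Λ, 0 < δ y) {ε : ℝ} (hε : 0 < ε) :
    ∃ g : ConHomeo Λ Λ, Continuous g.toFun ∧ (∀ y ∉ Λ, g.toFun y = y) ∧
      (∀ y ∈ Λ, ‖g.toFun y - T y‖ ≤ δ (T y)) ∧
      (∀ y ∈ Λ, (∀ x ∈ X, δ (T y) < ‖T y - x‖) → g.toFun y = T y) ∧
      ∀ y y', ‖toLp 2 ((g.toFun y - T y) - (g.toFun y' - T y'))‖ ≤ ε * ‖toLp 2 (y - y')‖ := by
  obtain ⟨R, l, e, μ, r, κ, θ, W, hr⟩ := C.exists_vs hδ hδ0 hε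
  have hTl : ∀ y y', ‖toLp 2 (T y - T y')‖ ≤ (1 + h) * ‖toLp 2 (y - y')‖ := fun y y' =>
    vs_lip C.h0 (C.firm y y')
  have hTc : Continuous T := VS.cont_of hTl
  set F : (Fin n → ℝ) → (Fin n → ℝ) := fun y => T y + cG T R κ θ y with hF
  have hGF : ∀ y, F y - T y = cG T R κ θ y := fun y => by simp only [hF]; abel
  have hGlip : ∀ y y', ‖toLp 2 ((F y - T y) - (F y' - T y'))‖ ≤ ε * ‖toLp 2 (y - y')‖ := by
    intro y y'
    rw [hGF, hGF]
    refine (W.G_lip C y y').trans ?_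
    have := W.μ2
    gcongr
    linarith
  have hFlip : ∀ y y', ‖toLp 2 (F y - F y')‖ ≤ (1 + h + ε) * ‖toLp 2 (y - y')‖ := by
    intro y y'
    have e1 : toLp 2 (F y - F y') = toLp 2 ((F y - T y) - (F y' - T y')) +
        toLp 2 (T y - T y') := by
      rw [← toLp_add]; congr 1; abel
    rw [e1]
    refine (norm_add_le _ _).trans ?_
    linarith [hGlip y y', hTl y y']
  have hFid : ∀ y ∉ Λ, F y = y := by
    intro y hy
    simp only [hF]
    rw [W.G_off (C.off y hy), C.off y hy, add_zero]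
  have hFc : Continuous F := VS.cont_of hFlip
  obtain ⟨H, hH1, hH2⟩ := exists_homeo_of_injective hFc (W.inj C) C.bdd hFid
  refine ⟨{ toFun := F
            invFun := H.symm
            mapsTo := fun y hy => by rw [← hH1]; exact (hH2 y).2 hy
            mapsTo_inv := fun y hy => by
              rw [← hH2, H.apply_symm_apply]; exact hy
            left_inv := fun y _ => by rw [← hH1]; exact H.symm_apply_apply y
            right_inv := fun y _ => by rw [← hH1]; exact H.apply_symm_apply y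
            cont := hFc.continuousOn
            cont_inv := H.symm.continuous.continuousOn
            conical := W.con C hTc }, hFc, hFid, fun y hy => ?_, fun y hy hyX => ?_, hGlip⟩
  · -- closeness
    have hu := W.rpos _ (C.maps hy)
    have e1 := W.G_norm y
    rw [max_eq_right hu.le] at e1
    have e2 := hr _ (C.maps hy)
    show ‖F y - T y‖ ≤ δ (T y)
    rw [hGF]
    linarith
  · -- far from `X`
    have hθy : θ (T y) = 0 := by
      by_contra hcon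
      obtain ⟨x, hxX, hx⟩ := W.far _ hcon
      have e1 := hyX x hxX
      have e2 := hr _ (C.maps hy)
      linarith
    show F y = T y
    have : cG T R κ θ y = 0 := by
      funext k
      unfold cG
      rw [hθy]
      exact cl_zero_left
    simp only [hF]
    rw [this, add_zero]

end Vale.Agent.P073.H726
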