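import Vale.Agent.P073.St

/-!
# P073, block B10, [PRE-F]: general lemmas
-/

open Set Metric Topology Filter MeasureTheory
open scoped ENNReal NNReal

namespace Vale.Agent.P073.H726.PF

open Vale.Agent.P073
open Vale.Agent.P073.St (V Mat)

theorem exists_pow_le {a : ℝ} (ha : 0 < a) (N : ℕ) : ∃ m ≥ N, (1:ℝ) / 2 ^ m ≤ a := by
  obtain ⟨n, hn⟩ := exists_pow_lt_of_lt_one ha (show (1/2:ℝ) < 1 by norm_num)
  refine ⟨max n N, le_max_right _ _, ?_⟩
  rw [one_div_pow] at hn
  refine le_trans ?_ hn.le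
  exact one_div_le_one_div_of_le (by positivity)
    (pow_le_pow_right₀ (by norm_num) (le_max_left _ _))

/-- the energy of the points with image near the image of a compact null set -/
theorem exists_zo {Ω Λ S : Set V} {f : V → V} (hΩ : IsOpen Ω) (hf : St.IsHomeo Ω Λ f)
    (hS : S ⊆ Ω) (hSc : IsCompact S) (h0 : volume S = 0) {H : V → ℝ≥0∞}
    (hfin : ∫⁻ x in Ω, H x ≠ ⊤) {η : ℝ≥0∞} (hη : η ≠ 0) :
    ∃ r > 0, ∫⁻ x in {x | x ∈ Ω ∧ ∃ y ∈ S, ‖f x - f y‖ ≤ r}, H x ≤ η := by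
  rcases S.eq_empty_or_nonempty with rfl | hne
  · refine ⟨1, one_pos, ?_⟩
    simp
  obtain ⟨g, hg, hfc, -⟩ := hf
  have hfS : IsCompact (f '' S) := hSc.image_of_continuousOn (hfc.mono hS)
  have hfne : (f '' S).Nonempty := hne.image f
  set A : ℕ → Set V := fun n => {x | x ∈ Ω ∧ ∃ y ∈ S, ‖f x - f y‖ ≤ 1 / ((n:ℝ) + 1)} with hA
  have hAe : ∀ n, A n = {x | x ∈ Ω ∧ infDist (f x) (f '' S) ≤ 1 / ((n:ℝ) + 1)} := by
    intro n
    ext x
    constructor
    · rintro ⟨hx, y, hy, hxy⟩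
      refine ⟨hx, (infDist_le_dist_of_mem (mem_image_of_mem f hy)).trans ?_⟩
      rwa [dist_eq_norm]
    · rintro ⟨hx, h⟩
      obtain ⟨z, ⟨y, hy, rfl⟩, hz⟩ := hfS.exists_infDist_eq_dist hfne (f x)
      refine ⟨hx, y, hy, ?_⟩
      rw [← dist_eq_norm, ← hz]; exact h
  have hAm : ∀ n, MeasurableSet (A n) := by
    intro n
    rw [hAe]
    obtain ⟨F, hF, hFe⟩ := (continuousOn_iff_isClosed.1
      ((continuous_infDist_pt (f '' S)).comp_continuousOn hfc)) (Iic (1 / ((n:ℝ) + 1))) isClosed_Iic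
    have : {x | x ∈ Ω ∧ infDist (f x) (f '' S) ≤ 1 / ((n:ℝ) + 1)} = F ∩ Ω := by
      rw [← hFe]
      ext x
      constructor
      · rintro ⟨h1, h2⟩
        exact ⟨h2, h1⟩
      · rintro ⟨h1, h2⟩
        exact ⟨h2, h1⟩
    rw [this]
    exact hF.measurableSet.inter hΩ.measurableSet
  have hanti : Antitone A := by
    intro m n hmn x hx
    obtain ⟨h1, y, hy, h2⟩ := hx
    exact ⟨h1, y, hy, h2.trans (one_div_le_one_div_of_le (by positivity)
      (by exact_mod_cast Nat.succ_le_succ hmn))⟩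
  have hint : ⋂ n, A n = S := by
    apply Subset.antisymm
    · intro x hx
      rw [mem_iInter] at hx
      have h1 : ∀ n : ℕ, infDist (f x) (f '' S) ≤ 1 / ((n:ℝ) + 1) := fun n => by
        have := hx n
        rw [hAe] at this
        exact this.2
      have h2 : infDist (f x) (f '' S) = 0 := le_antisymm
        (ge_of_tendsto' tendsto_one_div_add_atTop_nhds_zero_nat h1) infDist_nonneg
      have h3 : f x ∈ f '' S := (hfS.isClosed.mem_iff_infDist_zero hfne).2 h2
      obtain ⟨y, hy, hxy⟩ := h3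
      have h4 := (hg.1 x (hx 0).1).2
      have h5 := (hg.1 y (hS hy)).2
      rw [← hxy, h5] at h4
      rwa [← h4]
    · intro x hx
      rw [mem_iInter]
      intro n
      refine ⟨hS hx, x, hx, ?_⟩
      rw [sub_self, norm_zero]
      positivity
  set ν : Measure V := (volume.withDensity H).restrict Ω with hν
  have hνA : ∀ n, ν (A n) = ∫⁻ x in A n, H x := by
    intro n
    rw [hν, Measure.restrict_apply (hAm n), inter_eq_left.2 fun x hx => hx.1,
      withDensity_apply _ (hAm n)]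
  have hνf : ∀ n, ν (A n) ≠ ⊤ := by
    intro n
    rw [hνA]
    exact ne_top_of_le_ne_top hfin (lintegral_mono_set fun x hx => hx.1)
  have hlim := tendsto_measure_iInter_atTop (μ := ν) (fun n => (hAm n).nullMeasurableSet) hanti
    ⟨0, hνf 0⟩
  have hν0 : ν (⋂ n, A n) = 0 := by
    rw [hint, hν, Measure.restrict_apply hSc.isClosed.measurableSet]
    refine measure_mono_null inter_subset_left ?_
    rw [withDensity_apply _ hSc.isClosed.measurableSet]
    exact setLIntegral_measure_zero _ _ h0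
  rw [hν0] at hlim
  obtain ⟨n, hn⟩ := ((tendsto_order.1 hlim).2 η (pos_iff_ne_zero.2 hη)).exists
  refine ⟨1 / ((n:ℝ) + 1), by positivity, ?_⟩
  have hn' : ν (A n) < η := hn
  rw [hνA] at hn'
  exact hn'.le

/-- a compact neighbourhood of the image of `S` -/
theorem exists_kc {Ω Λ S : Set V} {f : V → V} (hΛ : IsOpen Λ) (hf : St.IsHomeo Ω Λ f)
    (hS : S ⊆ Ω) (hSc : IsCompact S) {r₀ : ℝ} (hr₀ : 0 < r₀) :
    ∃ r > 0, r ≤ r₀ ∧ ∃ Kc ⊆ Λ, IsCompact Kc ∧ ∀ x ∈ S, ∀ y, ‖y - f x‖ ≤ r → y ∈ Kc := by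
  obtain ⟨g, hg, hfc, -⟩ := hf
  have hfS : IsCompact (f '' S) := hSc.image_of_continuousOn (hfc.mono hS)
  have hsub : f '' S ⊆ Λ := by
    rintro _ ⟨x, hx, rfl⟩
    exact (hg.1 x (hS hx)).1
  obtain ⟨r₁, hr₁, h1⟩ := hfS.exists_cthickening_subset_open hΛ hsub
  refine ⟨min r₀ r₁, lt_min hr₀ hr₁, min_le_left _ _, cthickening (min r₀ r₁) (f '' S),
    (cthickening_mono (min_le_right _ _) _).trans h1, hfS.cthickening, fun x hx y hy => ?_⟩
  exact mem_cthickening_of_dist_le y (f x) _ _ (mem_image_of_mem f hx)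
    (by rwa [dist_eq_norm])

/-- planes are null sets -/
theorem volume_plane {S : Set V} {i : Fin 3} {c : ℝ} (h : ∀ x ∈ S, x i = c) : volume S = 0 := by
  refine measure_mono_null (t := {x : V | x i = c}) h ?_
  exact Measure.pi_hyperplane (fun _ : Fin 3 => (volume : Measure ℝ)) i c

end Vale.Agent.P073.H726.PF
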