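import Vale.Agent.P073.H726.GeTop
import Vale.Agent.P073.H234.M1PK
import Vale.Agent.P073.H234.ChainFin
import Vale.Agent.P073.H490.R2f
import Vale.Agent.P073.H716.RB4
import Vale.Agent.P073.H83.BVB
import Vale.Agent.P073.H851.TgtF1
import Vale.Agent.P073.H439.EnB1
import Vale.Agent.P073.H439.EpB
import Vale.Agent.P073.H622.PreBAsm
import Vale.Agent.P073.H911.LineB

/-!
# P073: the full theorem for `3 ≤ p` from Round 1 and `K3C`
-/

namespace Vale.Agent.P073.H726

open Vale.Agent.P073.H304 (K3C)
open Vale.Agent.P073.H239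
open Vale.Agent.P073.H608 (Full)

/-- all leaves of rank one -/
theorem openB {p : ℝ} (hp : 1 ≤ p) : OpenB p where
  bvb := H83.specBVB
  tgt := H851.specTgtF1
  enB := H439.EN.specEnB hp
  epB := H439.EN.specEpB hp
  asm := H622.specPreBAsm hp
  r2b := H490.specR2B hp
  lineB := H911.specLineB

/-- **the full theorem for `3 ≤ p` from `K3C` and Round 1** -/
theorem full_of_K3C {p : ℝ} (hp : 3 ≤ p) (hSt : K3C p → H234.Ch.St1C p) (hK : K3C p) : Full p :=
  full_ge hp (H234.Ch.m1P_of_K3C hp hSt hK) hK (H234.Ch.specChain (by linarith) hSt)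
    (H490.specR2F (by linarith)) H716.specRowsB (openB (by linarith))

end Vale.Agent.P073.H726
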