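import Vale.Agent.P073.H726.AlignDefs
import Vale.Agent.P073.H726.VarSlope
import Vale.Agent.P073.H716.Hole2

/-!
# P073 / H726, block B05 (ALIGN): the homeomorphism `g`
-/

open Set Metric Topology Filter WithLp MeasureTheory
open scoped ENNReal InnerProductSpace

namespace Vale.Agent.P073.H726

open _root_.P073
open Vale.Agent.P073.St (V)
open Vale.Agent.P073.H471 (Cubes)

variable {Λ V₀ X : Set V} {h : ℝ} {T : V → V}

theorem compl_nonempty {Λ : Set V} (hb : Bornology.IsBounded Λ) : Λᶜ.Nonempty := by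
  by_contra hc
  rw [not_nonempty_iff_eq_empty, compl_empty_iff] at hc
  rw [hc] at hb
  exact NormedSpace.unbounded_univ ℝ V hb

theorem Coll.lite (C : Coll Λ V₀ X h T) : CollLite Λ X h T where
  opn := C.opn
  bdd := C.bdd
  ne := compl_nonempty C.bdd
  h0 := C.h0
  h1 := C.h1
  firm := C.firm
  off := C.off
  maps := C.maps
  con := C.con
  Xsub := C.Xsub
  Xcl := C.Xcl
  aff D hD hc := by
    obtain ⟨w, hw⟩ := C.aff D hD hc
    exact ⟨w, fun y hy => (hw y hy).self_of_nhds⟩

theorem Coll.continuous (C : Coll Λ V₀ X h T) : Continuous T :=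
  VS.cont_of fun y y' => vs_lip C.h0 (C.firm y y')

/-- `1`-Lipschitz functions are continuous -/
theorem continuous_of_lip {r : V → ℝ} (hr : ∀ x y, r x ≤ r y + ‖x - y‖) : Continuous r := by
  refine VS.cont_of1 (a := 1) fun u v => ?_
  have := lip_of zero_le_one hr u v
  simpa using this

/-- a function below given constants on the cubes -/
theorem exists_below {ι : Type*} {z : ι → V} {σ : ι → ℝ} (Q : Cubes Λ z σ) {m : ι → ℝ}
    (hm : ∀ i, 0 < m i) :
    ∃ F : V → ℝ, (∀ x ∈ Λ, 0 < F x) ∧ (∀ x ∈ Λ, ∃ c > 0, ∀ᶠ w in 𝓝 x, w ∈ Λ → c ≤ F w) ∧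
      ∀ i, ∀ x ∈ closedBall (z i) (σ i), F x ≤ m i := by
  classical
  set S : V → Set ℝ := fun x => insert 1 {a | ∃ i, x ∈ closedBall (z i) (σ i) ∧ a = m i} with hS
  have hbdd : ∀ x, BddBelow (S x) := fun x => ⟨0, by
    rintro a (rfl | ⟨i, -, rfl⟩)
    · exact zero_le_one
    · exact (hm i).le⟩
  have hne : ∀ x, (S x).Nonempty := fun x => ⟨1, mem_insert _ _⟩
  have hloc : ∀ x ∈ Λ, ∃ c > 0, ∀ᶠ w in 𝓝 x, w ∈ Λ → c ≤ sInf (S w) := by
    intro x hx
    obtain ⟨U, hU, hf⟩ := Q.fin x hx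
    obtain ⟨c, hc, hc1, hcm⟩ : ∃ c > 0, c ≤ 1 ∧
        ∀ i ∈ {i | (closedBall (z i) (σ i) ∩ U).Nonempty}, c ≤ m i := by
      set I : Finset ι := hf.toFinset with hI
      set J : Finset ℝ := insert 1 (I.image m) with hJ
      have hJne : J.Nonempty := ⟨1, Finset.mem_insert_self _ _⟩
      refine ⟨J.min' hJne, ?_, J.min'_le _ (Finset.mem_insert_self _ _), fun i hi =>
        J.min'_le _ (Finset.mem_insert_of_mem (Finset.mem_image_of_mem _ ?_))⟩
      · rw [gt_iff_lt, Finset.lt_min'_iff]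
        intro a ha
        rw [hJ, Finset.mem_insert, Finset.mem_image] at ha
        rcases ha with rfl | ⟨i, -, rfl⟩
        · exact one_pos
        · exact hm i
      · rw [hI, Set.Finite.mem_toFinset]
        exact hi
    refine ⟨c, hc, ?_⟩
    filter_upwards [hU] with w hw _
    refine le_csInf (hne w) ?_
    rintro a (rfl | ⟨i, hi, rfl⟩)
    · exact hc1
    · exact hcm i ⟨w, hi, hw⟩
  refine ⟨fun x => sInf (S x), fun x hx => ?_, hloc, fun i x hx => ?_⟩
  · obtain ⟨c, hc, h2⟩ := hloc x hx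
    exact hc.trans_le (h2.self_of_nhds hx)
  · exact csInf_le (hbdd x) (mem_insert_of_mem _ ⟨i, hx, rfl⟩)

/-- the two maps agree near a point whose image is in the middle of a ball off `X` -/
theorem eventually_eq_of_ball {T g : V → V} (hT : Continuous T) (hΛ : IsOpen Λ) {δ : V → ℝ}
    (hδ : Continuous δ) (hfar : ∀ y ∈ Λ, (∀ x ∈ X, δ (T y) < ‖T y - x‖) → g y = T y)
    {p : V} {a b m : ℝ} (hm : 0 < m) (hab : a + 4 * m ≤ b) (hX : ∀ x ∈ X, b < ‖x - p‖)
    {y : V} (hy : y ∈ Λ) (hg : ‖g y - p‖ ≤ a) (hgT : ‖g y - T y‖ ≤ m) (hδy : δ (T y) ≤ m) :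
    (∀ᶠ y' in 𝓝 y, g y' = T y') ∧ ‖T y - p‖ < b := by
  have e1 : ‖T y - p‖ ≤ a + m := by
    have := norm_sub_le_norm_sub_add_norm_sub (T y) (g y) p
    rw [norm_sub_rev (T y) (g y)] at this
    linarith
  refine ⟨?_, by linarith⟩
  have h1 : ∀ᶠ y' in 𝓝 y, ‖T y' - p‖ < a + 2 * m := by
    have : Continuous fun y' => ‖T y' - p‖ := by fun_prop
    exact this.continuousAt.eventually_lt_const (by linarith)
  have h2 : ∀ᶠ y' in 𝓝 y, δ (T y') < 2 * m := by
    have : Continuous fun y' => δ (T y') := hδ.comp hT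
    exact this.continuousAt.eventually_lt_const (by linarith)
  filter_upwards [h1, h2, hΛ.mem_nhds hy] with y' k1 k2 k3
  refine hfar y' k3 fun x hx => ?_
  have k4 := hX x hx
  have k5 := norm_sub_le_norm_sub_add_norm_sub x (T y') p
  rw [norm_sub_rev x (T y')] at k5
  linarith

/-- **(T3)**: the homeomorphism `g` near the collapse, aligned with the cubes -/
theorem Coll.exists_alignG (C : Coll Λ V₀ X h T) {δ : V → ℝ} {ν : Measure V} {ε₀ : ℝ≥0∞}
    {s : V → ℝ} (A : Adapted Λ X T δ ν ε₀ s) {ι : Type*} {z : ι → V} {σ : ι → ℝ}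
    (Q : Cubes Λ z σ) (hσ : ∀ i, σ i ≤ s (z i) / 16) {k : ι → ℝ} (hk : ∀ i, 0 < k i) {ε : ℝ}
    (hε : 0 < ε) :
    ∃ (c : ι → V) (g : ConHomeo Λ Λ), AlignG Λ V₀ X h T s z σ k ε c g.toFun := by
  have hzΛ : ∀ i, z i ∈ Λ := fun i => Q.sub i (mem_closedBall_self (Q.pos i).le)
  -- the centres
  have hc : ∀ i, ∃ c : V, ‖c - z i‖ ≤ σ i / 2 ∧ ∀ x ∈ X, σ i / 112 < ‖x - c‖ := by
    intro i
    obtain ⟨q, hq1, hq2, hq3⟩ := A.planes (z i) (hzΛ i)
    obtain ⟨c, hc1, hc2⟩ := Vale.Agent.P073.H716.exists_hole_clm q hq1 hq2 (z i) (Q.pos i)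
    refine ⟨c, hc1, fun x hx => ?_⟩
    by_cases hxs : x ∈ closedBall (z i) (s (z i))
    · obtain ⟨p, hp, hpx⟩ := hq3 x hxs hx
      have := hc2 p hp x hpx
      norm_num at this
      exact this
    · rw [mem_closedBall, dist_eq_norm, not_le] at hxs
      have h1 := norm_sub_le_norm_sub_add_norm_sub x c (z i)
      have h2 := hσ i
      have h3 := Q.pos i
      linarith
  choose c hc1 hc2 using hc
  -- the size of the perturbation
  set m : ι → ℝ := fun i => min (1 / 1792) (k i / 8) * σ i with hm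
  have hm0 : ∀ i, 0 < m i := fun i => by
    have := hk i
    have := Q.pos i
    positivity
  have hm1 : ∀ i, m i ≤ σ i / 1792 := fun i => by
    have h1 : min (1 / 1792) (k i / 8) ≤ 1 / 1792 := min_le_left _ _
    have h2 := Q.pos i
    calc m i ≤ 1 / 1792 * σ i := by simp only [hm]; gcongr
      _ = _ := by ring
  have hm2 : ∀ i, m i ≤ k i * σ i / 8 := fun i => by
    have h1 : min (1 / 1792) (k i / 8) ≤ k i / 8 := min_le_right _ _
    have h2 := Q.pos i
    calc m i ≤ k i / 8 * σ i := by simp only [hm]; gcongr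
      _ = _ := by ring
  obtain ⟨F, hF0, hFl, hFm⟩ := exists_below Q hm0
  have hsc : Continuous s := continuous_of_lip A.lip
  obtain ⟨r, hr1, hr2, hr3, hr4, hr5⟩ := exists_lower C.opn (compl_nonempty C.bdd)
    (s := fun x => min (s x / 16) (F x)) (fun x hx => by
      obtain ⟨a, ha, h1⟩ := hFl x hx
      obtain ⟨b, hb, h2⟩ := lb_of_continuousOn C.opn (s := fun x => s x / 16)
        (hsc.div_const 16).continuousOn (fun y hy => by have := A.pos y hy; positivity) x hx
      refine ⟨min b a, lt_min hb ha, ?_⟩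
      filter_upwards [h1, h2] with w k1 k2 hw
      exact min_le_min (k2 hw) (k1 hw))
    (fun y hy => lt_min (by have := A.pos y hy; positivity) (hF0 y hy))
  have hrs : ∀ x ∈ Λ, r x ≤ s x / 16 := fun x hx => (hr3 x hx).trans (min_le_left _ _)
  have hrF : ∀ x ∈ Λ, r x ≤ F x := fun x hx => (hr3 x hx).trans (min_le_right _ _)
  have hrc : Continuous r := continuous_of_lip hr1
  set δ₁ : V → ℝ := fun x => r x / 2 with hδ₁
  have hδc : Continuous δ₁ := hrc.div_const 2
  obtain ⟨g, hg1, hg2, hg3, hg4, hg5⟩ := exists_var_slope C.lite (δ := δ₁)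
    (lb_of_continuousOn C.opn hδc.continuousOn (fun y hy => by
      have := hr2 y hy; simp only [hδ₁]; positivity))
    (fun y hy => by have := hr2 y hy; simp only [hδ₁]; positivity) hε
  have hTc := C.continuous
  have hgΛ : ∀ y, g.toFun y ∈ Λ → y ∈ Λ := fun y hy => by
    by_contra hc
    rw [hg2 y hc] at hy
    exact hc hy
  -- closeness in the cubes
  have hcl : ∀ y ∈ Λ, ∀ i, g.toFun y ∈ closedBall (z i) (σ i) → δ₁ (T y) ≤ m i := by
    intro y hy i hi
    have h1 := hg3 y hy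
    have h2 := hr1 (T y) (g.toFun y)
    rw [norm_sub_rev] at h2
    have h3 := (hrF _ (Q.sub i hi)).trans (hFm i _ hi)
    simp only [hδ₁] at *
    linarith
  have hXc : ∀ i, Disjoint (closedBall (z i) (σ i)) X → ∀ x ∈ X, σ i < ‖x - z i‖ := by
    intro i hi x hx
    by_contra hcon
    push Not at hcon
    exact disjoint_left.1 hi (by rwa [mem_closedBall, dist_eq_norm]) hx
  refine ⟨c, g, ⟨hg1, hg2, fun y hy => ?_, fun y hy i hi => ?_, hg5, hc1, fun i x hx => hc2 i x hx,
    fun y hy hyV i => ?_, fun y hy hyV i hi => ?_, fun i => ?_, fun i hi => ?_⟩⟩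
  · -- near
    have h1 := hg3 y hy
    have h2 := hrs _ (C.maps hy)
    have h3 := hr2 _ (C.maps hy)
    simp only [hδ₁] at h1
    linarith
  · -- near'
    have h1 := (hg3 y hy).trans (hcl y hy i hi)
    have h2 := hm1 i
    have h3 := Q.pos i
    linarith
  · -- core
    have hx := C.V0X y hy hyV
    by_contra hcon
    push Not at hcon
    have h3 := Q.pos i
    have h4 := norm_sub_le_norm_sub_add_norm_sub (g.toFun y) (c i) (z i)
    have h5 := hc1 i
    have h6 : g.toFun y ∈ closedBall (z i) (σ i) := by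
      rw [mem_closedBall, dist_eq_norm]; linarith
    have h7 := (hg3 y hy).trans (hcl y hy i h6)
    have h8 := hm1 i
    have h9 := hc2 i _ hx
    have h10 := norm_sub_le_norm_sub_add_norm_sub (T y) (g.toFun y) (c i)
    rw [norm_sub_rev (T y) (g.toFun y)] at h10
    linarith
  · -- mid
    have hx := C.V0X y hy hyV
    by_contra hcon
    push Not at hcon
    have h3 := Q.pos i
    have h4 := hk i
    have h5 : 0 < k i * σ i := mul_pos h4 h3
    have h6 : g.toFun y ∈ closedBall (z i) (σ i) := by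
      rw [mem_closedBall, dist_eq_norm]; linarith
    have h7 := (hg3 y hy).trans (hcl y hy i h6)
    have h8 := hm2 i
    have h9 := hXc i hi _ hx
    have h10 := norm_sub_le_norm_sub_add_norm_sub (T y) (g.toFun y) (z i)
    rw [norm_sub_rev (T y) (g.toFun y)] at h10
    linarith
  · -- affcore
    have h3 := Q.pos i
    have hD : closedBall (c i) (σ i / 112) ⊆ Λ \ X := by
      intro v hv
      rw [mem_closedBall, dist_eq_norm] at hv
      refine ⟨Q.sub i ?_, fun hvX => ?_⟩
      · rw [mem_closedBall, dist_eq_norm]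
        have h4 := norm_sub_le_norm_sub_add_norm_sub v (c i) (z i)
        have h5 := hc1 i
        linarith
      · have := hc2 i v hvX
        linarith
    obtain ⟨w, hw⟩ := C.aff _ hD (convex_closedBall _ _).isPreconnected
    refine ⟨w, fun y hy => ?_⟩
    rw [mem_closedBall, dist_eq_norm] at hy
    have h6 : g.toFun y ∈ closedBall (z i) (σ i) := by
      rw [mem_closedBall, dist_eq_norm]
      have h4 := norm_sub_le_norm_sub_add_norm_sub (g.toFun y) (c i) (z i)
      have h5 := hc1 i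
      linarith
    have hyΛ := hgΛ y (Q.sub i h6)
    obtain ⟨k1, k2⟩ := eventually_eq_of_ball (m := m i) (a := σ i / 224) (b := σ i / 112)
      hTc C.opn hδc hg4 (hm0 i) (by have := hm1 i; linarith) (fun x hx => hc2 i x hx) hyΛ hy
      ((hg3 y hyΛ).trans (hcl y hyΛ i h6)) (hcl y hyΛ i h6)
    have k3 := hw y (by rw [mem_closedBall, dist_eq_norm]; exact k2.le)
    filter_upwards [k1, k3] with y' a1 a2
    rw [a1, a2]
  · -- affmid
    have h3 := Q.pos i
    have h4 := hk i
    have h5 : 0 < k i * σ i := mul_pos h4 h3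
    have hD : closedBall (z i) (σ i) ⊆ Λ \ X := fun v hv =>
      ⟨Q.sub i hv, fun hvX => disjoint_left.1 hi hv hvX⟩
    obtain ⟨w, hw⟩ := C.aff _ hD (convex_closedBall _ _).isPreconnected
    refine ⟨w, fun y hy => ?_⟩
    rw [mem_closedBall, dist_eq_norm] at hy
    have h6 : g.toFun y ∈ closedBall (z i) (σ i) := by
      rw [mem_closedBall, dist_eq_norm]
      linarith
    have hyΛ := hgΛ y (Q.sub i h6)
    obtain ⟨k1, k2⟩ := eventually_eq_of_ball (m := m i) (a := (1 - k i) * σ i) (b := σ i)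
      hTc C.opn hδc hg4 (hm0 i) (by have := hm2 i; linarith) (hXc i hi) hyΛ hy
      ((hg3 y hyΛ).trans (hcl y hyΛ i h6)) (hcl y hyΛ i h6)
    have k3 := hw y (by rw [mem_closedBall, dist_eq_norm]; exact k2.le)
    filter_upwards [k1, k3] with y' a1 a2
    rw [a1, a2]

end Vale.Agent.P073.H726
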