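import Vale.Agent.P073.H726.Ball
import Mathlib.MeasureTheory.Covering.Besicovitch
import Mathlib.MeasureTheory.Covering.BesicovitchVectorSpace
import Mathlib.Topology.Algebra.Module.Cardinality

/-!
# P073: the area inequality `|f(A)| ≤ ∫_A |det Df|` for homeomorphisms in `W^{1,3}`
-/

namespace Vale.Agent.P073.H726

open MeasureTheory Set Filter Topology Metric Vale.Agent.P073.St
open scoped ContDiff ENNReal

variable {Ω Λ : Set V} {f h : V → V} {F : V → V →L[ℝ] V}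

theorem image_eq (hinv : St.IsInv Ω Λ f h) (A : Set V) : f '' (A ∩ Ω) = h ⁻¹' A ∩ Λ := by
  ext y
  constructor
  · rintro ⟨x, ⟨hxA, hx⟩, rfl⟩
    have hx' := hinv.1 x hx
    exact ⟨by rw [mem_preimage, hx'.2]; exact hxA, hx'.1⟩
  · rintro ⟨hy', hy⟩
    exact ⟨h y, ⟨hy', (hinv.2 y hy).1⟩, (hinv.2 y hy).2⟩

/-- the volume of the image, as a measure -/
noncomputable def im (Λ : Set V) (h : V → V) : Measure V := (volume.restrict Λ).map h

theorem im_apply (hΛ : IsOpen Λ) (hinv : St.IsInv Ω Λ f h) (hhc : ContinuousOn h Λ)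
    {A : Set V} (hA : MeasurableSet A) : im Λ h A = volume (f '' (A ∩ Ω)) := by
  have h1 : AEMeasurable h (volume.restrict Λ) := hhc.aemeasurable hΛ.measurableSet
  rw [im, Measure.map_apply_of_aemeasurable h1 hA, image_eq hinv, 
    Measure.restrict_apply' hΛ.measurableSet]

theorem im_null (hΛ : IsOpen Λ) (hinv : St.IsInv Ω Λ f h) (hhc : ContinuousOn h Λ)
    {A : Set V} (hA : im Λ h A = 0) : volume (f '' (A ∩ Ω)) = 0 := by
  obtain ⟨B, hAB, hB, hB0⟩ := exists_measurable_superset_of_null hA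
  rw [im_apply hΛ hinv hhc hB] at hB0
  exact measure_mono_null (image_mono (inter_subset_inter_left _ hAB)) hB0

theorem exists_radius (hΛ : IsOpen Λ) (hinv : St.IsInv Ω Λ f h) (hhc : ContinuousOn h Λ)
    {U : Set V} (hU : IsOpen U) (hUΩ : U ⊆ Ω) {x : V} (hx : x ∈ U) {δ : ℝ} (hδ : 0 < δ) :
    ∃ r, 0 < r ∧ r < δ ∧ closedBall x r ⊆ U ∧ volume (f '' sphere x r) = 0 := by
  obtain ⟨ρ, hρ, hρU⟩ := Metric.nhds_basis_closedBall.mem_iff.1 (hU.mem_nhds hx)
  have hc : Set.Countable {r : ℝ | 0 < im Λ h (sphere x r)} := by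
    have : SFinite (im Λ h) := by unfold im; infer_instance
    refine Measure.countable_meas_pos_of_disjoint_iUnion (fun r => isClosed_sphere.measurableSet) ?_
    intro r s hrs
    refine Set.disjoint_left.2 fun y hy hy' => hrs ?_
    rw [mem_sphere] at hy hy'
    exact hy.symm.trans hy'
  have hd := hc.dense_compl ℝ
  obtain ⟨r, hr, hr'⟩ := hd.exists_mem_open isOpen_Ioo (nonempty_Ioo.2 (lt_min hρ hδ))
  refine ⟨r, hr'.1, hr'.2.trans_le (min_le_right _ _),
    (closedBall_subset_closedBall (hr'.2.le.trans (min_le_left _ _))).trans hρU, ?_⟩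
  have h1 : im Λ h (sphere x r) = 0 := by
    by_contra h0
    exact hr (pos_iff_ne_zero.2 h0)
  have h2 := im_null hΛ hinv hhc h1
  rwa [inter_eq_left.2] at h2
  exact sphere_subset_closedBall.trans
    (((closedBall_subset_closedBall (hr'.2.le.trans (min_le_left _ _))).trans hρU).trans hUΩ)

/-- the area inequality, with an open neighbourhood -/
theorem image_le_open (hΩ : IsOpen Ω) (hΛ : IsOpen Λ)
    (hinv : St.IsInv Ω Λ f h) (hfc : ContinuousOn f Ω) (hhc : ContinuousOn h Λ)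
    (hF : LocallyIntegrableOn F Ω)
    (hF3 : ∀ L ⊆ Ω, IsCompact L → ∫⁻ x in L, ENNReal.ofReal (‖F x‖ ^ (3 : ℝ)) ≠ ⊤)
    (hw : HB.WeakDeriv volume Ω f F) {A U : Set V} (hU : IsOpen U) (hUΩ : U ⊆ Ω) (hAU : A ⊆ U) :
    volume (f '' A) ≤ ∫⁻ x in U, ENNReal.ofReal |(F x).det| := by
  have : SFinite (im Λ h) := by unfold im; infer_instance
  obtain ⟨t, r, htc, htA, htr, hcov, hdisj⟩ := Besicovitch.exists_disjoint_closedBall_covering_ae
    (im Λ h) (fun x => {r | 0 < r ∧ closedBall x r ⊆ U ∧ volume (f '' sphere x r) = 0}) A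
    (fun x hx δ hδ => by
      obtain ⟨r, h1, h2, h3, h4⟩ := exists_radius hΛ hinv hhc hU hUΩ (hAU hx) hδ
      exact ⟨r, ⟨h1, h3, h4⟩, h1, h2⟩) (fun _ => 1) (fun _ _ => one_pos)
  have h1 : A ⊆ ((A \ ⋃ x ∈ t, closedBall x (r x)) ∩ Ω) ∪ ⋃ x ∈ t, closedBall x (r x) := by
    intro x hx
    by_cases hxt : x ∈ ⋃ x ∈ t, closedBall x (r x)
    · exact Or.inr hxt
    · exact Or.inl ⟨⟨hx, hxt⟩, hUΩ (hAU hx)⟩
  calc volume (f '' A) ≤ volume (f '' (((A \ ⋃ x ∈ t, closedBall x (r x)) ∩ Ω) ∪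
        ⋃ x ∈ t, closedBall x (r x))) := measure_mono (image_mono h1)
    _ ≤ volume (f '' ((A \ ⋃ x ∈ t, closedBall x (r x)) ∩ Ω)) +
        volume (⋃ x ∈ t, f '' closedBall x (r x)) := by
          rw [image_union, image_iUnion₂]
          exact measure_union_le _ _
    _ ≤ 0 + ∑' x : t, volume (f '' closedBall x.1 (r x)) := by
          gcongr
          · exact (im_null hΛ hinv hhc hcov).le
          · exact measure_biUnion_le volume htc _
    _ ≤ 0 + ∑' x : t, ∫⁻ y in closedBall x.1 (r x), ENNReal.ofReal |(F y).det| := by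
          gcongr with x
          have h2 := (htr x.1 x.2).1
          exact ball_le hΩ hΛ hinv hfc hhc hF hF3 hw (h2.2.1.trans hUΩ) h2.2.2
    _ = ∫⁻ y in ⋃ x ∈ t, closedBall x (r x), ENNReal.ofReal |(F y).det| := by
          rw [zero_add, lintegral_biUnion htc (fun x _ => isClosed_closedBall.measurableSet) hdisj]
    _ ≤ ∫⁻ y in U, ENNReal.ofReal |(F y).det| := by
          refine lintegral_mono_set ?_
          exact iUnion₂_subset fun x hx => (htr x hx).1.2.1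

theorem abs_det_le (A : V →L[ℝ] V) : |A.det| ≤ 18 * ‖A‖ ^ 3 := by
  have h1 := abs_det_sub_le A 0 (m := ‖A‖) le_rfl (by simp)
  have h2 : (0 : V →L[ℝ] V).det = 0 := by
    rw [det_eq]
    simp [en]
  rw [h2, sub_zero, sub_zero] at h1
  calc |A.det| ≤ 18 * ‖A‖ ^ 2 * ‖A‖ := h1
    _ = 18 * ‖A‖ ^ 3 := by ring

theorem lintegral_det_ne_top {L : Set V}
    (hF3 : ∫⁻ x in L, ENNReal.ofReal (‖F x‖ ^ (3 : ℝ)) ≠ ⊤) :
    ∫⁻ x in L, ENNReal.ofReal |(F x).det| ≠ ⊤ := by
  have h1 : ∀ x, ENNReal.ofReal |(F x).det| ≤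
      ENNReal.ofReal 18 * ENNReal.ofReal (‖F x‖ ^ (3 : ℝ)) := by
    intro x
    rw [← ENNReal.ofReal_mul (by norm_num)]
    apply ENNReal.ofReal_le_ofReal
    have e1 : ‖F x‖ ^ (3 : ℝ) = ‖F x‖ ^ 3 := by
      rw [← Real.rpow_natCast]; norm_num
    rw [e1]
    exact abs_det_le (F x)
  refine ne_top_of_le_ne_top ?_ (lintegral_mono h1)
  rw [lintegral_const_mul' _ _ ENNReal.ofReal_ne_top]
  exact ENNReal.mul_ne_top ENNReal.ofReal_ne_top hF3

/-- the area inequality for measurable sets well inside `Ω` -/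
theorem image_le_compact (hΩ : IsOpen Ω) (hΛ : IsOpen Λ)
    (hinv : St.IsInv Ω Λ f h) (hfc : ContinuousOn f Ω) (hhc : ContinuousOn h Λ)
    (hF : LocallyIntegrableOn F Ω)
    (hF3 : ∀ L ⊆ Ω, IsCompact L → ∫⁻ x in L, ENNReal.ofReal (‖F x‖ ^ (3 : ℝ)) ≠ ⊤)
    (hw : HB.WeakDeriv volume Ω f F) {A L : Set V} (hA : MeasurableSet A) (hL : IsCompact L)
    (hAL : A ⊆ L) (hLΩ : L ⊆ Ω) :
    volume (f '' A) ≤ ∫⁻ x in A, ENNReal.ofReal |(F x).det| := by
  obtain ⟨L', hL', hLL', hL'Ω⟩ := exists_compact_between hL hΩ hLΩ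
  set W := interior L' with hW
  have hWΩ : W ⊆ Ω := interior_subset.trans hL'Ω
  set ν : Measure V := (volume.restrict W).withDensity fun x => ENNReal.ofReal |(F x).det| with hν
  have hνf : IsFiniteMeasure ν := by
    refine ⟨?_⟩
    rw [hν, withDensity_apply _ MeasurableSet.univ, Measure.restrict_univ]
    refine lt_of_le_of_lt (lintegral_mono_set interior_subset)
      (lt_top_iff_ne_top.2 (lintegral_det_ne_top (hF3 L' hL'Ω hL')))
  have hνA : ∀ B : Set V, MeasurableSet B → B ⊆ W →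
      ν B = ∫⁻ x in B, ENNReal.ofReal |(F x).det| := by
    intro B hB hBW
    rw [hν, withDensity_apply _ hB, Measure.restrict_restrict hB, inter_eq_left.2 hBW]
  have hAW : A ⊆ W := hAL.trans hLL'
  rw [← hνA A hA hAW]
  refine le_of_forall_gt fun c hc => ?_
  obtain ⟨U, hAU, hU, hUc⟩ := A.exists_isOpen_lt_of_lt c hc
  refine lt_of_le_of_lt ?_ hUc
  calc volume (f '' A) ≤ ∫⁻ x in U ∩ W, ENNReal.ofReal |(F x).det| :=
        image_le_open hΩ hΛ hinv hfc hhc hF hF3 hw (hU.inter isOpen_interior)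
          (inter_subset_right.trans hWΩ) (subset_inter hAU hAW)
    _ = ν (U ∩ W) := (hνA _ (hU.inter isOpen_interior).measurableSet inter_subset_right).symm
    _ ≤ ν U := measure_mono inter_subset_left

/-- **Area inequality**: `|f(A)| ≤ ∫_A |det Df|` for homeomorphisms in `W^{1,3}_loc`. -/
theorem image_le (hΩ : IsOpen Ω) (hΛ : IsOpen Λ)
    (hinv : St.IsInv Ω Λ f h) (hfc : ContinuousOn f Ω) (hhc : ContinuousOn h Λ)
    (hF : LocallyIntegrableOn F Ω)
    (hF3 : ∀ L ⊆ Ω, IsCompact L → ∫⁻ x in L, ENNReal.ofReal (‖F x‖ ^ (3 : ℝ)) ≠ ⊤)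
    (hw : HB.WeakDeriv volume Ω f F) {A : Set V} (hA : MeasurableSet A) (hAΩ : A ⊆ Ω) :
    volume (f '' A) ≤ ∫⁻ x in A, ENNReal.ofReal |(F x).det| := by
  -- a countable cover of `Ω` by compact subsets
  obtain ⟨K, hK, hKΩ⟩ : ∃ K : ℕ → Set V, (∀ n, IsCompact (K n) ∧ K n ⊆ Ω) ∧ Ω ⊆ ⋃ n, K n := by
    obtain ⟨G, hGc, hGΩ, hGu, hGm⟩ := hΩ.exists_iUnion_isClosed
    refine ⟨fun n => G n ∩ closedBall 0 n, fun n =>
      ⟨(isCompact_closedBall 0 (n : ℝ)).inter_left (hGc n), inter_subset_left.trans (hGΩ n)⟩, ?_⟩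
    intro x hx
    rw [← hGu] at hx
    obtain ⟨m, hm⟩ := mem_iUnion.1 hx
    obtain ⟨k, hk⟩ := exists_nat_ge (dist x 0)
    refine mem_iUnion.2 ⟨max m k, hGm (le_max_left m k) hm, ?_⟩
    rw [mem_closedBall]
    refine hk.trans ?_
    exact_mod_cast le_max_right m k
  have hD : A = ⋃ n, A ∩ disjointed K n := by
    rw [← inter_iUnion, iUnion_disjointed]
    exact (inter_eq_left.2 (hAΩ.trans hKΩ)).symm
  have hDm : ∀ n, MeasurableSet (A ∩ disjointed K n) := fun n =>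
    hA.inter (MeasurableSet.disjointed (fun n => (hK n).1.measurableSet) n)
  have hDd : Pairwise (Function.onFun Disjoint fun n => A ∩ disjointed K n) := fun m n hmn =>
    ((disjoint_disjointed K) hmn).mono inter_subset_right inter_subset_right
  calc volume (f '' A) = volume (⋃ n, f '' (A ∩ disjointed K n)) := by
        rw [← image_iUnion, ← hD]
    _ ≤ ∑' n, volume (f '' (A ∩ disjointed K n)) := measure_iUnion_le _
    _ ≤ ∑' n, ∫⁻ x in A ∩ disjointed K n, ENNReal.ofReal |(F x).det| := by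
        gcongr with n
        exact image_le_compact hΩ hΛ hinv hfc hhc hF hF3 hw (hDm n) (hK n).1
          (inter_subset_right.trans (disjointed_subset K n)) (hK n).2
    _ = ∫⁻ x in A, ENNReal.ofReal |(F x).det| := by
        rw [← lintegral_iUnion hDm hDd, ← hD]

/-- **Lusin's condition (N)**. -/
theorem image_null (hΩ : IsOpen Ω) (hΛ : IsOpen Λ)
    (hinv : St.IsInv Ω Λ f h) (hfc : ContinuousOn f Ω) (hhc : ContinuousOn h Λ)
    (hF : LocallyIntegrableOn F Ω)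
    (hF3 : ∀ L ⊆ Ω, IsCompact L → ∫⁻ x in L, ENNReal.ofReal (‖F x‖ ^ (3 : ℝ)) ≠ ⊤)
    (hw : HB.WeakDeriv volume Ω f F) {A : Set V} (hAΩ : A ⊆ Ω) (hA : volume A = 0) :
    volume (f '' A) = 0 := by
  obtain ⟨B, hAB, hB, hB0⟩ := exists_measurable_superset_of_null hA
  have h1 := image_le hΩ hΛ hinv hfc hhc hF hF3 hw (hB.inter hΩ.measurableSet) inter_subset_right
  have h2 : ∫⁻ x in B ∩ Ω, ENNReal.ofReal |(F x).det| = 0 :=
    setLIntegral_measure_zero _ _ (measure_mono_null inter_subset_left hB0)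
  rw [h2] at h1
  exact measure_mono_null (image_mono (subset_inter hAB hAΩ)) (le_antisymm h1 bot_le)

/-- **The image of a set on which the Jacobian determinant vanishes almost everywhere is null**. -/
theorem image_det_null (hΩ : IsOpen Ω) (hΛ : IsOpen Λ)
    (hinv : St.IsInv Ω Λ f h) (hfc : ContinuousOn f Ω) (hhc : ContinuousOn h Λ)
    (hF : LocallyIntegrableOn F Ω)
    (hF3 : ∀ L ⊆ Ω, IsCompact L → ∫⁻ x in L, ENNReal.ofReal (‖F x‖ ^ (3 : ℝ)) ≠ ⊤)
    (hw : HB.WeakDeriv volume Ω f F) {A : Set V} (hAΩ : A ⊆ Ω) (hAm : NullMeasurableSet A volume)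
    (hA : ∀ᵐ x ∂(volume : Measure V), x ∈ A → (F x).det = 0) :
    volume (f '' A) = 0 := by
  obtain ⟨B, hBA, hB, hBe⟩ := hAm.exists_measurable_subset_ae_eq
  have h1 := image_le hΩ hΛ hinv hfc hhc hF hF3 hw hB (hBA.trans hAΩ)
  have h2 : ∫⁻ x in B, ENNReal.ofReal |(F x).det| = 0 := by
    have h3 : ∀ᵐ x ∂(volume.restrict B), ENNReal.ofReal |(F x).det| = 0 :=
      (ae_restrict_iff' hB).2 (hA.mono fun x hx hxB => by
        rw [hx (hBA hxB), abs_zero, ENNReal.ofReal_zero])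
    rw [lintegral_congr_ae h3, lintegral_zero]
  rw [h2] at h1
  have h3 : volume (f '' (A \ B)) = 0 :=
    image_null hΩ hΛ hinv hfc hhc hF hF3 hw (sdiff_subset.trans hAΩ) (ae_le_set.1 hBe.symm.le)
  have h4 : f '' A ⊆ f '' B ∪ f '' (A \ B) := by
    rw [← image_union]
    refine image_mono fun x hx => ?_
    by_cases hxB : x ∈ B
    · exact Or.inl hxB
    · exact Or.inr ⟨hx, hxB⟩
  refine measure_mono_null h4 ?_
  rw [measure_union_null_iff]
  exact ⟨le_antisymm h1 bot_le, h3⟩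

end Vale.Agent.P073.H726
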