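import Vale.Agent.P330.Brouwer
import Vale.Agent.P073.St

/-!
# P073: a map uniformly close to a homeomorphism covers the interior points of the image
-/

namespace Vale.Agent.P073.H726

open MeasureTheory Set Filter Topology Metric Vale.Agent.P073.St
open scoped ENNReal

/-- If `g` is `s`-close to `f` on `Q` and the closed ball of radius `s` around `y` is contained in
`f(Q)` (where `f` has a continuous inverse `h`), then `y ∈ g(Q)`. -/
theorem mem_image_of_close {Q : Set V} {f g h : V → V} {y : V} {s : ℝ} (hs : 0 < s)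
    (hg : ContinuousOn g Q) (hh : ContinuousOn h (closedBall y s))
    (hfh : ∀ z ∈ closedBall y s, h z ∈ Q ∧ f (h z) = z)
    (hgf : ∀ x ∈ Q, ‖g x - f x‖ ≤ s) : y ∈ g '' Q := by
  set r : V → V := fun w => (max 1 ‖w‖)⁻¹ • w with hr
  have hpos : ∀ w : V, 0 < max 1 ‖w‖ := fun w => lt_of_lt_of_le one_pos (le_max_left _ _)
  have hrc : Continuous r := by
    have h1 : Continuous fun w : V => (max 1 ‖w‖)⁻¹ :=
      (continuous_const.max continuous_norm).inv₀ fun w => (hpos w).ne'
    exact h1.smul continuous_id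
  have hrn : ∀ w, ‖r w‖ ≤ 1 := by
    intro w
    rw [hr]
    simp only [norm_smul, norm_inv, Real.norm_eq_abs, abs_of_pos (hpos w)]
    rw [inv_mul_le_iff₀ (hpos w), mul_one]
    exact le_max_right _ _
  have hr1 : ∀ w, ‖w‖ ≤ 1 → r w = w := by
    intro w hw
    rw [hr]
    simp only [max_eq_left hw, inv_one, one_smul]
  set c : V → V := fun w => y + s • r w with hc
  have hcc : Continuous c := continuous_const.add (hrc.const_smul s)
  have hcm : ∀ w, c w ∈ closedBall y s := by
    intro w
    rw [mem_closedBall, dist_eq_norm, hc]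
    simp only [add_sub_cancel_left, norm_smul, Real.norm_eq_abs, abs_of_pos hs]
    calc s * ‖r w‖ ≤ s * 1 := by gcongr; exact hrn w
      _ = s := mul_one s
  set ψ : V → V := fun w => s⁻¹ • (c w - g (h (c w))) with hψ
  have hψc : Continuous ψ := by
    have h1 : Continuous fun w => h (c w) := by
      rw [← continuousOn_univ]
      exact hh.comp hcc.continuousOn fun w _ => hcm w
    have h2 : Continuous fun w => g (h (c w)) := by
      rw [← continuousOn_univ]
      exact hg.comp h1.continuousOn fun w _ => (hfh _ (hcm w)).1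
    exact (hcc.sub h2).const_smul s⁻¹
  obtain ⟨w, hw, hfix⟩ := Vale.Agent.P330.brouwer_cube ψ hψc (by
    intro w _
    rw [hψ]
    simp only [norm_smul, norm_inv, Real.norm_eq_abs, abs_of_pos hs]
    rw [inv_mul_le_iff₀ hs, mul_one]
    obtain ⟨h1, h2⟩ := hfh _ (hcm w)
    have h3 := hgf _ h1
    rw [h2, norm_sub_rev] at h3
    exact h3)
  have h1 : c w = y + s • w := by
    rw [hc]
    simp only [hr1 w hw]
  refine ⟨h (c w), (hfh _ (hcm w)).1, ?_⟩
  have h2 : c w - g (h (c w)) = s • w := by
    have h3 : s • ψ w = s • w := by rw [hfix]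
    rw [hψ] at h3
    simp only [smul_smul, mul_inv_cancel₀ hs.ne', one_smul] at h3
    exact h3
  have h3 : g (h (c w)) = c w - s • w := by
    rw [← h2]
    abel
  rw [h3, h1, add_sub_cancel_right]

/-- The set of points of `K` at distance at most `s` from the complement of `K`. -/
def rim (K : Set V) (s : ℝ) : Set V := {z | z ∈ K ∧ infEDist z Kᶜ ≤ ENNReal.ofReal s}

theorem closedBall_subset_of_not_rim {K : Set V} {s : ℝ} {z : V} (hz : z ∈ K)
    (hzr : z ∉ rim K s) : closedBall z s ⊆ K := by
  intro w hw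
  by_contra hwK
  apply hzr
  refine ⟨hz, ?_⟩
  calc infEDist z Kᶜ ≤ edist z w := infEDist_le_edist_of_mem hwK
    _ = ENNReal.ofReal (dist z w) := edist_dist _ _
    _ ≤ ENNReal.ofReal s := by
        apply ENNReal.ofReal_le_ofReal
        rw [dist_comm]
        exact hw

/-- the measure of the rim tends to the measure of the frontier -/
theorem tendsto_rim {K : Set V} (hK : IsCompact K) (hfr : volume (frontier K) = 0) :
    Tendsto (fun n : ℕ => volume (rim K (1 / (n + 1)))) atTop (𝓝 0) := by
  have hcl : ∀ s, IsClosed {z : V | infEDist z Kᶜ ≤ ENNReal.ofReal s} := fun s =>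
    isClosed_le continuous_infEDist continuous_const
  have hm : ∀ n : ℕ, MeasurableSet (rim K (1 / (n + 1))) := fun n =>
    (hK.isClosed.inter (hcl _)).measurableSet
  have hanti : Antitone fun n : ℕ => rim K (1 / ((n : ℝ) + 1)) := by
    intro a b hab z hz
    refine ⟨hz.1, hz.2.trans (ENNReal.ofReal_le_ofReal ?_)⟩
    exact one_div_le_one_div_of_le (by positivity) (by
      have : (a : ℝ) ≤ b := by exact_mod_cast hab
      linarith)
  have h1 := tendsto_measure_iInter_atTop (μ := volume) (fun n => (hm n).nullMeasurableSet)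
    hanti ⟨0, ((measure_mono fun z hz => hz.1).trans_lt hK.measure_lt_top).ne⟩
  have h2 : (⋂ n : ℕ, rim K (1 / ((n : ℝ) + 1))) ⊆ frontier K := by
    intro z hz
    have hzK : z ∈ K := (mem_iInter.1 hz 0).1
    have h3 : infEDist z Kᶜ = 0 := by
      have h4 : Tendsto (fun n : ℕ => ENNReal.ofReal (1 / ((n : ℝ) + 1))) atTop (𝓝 0) := by
        have h5 := ENNReal.tendsto_ofReal tendsto_one_div_add_atTop_nhds_zero_nat
        rwa [ENNReal.ofReal_zero] at h5
      exact le_antisymm (ge_of_tendsto' h4 fun n => (mem_iInter.1 hz n).2) bot_le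
    rw [frontier_eq_closure_inter_closure]
    refine ⟨subset_closure hzK, ?_⟩
    exact mem_closure_iff_infEDist_zero.2 h3
  have h3 : volume (⋂ n : ℕ, rim K (1 / ((n : ℝ) + 1))) = 0 := measure_mono_null h2 hfr
  rw [h3] at h1
  exact h1

end Vale.Agent.P073.H726
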