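import Vale.Agent.P073.St

/-!
# P073: determinants of endomorphisms of three-space: Lipschitz estimate
-/

namespace Vale.Agent.P073.H726

open MeasureTheory Set Filter Topology Metric Vale.Agent.P073.St
open scoped ENNReal

/-- matrix entries -/
noncomputable def en (A : V →L[ℝ] V) (i j : Fin 3) : ℝ := A (Pi.single j 1) i

theorem abs_en_le (A : V →L[ℝ] V) (i j : Fin 3) : |en A i j| ≤ ‖A‖ := by
  unfold en
  have h1 : ‖(Pi.single j (1 : ℝ) : V)‖ ≤ 1 := by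
    rw [pi_norm_le_iff_of_nonneg zero_le_one]
    intro k
    by_cases hk : k = j
    · subst hk; simp
    · simp [Pi.single_eq_of_ne hk]
  calc |A (Pi.single j 1) i| ≤ ‖A (Pi.single j 1)‖ := norm_le_pi_norm (A (Pi.single j 1)) i
    _ ≤ ‖A‖ * ‖(Pi.single j (1 : ℝ) : V)‖ := A.le_opNorm _
    _ ≤ ‖A‖ * 1 := by gcongr
    _ = ‖A‖ := mul_one _

theorem en_sub (A B : V →L[ℝ] V) (i j : Fin 3) : en (A - B) i j = en A i j - en B i j := rfl

theorem det_eq (A : V →L[ℝ] V) : A.det =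
    en A 0 0 * en A 1 1 * en A 2 2 - en A 0 0 * en A 1 2 * en A 2 1
      - en A 0 1 * en A 1 0 * en A 2 2 + en A 0 1 * en A 1 2 * en A 2 0
      + en A 0 2 * en A 1 0 * en A 2 1 - en A 0 2 * en A 1 1 * en A 2 0 := by
  rw [ContinuousLinearMap.det, ← LinearMap.det_toMatrix', Matrix.det_fin_three]
  simp only [LinearMap.toMatrix'_apply]
  unfold en
  simp

theorem prod_diff {a1 a2 a3 b1 b2 b3 m x : ℝ} (ha2 : |a2| ≤ m) (ha3 : |a3| ≤ m)
    (hb1 : |b1| ≤ m) (hb2 : |b2| ≤ m) (h1 : |a1 - b1| ≤ x) (h2 : |a2 - b2| ≤ x)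
    (h3 : |a3 - b3| ≤ x) : |a1 * a2 * a3 - b1 * b2 * b3| ≤ 3 * m ^ 2 * x := by
  have hm : 0 ≤ m := (abs_nonneg _).trans ha2
  have hx : 0 ≤ x := (abs_nonneg _).trans h1
  have e : a1 * a2 * a3 - b1 * b2 * b3 =
      (a1 - b1) * (a2 * a3) + b1 * ((a2 - b2) * a3) + b1 * (b2 * (a3 - b3)) := by ring
  rw [e]
  have k1 : |(a1 - b1) * (a2 * a3)| ≤ x * (m * m) := by
    rw [abs_mul, abs_mul]; gcongr
  have k2 : |b1 * ((a2 - b2) * a3)| ≤ m * (x * m) := by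
    rw [abs_mul, abs_mul]; gcongr
  have k3 : |b1 * (b2 * (a3 - b3))| ≤ m * (m * x) := by
    rw [abs_mul, abs_mul]; gcongr
  calc _ ≤ |(a1 - b1) * (a2 * a3) + b1 * ((a2 - b2) * a3)| + |b1 * (b2 * (a3 - b3))| :=
        abs_add_le _ _
    _ ≤ |(a1 - b1) * (a2 * a3)| + |b1 * ((a2 - b2) * a3)| + |b1 * (b2 * (a3 - b3))| := by
        gcongr; exact abs_add_le _ _
    _ ≤ x * (m * m) + m * (x * m) + m * (m * x) := by gcongr
    _ = 3 * m ^ 2 * x := by ring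

theorem abs_det_sub_le (A B : V →L[ℝ] V) {m : ℝ} (hA : ‖A‖ ≤ m) (hB : ‖B‖ ≤ m) :
    |A.det - B.det| ≤ 18 * m ^ 2 * ‖A - B‖ := by
  have ha : ∀ i j, |en A i j| ≤ m := fun i j => (abs_en_le A i j).trans hA
  have hb : ∀ i j, |en B i j| ≤ m := fun i j => (abs_en_le B i j).trans hB
  have hab : ∀ i j, |en A i j - en B i j| ≤ ‖A - B‖ := fun i j => abs_en_le (A - B) i j
  have key : ∀ i j k l s t, |en A i j * en A k l * en A s t - en B i j * en B k l * en B s t| ≤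
      3 * m ^ 2 * ‖A - B‖ := fun i j k l s t =>
    prod_diff (ha _ _) (ha _ _) (hb _ _) (hb _ _) (hab _ _) (hab _ _) (hab _ _)
  have t1 := key 0 0 1 1 2 2
  have t2 := key 0 0 1 2 2 1
  have t3 := key 0 1 1 0 2 2
  have t4 := key 0 1 1 2 2 0
  have t5 := key 0 2 1 0 2 1
  have t6 := key 0 2 1 1 2 0
  rw [det_eq A, det_eq B]
  rw [abs_le] at *
  constructor <;> linarith [t1.1, t1.2, t2.1, t2.2, t3.1, t3.2, t4.1, t4.2, t5.1, t5.2, t6.1, t6.2]

/-- Young type inequality. -/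
theorem abs_det_le_add (A B : V →L[ℝ] V) {ε : ℝ} (hε : 0 < ε) :
    |A.det| ≤ |B.det| + ε * ‖B‖ ^ 3 + (144 * (144 / ε) ^ 2 + 36) * ‖A - B‖ ^ 3 := by
  set b := ‖B‖ with hb
  set x := ‖A - B‖ with hx
  have hb0 : 0 ≤ b := norm_nonneg _
  have hx0 : 0 ≤ x := norm_nonneg _
  have hA : ‖A‖ ≤ b + x := by
    have : A = B + (A - B) := by abel
    calc ‖A‖ = ‖B + (A - B)‖ := by rw [← this]
      _ ≤ _ := norm_add_le _ _
  have h1 := abs_det_sub_le A B hA (by linarith : ‖B‖ ≤ b + x)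
  have h2 : |A.det| ≤ |B.det| + |A.det - B.det| := by
    have h3 : A.det = B.det + (A.det - B.det) := by ring
    calc |A.det| = |B.det + (A.det - B.det)| := by rw [← h3]
      _ ≤ _ := abs_add_le _ _
  have h3 : 18 * (b + x) ^ 2 * x ≤ 36 * b ^ 2 * x + 36 * x ^ 3 := by
    nlinarith [mul_nonneg hx0 (sq_nonneg (b - x))]
  have h4 : 36 * b ^ 2 * x ≤ ε * b ^ 3 + 144 * (144 / ε) ^ 2 * x ^ 3 := by
    rcases le_total (36 * x) (ε * b) with h | h
    · have h5 : 36 * b ^ 2 * x ≤ ε * b ^ 3 := by nlinarith [mul_le_mul_of_nonneg_left h (sq_nonneg b)]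
      have h6 : 0 ≤ 144 * (144 / ε) ^ 2 * x ^ 3 := by positivity
      linarith
    · have h5 : b ≤ 36 / ε * x := by
        rw [div_mul_eq_mul_div, le_div_iff₀ hε]
        linarith
      have h6 : b ^ 2 ≤ (36 / ε * x) ^ 2 := by gcongr
      have h7 : 36 * b ^ 2 * x ≤ 36 * (36 / ε * x) ^ 2 * x := by gcongr
      have h8 : 36 * (36 / ε * x) ^ 2 * x ≤ 144 * (144 / ε) ^ 2 * x ^ 3 := by
        have h9 : 36 / ε ≤ 144 / ε := by gcongr; norm_num
        have h10 : 36 * (36 / ε * x) ^ 2 * x = 36 * (36 / ε) ^ 2 * x ^ 3 := by ring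
        rw [h10]
        gcongr
        norm_num
      have h11 : 0 ≤ ε * b ^ 3 := by positivity
      linarith
  calc |A.det| ≤ |B.det| + 18 * (b + x) ^ 2 * x := by linarith
    _ ≤ |B.det| + (36 * b ^ 2 * x + 36 * x ^ 3) := by linarith
    _ ≤ |B.det| + ε * b ^ 3 + (144 * (144 / ε) ^ 2 + 36) * x ^ 3 := by linarith

end Vale.Agent.P073.H726
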