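import Vale.Agent.P073.H726.Moll
import Vale.Agent.P073.H726.Cover
import Vale.Agent.P073.H726.Det

/-!
# P073: the area inequality `|f(B)| ≤ ∫_B |det Df|` for homeomorphisms in `W^{1,3}`, on balls
-/

namespace Vale.Agent.P073.H726

open MeasureTheory Set Filter Topology Metric Vale.Agent.P073.St
open scoped ContDiff ENNReal

theorem lintegral_det_le {Q : Set V} {G F : V → V →L[ℝ] V}
    (hF : AEMeasurable F (volume.restrict Q)) {ε : ℝ} (hε : 0 < ε) :
    ∫⁻ x in Q, ENNReal.ofReal |(G x).det| ≤ (∫⁻ x in Q, ENNReal.ofReal |(F x).det|) +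
      ENNReal.ofReal ε * (∫⁻ x in Q, ENNReal.ofReal (‖F x‖ ^ (3 : ℝ))) +
      ENNReal.ofReal (144 * (144 / ε) ^ 2 + 36) *
        (∫⁻ x in Q, ENNReal.ofReal (‖G x - F x‖ ^ (3 : ℝ))) := by
  have h1 : ∀ x, ENNReal.ofReal |(G x).det| ≤ ENNReal.ofReal |(F x).det| +
      ENNReal.ofReal ε * ENNReal.ofReal (‖F x‖ ^ (3 : ℝ)) +
      ENNReal.ofReal (144 * (144 / ε) ^ 2 + 36) * ENNReal.ofReal (‖G x - F x‖ ^ (3 : ℝ)) := by
    intro x
    have h2 := abs_det_le_add (G x) (F x) hε
    rw [← ENNReal.ofReal_mul hε.le, ← ENNReal.ofReal_mul (by positivity),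
      ← ENNReal.ofReal_add (abs_nonneg _) (by positivity),
      ← ENNReal.ofReal_add (by positivity) (by positivity)]
    apply ENNReal.ofReal_le_ofReal
    have e1 : ‖F x‖ ^ (3 : ℝ) = ‖F x‖ ^ 3 := by
      rw [← Real.rpow_natCast]; norm_num
    have e2 : ‖G x - F x‖ ^ (3 : ℝ) = ‖G x - F x‖ ^ 3 := by
      rw [← Real.rpow_natCast]; norm_num
    rw [e1, e2]
    exact h2
  have m1 : AEMeasurable (fun x => ENNReal.ofReal |(F x).det|) (volume.restrict Q) := by
    have h2 : AEMeasurable (fun x => (F x).det) (volume.restrict Q) :=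
      ContinuousLinearMap.continuous_det.measurable.comp_aemeasurable hF
    exact (continuous_abs.measurable.comp_aemeasurable h2).ennreal_ofReal
  have m2 : AEMeasurable (fun x => ENNReal.ofReal ε * ENNReal.ofReal (‖F x‖ ^ (3 : ℝ)))
      (volume.restrict Q) :=
    ((hF.norm.pow_const _).ennreal_ofReal).const_mul _
  refine (lintegral_mono h1).trans ?_
  have e3 := lintegral_add_left' (m1.add m2) (fun x =>
    ENNReal.ofReal (144 * (144 / ε) ^ 2 + 36) * ENNReal.ofReal (‖G x - F x‖ ^ (3 : ℝ)))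
  have e4 := lintegral_add_left' m1
    (fun x => ENNReal.ofReal ε * ENNReal.ofReal (‖F x‖ ^ (3 : ℝ)))
  rw [lintegral_const_mul' _ _ ENNReal.ofReal_ne_top] at e3 e4
  refine (le_of_eq e3).trans ?_
  gcongr
  exact le_of_eq e4

/-- **Area inequality on balls.** -/
theorem ball_le {Ω Λ : Set V} {f h : V → V} {F : V → V →L[ℝ] V} (hΩ : IsOpen Ω) (hΛ : IsOpen Λ)
    (hinv : St.IsInv Ω Λ f h) (hfc : ContinuousOn f Ω) (hhc : ContinuousOn h Λ)
    (hF : LocallyIntegrableOn F Ω)
    (hF3 : ∀ L ⊆ Ω, IsCompact L → ∫⁻ x in L, ENNReal.ofReal (‖F x‖ ^ (3 : ℝ)) ≠ ⊤)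
    (hw : HB.WeakDeriv volume Ω f F) {a : V} {r : ℝ} (hB : closedBall a r ⊆ Ω)
    (hS : volume (f '' sphere a r) = 0) :
    volume (f '' closedBall a r) ≤ ∫⁻ x in closedBall a r, ENNReal.ofReal |(F x).det| := by
  set Q := closedBall a r with hQ
  have hQc : IsCompact Q := isCompact_closedBall a r
  set K := f '' Q with hK
  have hKc : IsCompact K := hQc.image_of_continuousOn (hfc.mono hB)
  have hKΛ : K ⊆ Λ := by
    rintro _ ⟨x, hx, rfl⟩
    exact (hinv.1 x (hB hx)).1
  have hfr : volume (frontier K) = 0 := by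
    refine measure_mono_null ?_ hS
    have h1 : f '' ball a r ⊆ interior K := by
      refine interior_maximal (image_mono ball_subset_closedBall) ?_
      have h2 : f '' ball a r = Λ ∩ h ⁻¹' ball a r := by
        ext y
        constructor
        · rintro ⟨x, hx, rfl⟩
          have hx' := hinv.1 x (hB (ball_subset_closedBall hx))
          exact ⟨hx'.1, by rw [mem_preimage, hx'.2]; exact hx⟩
        · rintro ⟨hy, hy'⟩
          exact ⟨h y, hy', (hinv.2 y hy).2⟩
      rw [h2]
      exact hhc.isOpen_inter_preimage hΛ isOpen_ball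
    rw [hKc.isClosed.frontier_eq]
    rintro _ ⟨⟨x, hx, rfl⟩, hx'⟩
    refine ⟨x, ?_, rfl⟩
    rw [hQ, ← ball_union_sphere] at hx
    exact hx.resolve_left fun hb => hx' (h1 (mem_image_of_mem f hb))
  set I := ∫⁻ x in Q, ENNReal.ofReal (‖F x‖ ^ (3 : ℝ)) with hI
  have hIt : I ≠ ⊤ := hF3 Q hB hQc
  set J := ∫⁻ x in Q, ENNReal.ofReal |(F x).det| with hJ
  have step : ∀ ε : ℝ, 0 < ε → ∀ n : ℕ, volume K ≤ volume (rim K (1 / ((n : ℝ) + 1))) +
      (J + ENNReal.ofReal ε * I + ENNReal.ofReal ε) := by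
    intro ε hε n
    set s : ℝ := 1 / ((n : ℝ) + 1) with hs
    have hs0 : 0 < s := by positivity
    set C : ℝ := 144 * (144 / ε) ^ 2 + 36 with hC
    have hC0 : 0 < C := by positivity
    obtain ⟨g, hg, hgf, hgF⟩ := approx (p := 3) (by norm_num) hΩ hfc hF hF3 hw hQc hB
      (η := min s (ε / C)) (lt_min hs0 (by positivity))
    have h1 : K \ rim K s ⊆ g '' Q := by
      intro y hy
      have h2 : closedBall y s ⊆ K := closedBall_subset_of_not_rim hy.1 hy.2
      refine mem_image_of_close hs0 hg.continuous.continuousOn (hhc.mono (h2.trans hKΛ)) ?_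
        (fun x hx => (hgf x hx).trans (min_le_left _ _))
      intro z hz
      obtain ⟨q, hq, rfl⟩ := h2 hz
      have h3 := hinv.1 q (hB hq)
      rw [h3.2]
      exact ⟨hq, rfl⟩
    have h2 : volume K ≤ volume (rim K s) + volume (g '' Q) := by
      calc volume K ≤ volume (rim K s ∪ g '' Q) := by
            refine measure_mono fun y hy => ?_
            by_cases hyr : y ∈ rim K s
            · exact Or.inl hyr
            · exact Or.inr (h1 ⟨hy, hyr⟩)
        _ ≤ _ := measure_union_le _ _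
    have h3 : volume (g '' Q) ≤ ∫⁻ x in Q, ENNReal.ofReal |(fderiv ℝ g x).det| :=
      addHaar_image_le_lintegral_abs_det_fderiv volume hQc.measurableSet fun x _ =>
        ((hg.differentiable (by simp)) x).hasFDerivAt.hasFDerivWithinAt
    have h4 := lintegral_det_le (Q := Q) (F := F) (G := fderiv ℝ g)
      (hF.integrableOn_compact_subset hB hQc).aestronglyMeasurable.aemeasurable hε
    have h5 : ENNReal.ofReal C * ∫⁻ x in Q, ENNReal.ofReal (‖fderiv ℝ g x - F x‖ ^ (3 : ℝ)) ≤
        ENNReal.ofReal ε := by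
      calc _ ≤ ENNReal.ofReal C * ENNReal.ofReal (ε / C) := by
            gcongr
            exact hgF.trans (ENNReal.ofReal_le_ofReal (min_le_right _ _))
        _ = ENNReal.ofReal ε := by
            rw [← ENNReal.ofReal_mul hC0.le, mul_div_cancel₀ _ hC0.ne']
    calc volume K ≤ volume (rim K s) + volume (g '' Q) := h2
      _ ≤ volume (rim K s) + (J + ENNReal.ofReal ε * I + ENNReal.ofReal ε) := by
          gcongr
          exact h3.trans (h4.trans (add_le_add le_rfl h5))
  have step2 : ∀ ε : ℝ, 0 < ε → volume K ≤ J + ENNReal.ofReal ε * I + ENNReal.ofReal ε := by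
    intro ε hε
    have h1 := (tendsto_rim hKc hfr).add_const (J + ENNReal.ofReal ε * I + ENNReal.ofReal ε)
    rw [zero_add] at h1
    exact ge_of_tendsto' h1 (step ε hε)
  have h4 : Tendsto (fun n : ℕ => ENNReal.ofReal (1 / ((n : ℝ) + 1))) atTop (𝓝 0) := by
    have h5 := ENNReal.tendsto_ofReal tendsto_one_div_add_atTop_nhds_zero_nat
    rwa [ENNReal.ofReal_zero] at h5
  have h5 : Tendsto (fun n : ℕ => J + ENNReal.ofReal (1 / ((n : ℝ) + 1)) * I +
      ENNReal.ofReal (1 / ((n : ℝ) + 1))) atTop (𝓝 (J + 0 * I + 0)) :=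
    (tendsto_const_nhds.add (ENNReal.Tendsto.mul_const h4 (Or.inr hIt))).add h4
  rw [zero_mul, add_zero, add_zero] at h5
  exact ge_of_tendsto' h5 fun n => step2 _ (by positivity)

end Vale.Agent.P073.H726
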