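import Vale.Agent.P073.H726.LipD
import Vale.Agent.P073.PK.Sob560a

/-!
# P073: composition of a continuous `W^{1,p}` map with a Lipschitz map of the target
-/

namespace Vale.Agent.P073.H726

open MeasureTheory Set Filter Topology Vale.Agent.P073.St Vale.Agent.P073.AB
open Vale.Agent.P073.PK
open scoped ContDiff ENNReal NNReal

/-- the matrix of a linear map -/
noncomputable def matOf (A : V →L[ℝ] V) : Mat := fun i j => A (Pi.single j 1) i

theorem ap_matOf (A : V →L[ℝ] V) (v : V) : ap (matOf A) v = A v := by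
  funext i
  have h1 : v = ∑ j, v j • (Pi.single j (1 : ℝ) : V) := by
    funext k
    simp [Finset.sum_apply, Pi.single_apply]
  conv_rhs => rw [h1]
  rw [map_sum, Finset.sum_apply]
  simp only [ap, matOf, map_smul, Pi.smul_apply, smul_eq_mul]
  exact Finset.sum_congr rfl fun j _ => mul_comm _ _

theorem cl_matOf (A : V →L[ℝ] V) : cl (matOf A) = A := by
  ext v i
  rw [cl_apply]
  exact congrFun (ap_matOf A v) i

theorem cl_eq_ap (M : Mat) (v : V) : cl M v = ap M v := by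
  funext i
  rw [cl_apply]
  rfl

/-- the weak derivative of `T ∘ f`, as a matrix -/
noncomputable def compMat (T : V → V) (f : V → V) (x : V) : Mat :=
  matOf (lineMat (fun z => T (f z)) x)

theorem ap_compMat (T f : V → V) (x v : V) :
    ap (compMat T f x) v = lineMat (fun z => T (f z)) x v := ap_matOf _ _

theorem norm_single_le (j : Fin 3) : ‖(Pi.single j 1 : V)‖ ≤ 1 := by
  rw [pi_norm_le_iff_of_nonneg zero_le_one]
  intro i
  by_cases h : i = j
  · subst h; simp
  · simp [h]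

variable {p : ℝ} {Ω : Set V} {f : V → V} {F : V → Mat} {T : V → V} {K : ℝ≥0}

theorem inLp_comp (hv : volume Ω ≠ ⊤) (hΩ : IsOpen Ω) (hf : ContinuousOn f Ω)
    (hF : ∀ i, InLp p Ω (fun x => f x i)) (hT : LipschitzWith K T) (i : Fin 3) :
    InLp p Ω (fun x => T (f x) i) := by
  have h0 : IsFiniteMeasure (volume.restrict Ω) := ⟨by
    rw [Measure.restrict_apply_univ]; exact lt_top_iff_ne_top.2 hv⟩
  have hcT : ContinuousOn (fun x => T (f x)) Ω := hT.continuous.comp_continuousOn hf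
  have a1 : MemLp (fun _ : V => ‖T 0‖) (ENNReal.ofReal p) (volume.restrict Ω) :=
    memLp_const _
  have a2 : MemLp (fun x : V => ∑ j, |f x j|) (ENNReal.ofReal p) (volume.restrict Ω) :=
    memLp_finsetSum _ fun j _ => (hF j).norm
  have a3 : MemLp (fun x : V => (K : ℝ) * ∑ j, |f x j|) (ENNReal.ofReal p)
    (volume.restrict Ω) := a2.const_mul (K : ℝ)
  have h1 : MemLp (fun x : V => ‖T 0‖ + (K : ℝ) * ∑ j, |f x j|) (ENNReal.ofReal p)
    (volume.restrict Ω) := a1.add a3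
  have hm : AEStronglyMeasurable (fun x => T (f x) i) (volume.restrict Ω) :=
    ((continuous_apply i).comp_continuousOn hcT).aestronglyMeasurable hΩ.measurableSet
  refine h1.mono hm (ae_of_all _ fun x => ?_)
  have h2 : ‖f x‖ ≤ ∑ j, |f x j| := by
    rw [pi_norm_le_iff_of_nonneg (Finset.sum_nonneg fun _ _ => abs_nonneg _)]
    intro j
    exact Finset.single_le_sum (f := fun j => |f x j|) (fun _ _ => abs_nonneg _)
      (Finset.mem_univ j)
  have h3 := hT.dist_le_mul (f x) 0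
  rw [dist_eq_norm, dist_zero_right] at h3
  have h4 : ‖T (f x)‖ ≤ ‖T 0‖ + K * ‖f x‖ := by
    calc ‖T (f x)‖ = ‖T 0 + (T (f x) - T 0)‖ := by rw [add_sub_cancel]
      _ ≤ ‖T 0‖ + ‖T (f x) - T 0‖ := norm_add_le _ _
      _ ≤ _ := by gcongr
  have h5 : 0 ≤ ‖T 0‖ + K * ∑ j, |f x j| := by positivity
  calc ‖T (f x) i‖ ≤ ‖T (f x)‖ := norm_le_pi_norm _ i
    _ ≤ ‖T 0‖ + K * ‖f x‖ := h4
    _ ≤ ‖T 0‖ + K * ∑ j, |f x j| := by gcongr
    _ = ‖‖T 0‖ + K * ∑ j, |f x j|‖ := (Real.norm_of_nonneg h5).symm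

theorem compMat_le (hp : 1 ≤ p) (hΩ : IsOpen Ω) (hv : volume Ω ≠ ⊤) (hf : ContinuousOn f Ω)
    (hF : IsSobolev p Ω f F) (hT : LipschitzWith K T) (i j : Fin 3) :
    ∀ᵐ x ∂(volume : Measure V), x ∈ Ω → |compMat T f x i j| ≤ K * ‖cl (F x)‖ := by
  have h1 := lip_comp_rule (μ := volume) hΩ hf (IsSob.locallyIntegrableOn_cl hp hv hF)
    (IsSob.weakDeriv hp hv hF) hT isOpen_univ
    (ContinuousLinearMap.proj (R := ℝ) (φ := fun _ : Fin 3 => ℝ) i) (N := fun y => K * ‖y‖)
    (by fun_prop) (fun c y => by rw [norm_smul, Real.norm_eq_abs]; ring)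
    (fun y _ z _ => by
      have h3 := hT.dist_le_mul y z
      rw [dist_eq_norm, dist_eq_norm] at h3
      exact (norm_le_pi_norm (T y - T z) i).trans h3)
  filter_upwards [h1] with x hx hxΩ
  have h4 := hx hxΩ (mem_univ _) (Pi.single j 1)
  refine le_trans h4 ?_
  gcongr
  refine ((cl (F x)).le_opNorm _).trans ?_
  exact mul_le_of_le_one_right (norm_nonneg _) (norm_single_le j)

theorem inLp_compMat (hp : 1 ≤ p) (hΩ : IsOpen Ω) (hv : volume Ω ≠ ⊤) (hf : ContinuousOn f Ω)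
    (hF : IsSobolev p Ω f F) (hT : LipschitzWith K T) (i j : Fin 3) :
    InLp p Ω (fun x => compMat T f x i j) := by
  have k1 := (lip_comp_deriv (μ := volume) hΩ hf (IsSob.locallyIntegrableOn_cl hp hv hF)
    (IsSob.weakDeriv hp hv hF) hT).1
  have h3 := (locInt_clm hΩ k1 (ContinuousLinearMap.apply ℝ V
    (Pi.single j (1 : ℝ) : V))).aestronglyMeasurable
  have h2 : AEStronglyMeasurable (fun x => compMat T f x i j) (volume.restrict Ω) :=
    (continuous_apply i).comp_aestronglyMeasurable h3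
  refine MemLp.of_le_mul (c := K) (IsSob.memLp_cl hF) h2 ?_
  rw [ae_restrict_iff' hΩ.measurableSet]
  exact compMat_le hp hΩ hv hf hF hT i j

/-- from the weak derivative in the sense of `HB` to the entrywise identities -/
theorem entry_of_weakDeriv {u : V → V} {G : V → V →L[ℝ] V} (hΩ : IsOpen Ω)
    (hu : LocallyIntegrableOn u Ω) (hG : LocallyIntegrableOn G Ω)
    (hw : HB.WeakDeriv volume Ω u G) {φ : V → ℝ} (hφ : IsTest Ω φ) (i j : Fin 3) :
    St.int Ω (fun x => φ x * matOf (G x) i j) = - St.int Ω (fun x => pd φ x j * u x i) := by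
  obtain ⟨c1, c2, c3⟩ := hφ
  have c1' : ContDiff ℝ ∞ φ := contDiffOn_univ.1 c1
  have e1 := hw φ c1' c2 c3 (Pi.single j 1)
  have i1 : IntegrableOn (fun x => φ x • G x (Pi.single j 1)) Ω :=
    integrableOn_test (μ := (volume : Measure V))
      (locInt_clm hΩ hG (ContinuousLinearMap.apply ℝ V (Pi.single j (1 : ℝ) : V)))
      c1'.continuous c2 c3
  have i2 : IntegrableOn (fun x => fderiv ℝ φ x (Pi.single j 1) • u x) Ω :=
    integrableOn_test (μ := (volume : Measure V)) hu (dcont c1' (Pi.single j (1 : ℝ)))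
      (dcomp c2 _) (dsupp c3 _)
  have e2 := congrArg (ContinuousLinearMap.proj (R := ℝ) (φ := fun _ : Fin 3 => ℝ) i) e1
  rw [map_neg, ← ContinuousLinearMap.integral_comp_comm _ i1,
    ← ContinuousLinearMap.integral_comp_comm _ i2] at e2
  have e3 : ∀ x, pd φ x j = fderiv ℝ φ x (Pi.single j 1) := fun x => pd_eq_fderiv c1' x j
  unfold St.int
  simp only [e3]
  exact e2

/-- **Composition of a continuous `W^{1,p}` map with a Lipschitz map.** -/
theorem isSobolev_comp (hp : 1 ≤ p) (hΩ : IsOpen Ω) (hv : volume Ω ≠ ⊤) (hf : ContinuousOn f Ω)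
    (hF : IsSobolev p Ω f F) (hT : LipschitzWith K T) :
    IsSobolev p Ω (fun x => T (f x)) (compMat T f) := by
  obtain ⟨k1, k2, -⟩ := lip_comp_deriv (μ := volume) hΩ hf
    (IsSob.locallyIntegrableOn_cl hp hv hF) (IsSob.weakDeriv hp hv hF) hT
  have hcT : ContinuousOn (fun x => T (f x)) Ω := hT.continuous.comp_continuousOn hf
  exact ⟨fun i => inLp_comp hv hΩ hf hF.1 hT i, fun i j => inLp_compMat hp hΩ hv hf hF hT i j,
    fun φ hφ i j => entry_of_weakDeriv hΩ (hcT.locallyIntegrableOn hΩ.measurableSet) k1 k2 hφ i j⟩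

/-- the derivatives of `f` and `T ∘ f` along lines, almost everywhere -/
theorem comp_hasDerivAt (hp : 1 ≤ p) (hΩ : IsOpen Ω) (hv : volume Ω ≠ ⊤) (hf : ContinuousOn f Ω)
    (hF : IsSobolev p Ω f F) (hT : LipschitzWith K T) (v : V) :
    ∀ᵐ x ∂(volume : Measure V), x ∈ Ω →
      HasDerivAt (fun t : ℝ => f (x + t • v)) (ap (F x) v) 0 ∧
        HasDerivAt (fun t : ℝ => T (f (x + t • v))) (ap (compMat T f x) v) 0 := by
  filter_upwards [(lip_comp_deriv (μ := volume) hΩ hf (IsSob.locallyIntegrableOn_cl hp hv hF)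
    (IsSob.weakDeriv hp hv hF) hT).2.2 v] with x hx hxΩ
  rw [ap_compMat, ← cl_eq_ap]
  exact hx hxΩ

/-- **The pointwise rule.** -/
theorem comp_rule (hp : 1 ≤ p) (hΩ : IsOpen Ω) (hv : volume Ω ≠ ⊤) (hf : ContinuousOn f Ω)
    (hF : IsSobolev p Ω f F) (hT : LipschitzWith K T) {W : Set V} (hW : IsOpen W)
    (l : V →L[ℝ] ℝ) {N : V → ℝ} (hN : Continuous N)
    (hom : ∀ (c : ℝ) (y : V), N (c • y) = |c| * N y)
    (hle : ∀ y ∈ W, ∀ z ∈ W, |l (T y - T z)| ≤ N (y - z)) :
    ∀ᵐ x ∂(volume : Measure V), x ∈ Ω → f x ∈ W →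
      ∀ v, |l (ap (compMat T f x) v)| ≤ N (ap (F x) v) := by
  filter_upwards [lip_comp_rule (μ := volume) hΩ hf (IsSob.locallyIntegrableOn_cl hp hv hF)
    (IsSob.weakDeriv hp hv hF) hT hW l hN hom hle] with x hx hxΩ hxW v
  rw [ap_compMat, ← cl_eq_ap]
  exact hx hxΩ hxW v

/-- Where `T` is locally a translation, the derivative does not change. -/
theorem comp_translation (hp : 1 ≤ p) (hΩ : IsOpen Ω) (hv : volume Ω ≠ ⊤)
    (hf : ContinuousOn f Ω) (hF : IsSobolev p Ω f F) (hT : LipschitzWith K T) {W : Set V}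
    (hle : ∀ y ∈ W, ∀ᶠ z in 𝓝 y, T z - T y = z - y) :
    ∀ᵐ x ∂(volume : Measure V), x ∈ Ω → f x ∈ W → compMat T f x = F x := by
  filter_upwards [ae_all_iff.2 fun j : Fin 3 =>
    comp_hasDerivAt hp hΩ hv hf hF hT (Pi.single j (1 : ℝ))] with x hx hxΩ hxW
  funext i j
  obtain ⟨a1, a2⟩ := hx j hxΩ
  have hc : Tendsto (fun t : ℝ => f (x + t • (Pi.single j (1 : ℝ) : V))) (𝓝 0) (𝓝 (f x)) := by
    have := a1.continuousAt.tendsto
    simpa using this
  have h1 : (fun t : ℝ => T (f (x + t • (Pi.single j (1 : ℝ) : V)))) =ᶠ[𝓝 0]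
      fun t : ℝ => f (x + t • (Pi.single j (1 : ℝ) : V)) + (T (f x) - f x) := by
    filter_upwards [hc.eventually (hle _ hxW)] with t ht
    rw [← sub_eq_zero] at ht ⊢
    rw [← ht]
    abel
  have h2 := (a1.add_const (T (f x) - f x)).congr_of_eventuallyEq h1
  have h3 := a2.unique h2
  have h4 : ∀ M : Mat, ap M (Pi.single j (1 : ℝ)) i = M i j := by
    intro M
    simp [ap, Pi.single_apply]
  have h5 := congrFun h3 i
  rwa [h4, h4] at h5

end Vale.Agent.P073.H726
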