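import Vale.Agent.P073.H726.Comp

/-!
# P073: composition of a continuous `W^{1,p}` map with a Lipschitz map: two sided pointwise rule
-/

namespace Vale.Agent.P073.H726

open MeasureTheory Set Filter Topology Vale.Agent.P073.St Vale.Agent.P073.AB
open Vale.Agent.P073.PK
open scoped ContDiff ENNReal NNReal

variable {p : ℝ} {Ω : Set V} {f : V → V} {F : V → Mat} {T : V → V} {K : ℝ≥0}

/-- **The pointwise rule, with a linear part.** -/
theorem comp_rule2 (hp : 1 ≤ p) (hΩ : IsOpen Ω) (hv : volume Ω ≠ ⊤) (hf : ContinuousOn f Ω)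
    (hF : IsSobolev p Ω f F) (hT : LipschitzWith K T) {W : Set V} (hW : IsOpen W)
    (l l' : V →L[ℝ] ℝ) {N : V → ℝ} (hN : Continuous N)
    (hom : ∀ (c : ℝ) (y : V), N (c • y) = |c| * N y)
    (hle : ∀ y ∈ W, ∀ z ∈ W, |l (T y - T z) - l' (y - z)| ≤ N (y - z)) :
    ∀ᵐ x ∂(volume : Measure V), x ∈ Ω → f x ∈ W →
      ∀ v, |l (ap (compMat T f x) v) - l' (ap (F x) v)| ≤ N (ap (F x) v) := by
  have : SecondCountableTopology V := inferInstance
  have key := fun v => comp_hasDerivAt hp hΩ hv hf hF hT v
  filter_upwards [ae_all_iff.2 fun n : ℕ => key (TopologicalSpace.denseSeq V n)] with x hx hxΩ hxW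
  have h1 : ∀ n, |l (ap (compMat T f x) (TopologicalSpace.denseSeq V n)) -
      l' (ap (F x) (TopologicalSpace.denseSeq V n))| ≤
      N (ap (F x) (TopologicalSpace.denseSeq V n)) := by
    intro n
    obtain ⟨a1, a2⟩ := hx n hxΩ
    have a3 := (l.hasFDerivAt.comp_hasDerivAt 0 a2).sub (l'.hasFDerivAt.comp_hasDerivAt 0 a1)
    refine deriv_le_of_comp hN hom a1 a3 ?_
    have hc : Tendsto (fun t : ℝ => f (x + t • TopologicalSpace.denseSeq V n)) (𝓝 0) (𝓝 (f x)) := by
      have := a1.continuousAt.tendsto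
      simpa using this
    filter_upwards [hc.eventually (hW.mem_nhds hxW)] with t ht
    have h2 := hle _ ht _ hxW
    simp only [map_sub] at h2
    simp only [Pi.sub_apply, Function.comp_apply, zero_smul, add_zero]
    have e : l (T (f (x + t • TopologicalSpace.denseSeq V n))) -
        l' (f (x + t • TopologicalSpace.denseSeq V n)) - (l (T (f x)) - l' (f x)) =
        l (T (f (x + t • TopologicalSpace.denseSeq V n))) - l (T (f x)) -
        (l' (f (x + t • TopologicalSpace.denseSeq V n)) - l' (f x)) := by ring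
    rw [e]
    exact h2
  have hcl : IsClosed {v : V | |l (ap (compMat T f x) v) - l' (ap (F x) v)| ≤
      N (ap (F x) v)} := by
    simp only [← cl_eq_ap]
    exact isClosed_le (by fun_prop) (hN.comp (cl (F x)).continuous)
  have hd := (TopologicalSpace.denseRange_denseSeq V).closure_range
  intro v
  have hsub : closure (range (TopologicalSpace.denseSeq V)) ⊆
      {v : V | |l (ap (compMat T f x) v) - l' (ap (F x) v)| ≤ N (ap (F x) v)} :=
    closure_minimal (by rintro _ ⟨n, rfl⟩; exact h1 n) hcl
  rw [hd] at hsub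
  exact hsub (mem_univ v)

end Vale.Agent.P073.H726
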