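import Vale.Agent.P073.H239.FSpec1
import Vale.Agent.P073.H16.RectB
import Vale.Agent.P073.H193.PlaneSum
import Vale.Agent.P073.H51.PlB
import Vale.Agent.P073.H237.TgB
import Vale.Agent.P073.H407.PostB
import Vale.Agent.P073.H582.EdB1
import Vale.Agent.P073.H79.SegB
import Vale.Agent.P073.H253.LineOK
import Vale.Agent.P073.H911.BoxAt
import Vale.Agent.P073.H194.DomL

/-!
# P073, block B10: rank one, `p ≥ 3`, from the open leaves
-/

namespace Vale.Agent.P073.H726

open Vale.Agent.P073.H304 (K3C)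
open Vale.Agent.P073.H235 (P1)
open Vale.Agent.P073.H190 (SpecConBeamTB)
open Vale.Agent.P073.H239

/-- the open leaves of rank one -/
structure OpenB (p : ℝ) : Prop where
  bvb : SpecBVB
  tgt : SpecTgtF1
  enB : SpecEnB p
  epB : SpecEpB p
  asm : SpecPreBAsm p
  r2b : SpecR2B p
  lineB : SpecLineB

/-- rank one, `p ≥ 3` -/
theorem specConBeamTB {p : ℝ} (hp : 3 ≤ p) (hK : K3C p) (hC : SpecChain p) (H : OpenB p) :
    SpecConBeamTB p P1 :=
  specConBeamTB_of hK
    (H.asm H.bvb H16.specRectB (H911.specBoxAt hp) H79.SegB.specSegB H.tgt H194.specDomL hK hC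
      H.enB H51.specPlB H.epB H237.specTgB (H582.specEdB (by linarith)))
    (H407.specPostBAsm (by linarith) H.r2b H.lineB H253.specLineOK H193.specPlaneSum)

end Vale.Agent.P073.H726
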