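import Vale.Agent.P073.H726.PreFX
import Vale.Agent.P073.H726.PreBX
import Vale.Agent.P073.H726.GeFin
import Vale.Agent.P073.H523.VBX
import Vale.Agent.P073.H234.GX.M1PX
import Vale.Agent.P073.H234.GX.ChainX
import Vale.Agent.P073.H803.St1Fin

/-!
# P073: the full theorem for `3 ≤ p` from Round 1 and `K3C`, with a generic property of the origin
-/

namespace Vale.Agent.P073.H726

open Vale.Agent.P073.H304 (K3C)
open Vale.Agent.P073.H235 (P1)
open Vale.Agent.P073.H239
open Vale.Agent.P073.H190 (SpecConBeamTB)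
open Vale.Agent.P073.H608 (Full OpenGe)
open Vale.Agent.P073.H234.GX (GXT GXOk St1X SpecChainX SpecVBX SpecBVBX)

/-- rank one, `p ≥ 3`, from the data before `K3C` -/
theorem specConBeamTBX {p : ℝ} (hp : 3 ≤ p) (hK : K3C p) (hB : SpecPreB p) :
    SpecConBeamTB p P1 :=
  specConBeamTB_of hK hB
    (H407.specPostBAsm (by linarith) (H490.specR2B (by linarith)) H911.specLineB
      H253.specLineOK H193.specPlaneSum)

/-- the full theorem for `3 ≤ p`, from the generic versions of the chain -/
theorem full_of_X {p : ℝ} (hp : 3 ≤ p) {GX : GXT} (hM : H235.M1P p) (hK : K3C p)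
    (hC : SpecChainX p GX) (hV : SpecVBX p GX) (hB : SpecPreB p) : Full p :=
  H608.full_ge (by linarith) ⟨hM, specConFlatBX hp hV hK hC (H490.specR2F (by linarith))
    H716.specRowsB, specConBeamTBX hp hK hB⟩

/-- the full theorem for `3 ≤ p`, from the generic versions of the chain and of the origins -/
theorem full_of_XV {p : ℝ} (hp : 3 ≤ p) {GX : GXT} (hM : H235.M1P p) (hK : K3C p)
    (hC : SpecChainX p GX) (hV : SpecVBX p GX) (hVB : SpecBVBX p GX) : Full p :=
  full_of_X hp hM hK hC hV (specPreBX hp hVB hK hC)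

/-- **the full theorem for `3 ≤ p`** from a generic property of the origin, Round 1 and `K3C` -/
theorem full_of_K3X {p : ℝ} (hp : 3 ≤ p) {GX : GXT} (hG : GXOk p GX)
    (hSt : K3C p → St1X p GX) (hK : K3C p) : Full p :=
  full_of_XV hp (H234.GX.m1P_of_K3X hp hG hSt hK) hK (H234.GX.specChainX (by linarith) hSt)
    (H523.specVBX hG) (H523.specBVBX hG)

/-- **the full theorem for `3 ≤ p`** from a generic property of the origin, the base map with
short segments (`SpecSegNet`) and `K3C` -/
theorem full_of_seg {p : ℝ} (hp : 3 ≤ p) {GX : GXT} (hG : GXOk p GX)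
    (hS : H803.SpecSegNet p GX) (hK : K3C p) : Full p :=
  full_of_K3X hp hG (fun hK => H803.st1C hp hK hS) hK

end Vale.Agent.P073.H726
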