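import Vale.Agent.P073.H309.BelowThree
import Vale.Agent.P073.H726.GeFinX

/-!
# P073: all exponents `1 ≤ p`, from the three open pieces for `3 ≤ p`
-/

namespace Vale.Agent.P073.H726

open Vale.Agent.P073.H304 (K3C)
open Vale.Agent.P073.H608 (Full)
open Vale.Agent.P073.H234.GX (GXT GXOk)

/-- all exponents, from a generic property of the origin, the base map with short segments and
`K3C` -/
theorem full_all {GX : ℝ → GXT} (hG : ∀ p : ℝ, 3 ≤ p → GXOk p (GX p))
    (hS : ∀ p : ℝ, 3 ≤ p → H803.SpecSegNet p (GX p)) (hK : ∀ p : ℝ, 3 ≤ p → K3C p)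
    {p : ℝ} (hp : 1 ≤ p) : Full p := by
  rcases lt_or_ge p 3 with h | h
  · exact H309.full_below_three hp h
  · exact full_of_seg h (hG p h) (hS p h) (hK p h)

end Vale.Agent.P073.H726
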