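import Vale.Agent.P073.H309.BelowThree
import Vale.Agent.P073.H234.Fin.Top

/-!
# P073: all exponents `1 ≤ p`, from `K3C`
-/

namespace Vale.Agent.P073.H726

open Vale.Agent.P073.H304 (K3C)
open Vale.Agent.P073.H608 (Full)

/-- all exponents, from `K3C` -/
theorem full_of_k3c (hK : ∀ p : ℝ, 3 ≤ p → K3C p) {p : ℝ} (hp : 1 ≤ p) : Full p := by
  rcases lt_or_ge p 3 with h | h
  · exact H309.full_below_three hp h
  · exact H234.Fin.full_ge_of_K3C h (hK p h)

end Vale.Agent.P073.H726
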