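import Vale.Agent.P073.H726.FinalR
import Vale.Agent.P073.H399.RowC
import Vale.Agent.P073.H227.RowsO2

/-!
# P073: all exponents `1 ≤ p`, from the row of the edges and the row of the faces which are not
listed
-/

namespace Vale.Agent.P073.H726

open Vale.Agent.P073.H608 (Full)
open Vale.Agent.P073.Top880 (REdge rcell rowsS_of)
open Vale.Agent.P073.H227 (SupRow rowsO_of_sup)

/-- all exponents, from the two last rows -/
theorem full_of_edge_sup (HE : ∀ C₀ : ℝ, 1 ≤ C₀ → REdge C₀) (HS : ∀ C₀ : ℝ, 1 ≤ C₀ → SupRow C₀)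
    {p : ℝ} (hp : 1 ≤ p) : Full p :=
  full_of_rows (fun _ hq C₀ hC₀ => rowsS_of hC₀ (HE C₀ hC₀) (rcell (by linarith) hC₀))
    (fun C₀ hC₀ => rowsO_of_sup hC₀ (HS C₀ hC₀)) hp

end Vale.Agent.P073.H726
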