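import Vale.Agent.P073.H726.PreF3
import Vale.Agent.P073.H726.PreB3
import Vale.Agent.P073.H608.Top

/-!
# P073: the full theorem for `3 ≤ p` from the open leaves
-/

namespace Vale.Agent.P073.H726

open Vale.Agent.P073.H304 (K3C)
open Vale.Agent.P073.H239
open Vale.Agent.P073.H608 (Full OpenGe)

theorem openGe_of {p : ℝ} (hp : 3 ≤ p) (hM : H235.M1P p) (hK : K3C p) (hC : SpecChain p)
    (hR : SpecR2F p) (hRo : SpecRowsB) (H : OpenB p) : OpenGe p :=
  ⟨hM, specConFlatB hp hK hC hR hRo, specConBeamTB hp hK hC H⟩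

theorem full_ge {p : ℝ} (hp : 3 ≤ p) (hM : H235.M1P p) (hK : K3C p) (hC : SpecChain p)
    (hR : SpecR2F p) (hRo : SpecRowsB) (H : OpenB p) : Full p :=
  H608.full_ge (by linarith) (openGe_of hp hM hK hC hR hRo H)

end Vale.Agent.P073.H726
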