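import Vale.Agent.P073.HB.Acl2
import Mathlib.MeasureTheory.Integral.IntervalIntegral.AbsolutelyContinuousFun
import Mathlib.Analysis.Calculus.LineDeriv.Measurable
import Mathlib.Analysis.Calculus.LineDeriv.IntegrationByParts

/-!
# P073: line derivatives of continuous Sobolev maps, composition with Lipschitz functions (global)
-/

namespace Vale.Agent.P073.H726

open MeasureTheory Set Filter Topology
open scoped ContDiff ENNReal NNReal

variable {E E' : Type*} [NormedAddCommGroup E] [NormedSpace ℝ E] [FiniteDimensional ℝ E]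
  [MeasurableSpace E] [BorelSpace E] {μ : Measure E} [μ.IsAddHaarMeasure]
  [NormedAddCommGroup E'] [NormedSpace ℝ E']

/-- almost every point, from almost every point of almost every segment -/
theorem ae_of_ae_seg {P : E → Prop} (hP : MeasurableSet {y | P y}) (v : E)
    (h : ∀ᵐ x ∂μ, ∀ᵐ s ∂(volume.restrict (Ioc (0 : ℝ) 1)), P (x + s • v)) : ∀ᵐ y ∂μ, P y := by
  have : ProperSpace E := FiniteDimensional.proper_real E
  have : SecondCountableTopology E := secondCountable_of_proper
  have hm : MeasurableSet {p : E × ℝ | P (p.1 + p.2 • v)} := by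
    have hc : Continuous fun p : E × ℝ => p.1 + p.2 • v := by fun_prop
    exact hc.measurable hP
  have h2 := (Measure.ae_ae_comm (μ := μ) (ν := volume.restrict (Ioc (0 : ℝ) 1))
    (p := fun x s => P (x + s • v)) hm).1 h
  have hne : (ae (volume.restrict (Ioc (0 : ℝ) 1))).NeBot := by
    rw [ae_neBot, Ne, Measure.restrict_eq_zero]
    simp
  obtain ⟨s, hs⟩ := h2.exists
  have h3 := (measurePreserving_add_right μ (-(s • v))).quasiMeasurePreserving.ae hs
  filter_upwards [h3] with y hy
  simpa using hy

omit [FiniteDimensional ℝ E] [MeasurableSpace E] [BorelSpace E] in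
theorem shift_seg (x v : E) (s t : ℝ) : x + (s + t) • v = x + s • v + t • v := by
  rw [add_smul, add_assoc]

omit [FiniteDimensional ℝ E] [MeasurableSpace E] [BorelSpace E] in
/-- the derivative along a good segment -/
theorem goodDir_ae_hasDerivAt [CompleteSpace E'] {f g : E → E'} {x v : E}
    (h : HB.GoodDir f g x v) :
    ∀ᵐ s ∂(volume.restrict (Ioc (0 : ℝ) 1)),
      HasDerivAt (fun t : ℝ => f (x + s • v + t • v)) (g (x + s • v)) 0 := by
  have h1 := h.1.ae_hasDerivAt_integral
  have h2 : ∀ᵐ s : ℝ, s ≠ 1 := by simp [ae_iff, measure_singleton]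
  rw [ae_restrict_iff' measurableSet_Ioc]
  filter_upwards [h1, h2] with s hs1 hs2 hs
  have hs' : s ∈ Ioo (0 : ℝ) 1 := ⟨hs.1, lt_of_le_of_ne hs.2 hs2⟩
  have h3 : HasDerivAt (fun t : ℝ => ∫ r in (0 : ℝ)..t, g (x + r • v)) (g (x + s • v)) s :=
    hs1 (by rw [uIcc_of_le zero_le_one]; exact ⟨hs'.1.le, hs'.2.le⟩) 0 left_mem_uIcc
  have h4 : HasDerivAt (fun t : ℝ => f (x + t • v)) (g (x + s • v)) s := by
    refine (h3.const_add (f x)).congr_of_eventuallyEq ?_
    filter_upwards [Ioo_mem_nhds hs'.1 hs'.2] with t ht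
    exact h.2 t ⟨ht.1.le, ht.2.le⟩
  have h5 : HasDerivAt (fun t : ℝ => f (x + (s + t) • v)) (g (x + s • v)) 0 := by
    have := HasDerivAt.comp_const_add (f := fun t : ℝ => f (x + t • v)) (f' := g (x + s • v)) s 0
      (by rw [add_zero]; exact h4)
    exact this
  simpa only [shift_seg] using h5

/-- **Almost everywhere line differentiability** of a continuous Sobolev map, global version. -/
theorem ae_hasDerivAt_global [CompleteSpace E'] {f g : E → E'} {v : E} (hf : Continuous f)
    (hg : LocallyIntegrable g μ) (hw : HB.WeakDir μ univ f g v) :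
    ∀ᵐ x ∂μ, HasDerivAt (fun t : ℝ => f (x + t • v)) (g x) 0 := by
  have : ProperSpace E := FiniteDimensional.proper_real E
  have : SecondCountableTopology E := secondCountable_of_proper
  have hgm := hg.aestronglyMeasurable
  set g' := hgm.mk g with hg'
  have hgg : g =ᵐ[μ] g' := hgm.ae_eq_mk
  have hg'l : LocallyIntegrable g' μ := hg.congr hgg
  have hw' : HB.WeakDir μ univ f g' v := by
    intro φ h1 h2 h3
    rw [← hw φ h1 h2 h3]
    refine setIntegral_congr_ae MeasurableSet.univ ?_
    filter_upwards [hgg] with x hx _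
    rw [hx]
  have hP : MeasurableSet {y | LineDifferentiableAt ℝ f y v ∧ lineDeriv ℝ f y v = g' y} :=
    (measurableSet_lineDifferentiableAt hf).inter
      (StronglyMeasurable.measurableSet_eq_fun (stronglyMeasurable_lineDeriv hf)
        hgm.stronglyMeasurable_mk)
  have key := ae_of_ae_seg (μ := μ) hP v (by
    filter_upwards [HB.ae_goodDir (μ := μ) isOpen_univ hf.continuousOn
      (hg'l.locallyIntegrableOn univ) hw'] with x hx
    filter_upwards [goodDir_ae_hasDerivAt (hx fun s _ => mem_univ _)] with s hs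
    have hs' : HasLineDerivAt ℝ f (g' (x + s • v)) (x + s • v) v := hs
    exact ⟨hs'.lineDifferentiableAt, hs'.lineDeriv⟩)
  filter_upwards [key, hgg] with x hx hxg
  rw [hxg, ← hx.2]
  exact hx.1.hasLineDerivAt

theorem ac_of_dist_le {X Y : Type*} [PseudoMetricSpace X] [PseudoMetricSpace Y] {h : ℝ → X}
    {H : ℝ → Y} {a b C : ℝ} (hH : AbsolutelyContinuousOnInterval H a b)
    (hle : ∀ s ∈ uIcc a b, ∀ t ∈ uIcc a b, dist (h s) (h t) ≤ C * dist (H s) (H t)) :
    AbsolutelyContinuousOnInterval h a b := by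
  have h1 := Tendsto.const_mul C hH
  rw [mul_zero] at h1
  refine squeeze_zero' ?_ ?_ h1
  · filter_upwards with q
    exact Finset.sum_nonneg fun _ _ => dist_nonneg
  · have h2 : ∀ᶠ q : ℕ × (ℕ → ℝ × ℝ) in AbsolutelyContinuousOnInterval.totalLengthFilter ⊓
        𝓟 (AbsolutelyContinuousOnInterval.disjWithin a b),
        q ∈ AbsolutelyContinuousOnInterval.disjWithin a b :=
      eventually_inf_principal.mpr (by simp)
    filter_upwards [h2] with q hq
    rw [Finset.mul_sum]
    exact Finset.sum_le_sum fun i hi => hle _ (hq.1 i hi).1 _ (hq.1 i hi).2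

omit [FiniteDimensional ℝ E] [MeasurableSpace E] [BorelSpace E] in
theorem goodDir_intervalIntegrable {f g : E → E'} {x v : E} (h : HB.GoodDir f g x v) {s t : ℝ}
    (hs : s ∈ Icc (0 : ℝ) 1) (ht : t ∈ Icc (0 : ℝ) 1) :
    IntervalIntegrable (fun r : ℝ => g (x + r • v)) volume s t := by
  refine h.1.mono_set ?_
  rw [uIcc_of_le zero_le_one]
  exact uIcc_subset_Icc hs ht

omit [FiniteDimensional ℝ E] [MeasurableSpace E] [BorelSpace E] in
/-- a Lipschitz function is absolutely continuous along good segments -/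
theorem ac_comp {f g : E → E'} {x v : E} (h : HB.GoodDir f g x v) {X : Type*}
    [PseudoMetricSpace X] {T : E' → X} {K : ℝ≥0} (hT : LipschitzWith K T) :
    AbsolutelyContinuousOnInterval (fun t : ℝ => T (f (x + t • v))) 0 1 := by
  have h1 : AbsolutelyContinuousOnInterval (fun t : ℝ => ∫ r in (0 : ℝ)..t, ‖g (x + r • v)‖) 0 1 :=
    h.1.norm.absolutelyContinuousOnInterval_intervalIntegral left_mem_uIcc
  refine ac_of_dist_le (C := K) h1 ?_
  rw [uIcc_of_le zero_le_one]
  intro s hs t ht
  refine (hT.dist_le_mul _ _).trans ?_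
  gcongr
  have hz : (0 : ℝ) ∈ Icc (0 : ℝ) 1 := ⟨le_rfl, zero_le_one⟩
  rw [h.2 s hs, h.2 t ht, dist_add_left, dist_eq_norm, dist_eq_norm,
    intervalIntegral.integral_interval_sub_left (goodDir_intervalIntegrable h hz hs)
      (goodDir_intervalIntegrable h hz ht),
    intervalIntegral.integral_interval_sub_left (goodDir_intervalIntegrable h hz hs).norm
      (goodDir_intervalIntegrable h hz ht).norm]
  have h3 := intervalIntegral.norm_integral_le_abs_integral_norm (μ := volume)
    (f := fun r : ℝ => g (x + r • v)) (a := t) (b := s)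
  rwa [← Real.norm_eq_abs] at h3

omit [FiniteDimensional ℝ E] [MeasurableSpace E] [BorelSpace E] in
theorem deriv_line {F : Type*} [NormedAddCommGroup F] [NormedSpace ℝ F] (u : E → F) (x v : E)
    (s : ℝ) : deriv (fun t : ℝ => u (x + t • v)) s = lineDeriv ℝ u (x + s • v) v := by
  have h := deriv_comp_const_add (f := fun t : ℝ => u (x + t • v)) s 0
  rw [add_zero] at h
  rw [← h, lineDeriv]
  simp only [shift_seg]

omit [FiniteDimensional ℝ E] [MeasurableSpace E] [BorelSpace E] in
theorem goodDir_comp {f g : E → E'} {x v : E} (h : HB.GoodDir f g x v)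
    {T : E' → ℝ} {K : ℝ≥0} (hT : LipschitzWith K T) :
    HB.GoodDir (fun y => T (f y)) (fun y => lineDeriv ℝ (fun z => T (f z)) y v) x v ∧
      ∀ᵐ s ∂(volume.restrict (Ioc (0 : ℝ) 1)),
        LineDifferentiableAt ℝ (fun z => T (f z)) (x + s • v) v := by
  have hac := ac_comp h hT
  have e1 : deriv (fun t : ℝ => T (f (x + t • v))) =
      fun s => lineDeriv ℝ (fun z => T (f z)) (x + s • v) v := by
    funext s
    exact deriv_line (fun z => T (f z)) x v s
  refine ⟨⟨?_, ?_⟩, ?_⟩
  · have := hac.intervalIntegrable_deriv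
    rwa [e1] at this
  · intro t ht
    have h1 := (hac.mono (c := 0) (d := t) (by
      rw [uIcc_of_le zero_le_one]
      exact uIcc_subset_Icc ⟨le_rfl, zero_le_one⟩ ht)).integral_deriv_eq_sub
    rw [e1] at h1
    simp only [zero_smul, add_zero] at h1
    rw [h1]
    ring
  · have h2 := hac.ae_differentiableAt
    rw [ae_restrict_iff' measurableSet_Ioc]
    filter_upwards [h2] with s hs1 hs
    have h3 := hs1 (by rw [uIcc_of_le zero_le_one]; exact ⟨hs.1.le, hs.2⟩)
    have h4 : DifferentiableAt ℝ (fun t : ℝ => T (f (x + (s + t) • v))) 0 := by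
      have h5 := HasDerivAt.comp_const_add (f := fun t : ℝ => T (f (x + t • v))) s 0
        (by rw [add_zero]; exact h3.hasDerivAt)
      exact h5.differentiableAt
    simpa only [shift_seg, LineDifferentiableAt] using h4

end Vale.Agent.P073.H726
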