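import Vale.Agent.P073.H726.LipA

/-!
# P073: from absolute continuity on almost all segments back to the weak derivative
-/

namespace Vale.Agent.P073.H726

open MeasureTheory Set Filter Topology
open scoped ContDiff ENNReal NNReal

variable {E E' : Type*} [NormedAddCommGroup E] [NormedSpace ℝ E] [FiniteDimensional ℝ E]
  [MeasurableSpace E] [BorelSpace E] {μ : Measure E} [μ.IsAddHaarMeasure]
  [NormedAddCommGroup E'] [NormedSpace ℝ E']

/-- **the converse**: absolute continuity along almost all segments gives the weak derivative -/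
theorem weakDir_of_goodDir [CompleteSpace E'] {u G : E → E'} {v : E} (hu : Integrable u μ)
    (hG : Integrable G μ) (h : ∀ᵐ x ∂μ, HB.GoodDir u G x v) : HB.WeakDir μ univ u G v := by
  have : ProperSpace E := FiniteDimensional.proper_real E
  have : SecondCountableTopology E := secondCountable_of_proper
  intro φ hφ hφc _
  have d1 := HB.hasDerivAt_J (μ := μ) hu hφ hφc v 0
  have cJ := HB.continuous_J (μ := μ) hG hφ.continuous hφc v
  obtain ⟨C, hC⟩ := hφc.exists_bound_of_continuous hφ.continuous
  have e1 : ∀ t ∈ Icc (0 : ℝ) 1, ∫ x, φ (x - t • v) • u x ∂μ =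
      (∫ x, φ x • u x ∂μ) + ∫ s in (0 : ℝ)..t, ∫ x, φ (x - s • v) • G x ∂μ := by
    intro t ht
    have e2 : ∫ s in (0 : ℝ)..t, ∫ x, φ (x - s • v) • G x ∂μ =
        ∫ x, φ x • (∫ s in (0 : ℝ)..t, G (x + s • v)) ∂μ := by
      have e3 : ∀ s : ℝ, ∫ x, φ (x - s • v) • G x ∂μ = ∫ x, φ x • G (x + s • v) ∂μ :=
        fun s => HB.integral_shift G (s • v) φ
      simp only [e3]
      rw [intervalIntegral.integral_of_le ht.1,
        integral_integral_swap (f := fun s x => φ x • G (x + s • v))
          (HB.integrable_shear hG v t hφ.continuous hφc)]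
      refine integral_congr_ae (ae_of_all _ fun x => ?_)
      change _ = φ x • (∫ s in (0 : ℝ)..t, G (x + s • v))
      rw [intervalIntegral.integral_of_le ht.1]
      exact integral_smul _ _
    have i2 : Integrable (fun x => φ x • u x) μ :=
      hu.bdd_smul (C := C) hφ.continuous.aestronglyMeasurable (ae_of_all _ hC)
    have i3 : Integrable (fun x => φ x • (∫ s in (0 : ℝ)..t, G (x + s • v))) μ := by
      refine Integrable.bdd_smul (C := C) ?_ hφ.continuous.aestronglyMeasurable (ae_of_all _ hC)
      simp only [intervalIntegral.integral_of_le ht.1]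
      exact (HB.integrable_shear' hG v t).integral_prod_right
    rw [e2, ← integral_add i2 i3, HB.integral_shift u (t • v) φ]
    refine integral_congr_ae ?_
    filter_upwards [h] with x hx
    rw [hx.2 t ht, smul_add]
  have d2 : HasDerivAt (fun t : ℝ => (∫ x, φ x • u x ∂μ) +
      ∫ s in (0 : ℝ)..t, ∫ x, φ (x - s • v) • G x ∂μ) (∫ x, φ (x - (0 : ℝ) • v) • G x ∂μ) 0 :=
    (intervalIntegral.integral_hasDerivAt_right (cJ.intervalIntegrable _ _)
      (cJ.stronglyMeasurableAtFilter _ _) cJ.continuousAt).const_add _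
  have hz : (0 : ℝ) ∈ Icc (0 : ℝ) 1 := ⟨le_rfl, zero_le_one⟩
  have huniq : UniqueDiffWithinAt ℝ (Icc (0 : ℝ) 1) 0 := uniqueDiffOn_Icc zero_lt_one 0 hz
  have d3 : HasDerivWithinAt (fun t : ℝ => ∫ x, φ (x - t • v) • u x ∂μ)
      (∫ x, φ (x - (0 : ℝ) • v) • G x ∂μ) (Icc 0 1) 0 :=
    d2.hasDerivWithinAt.congr e1 (e1 0 hz)
  have e4 := huniq.eq_deriv _ d1.hasDerivWithinAt d3
  simp only [zero_smul, sub_zero, neg_smul] at e4
  rw [integral_neg] at e4
  simp only [Measure.restrict_univ]
  exact e4.symm

/-- comparison of derivatives -/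
theorem deriv_le_of_comp {h : ℝ → E'} {k : ℝ → ℝ} {a : E'} {b : ℝ} {N : E' → ℝ}
    (hN : Continuous N) (hom : ∀ (c : ℝ) (x : E'), N (c • x) = |c| * N x)
    (hh : HasDerivAt h a 0) (hk : HasDerivAt k b 0)
    (hle : ∀ᶠ t in 𝓝 (0 : ℝ), |k t - k 0| ≤ N (h t - h 0)) : |b| ≤ N a := by
  have h1 := (hasDerivAt_iff_tendsto_slope.1 hh)
  have h2 := (hasDerivAt_iff_tendsto_slope.1 hk)
  have h3 : Tendsto (fun t => N (slope h 0 t)) (𝓝[≠] (0 : ℝ)) (𝓝 (N a)) :=
    (hN.tendsto a).comp h1
  have h4 : Tendsto (fun t => |slope k 0 t|) (𝓝[≠] (0 : ℝ)) (𝓝 |b|) := h2.abs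
  refine le_of_tendsto_of_tendsto h4 h3 ?_
  filter_upwards [nhdsWithin_le_nhds hle] with t ht
  rw [slope_def_module, slope_def_module, hom, smul_eq_mul, abs_mul]
  exact mul_le_mul_of_nonneg_left ht (abs_nonneg _)

section global

variable {f g : E → E'} {v : E} {T : E' → ℝ} {K : ℝ≥0}

theorem ae_lineDifferentiable_comp [CompleteSpace E'] (hf : Continuous f)
    (hg : LocallyIntegrable g μ) (hw : HB.WeakDir μ univ f g v) (hT : LipschitzWith K T) :
    ∀ᵐ x ∂μ, LineDifferentiableAt ℝ (fun z => T (f z)) x v := by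
  have : ProperSpace E := FiniteDimensional.proper_real E
  have : SecondCountableTopology E := secondCountable_of_proper
  refine ae_of_ae_seg (μ := μ) (measurableSet_lineDifferentiableAt (hT.continuous.comp hf)) v ?_
  filter_upwards [HB.ae_goodDir (μ := μ) isOpen_univ hf.continuousOn
    (hg.locallyIntegrableOn univ) hw] with x hx
  exact (goodDir_comp (hx fun s _ => mem_univ _) hT).2

theorem ae_lineDeriv_comp_le [CompleteSpace E'] (hf : Continuous f)
    (hg : LocallyIntegrable g μ) (hw : HB.WeakDir μ univ f g v) (hT : LipschitzWith K T) :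
    ∀ᵐ x ∂μ, |lineDeriv ℝ (fun z => T (f z)) x v| ≤ K * ‖g x‖ := by
  filter_upwards [ae_lineDifferentiable_comp hf hg hw hT, ae_hasDerivAt_global hf hg hw]
    with x hx1 hx2
  refine deriv_le_of_comp (N := fun y => K * ‖y‖) (by fun_prop) (fun c y => ?_) hx2
    hx1.hasLineDerivAt ?_
  · rw [norm_smul, Real.norm_eq_abs]
    ring
  · filter_upwards with t
    have := hT.dist_le_mul (f (x + t • v)) (f (x + (0 : ℝ) • v))
    rwa [Real.dist_eq, dist_eq_norm] at this

theorem integrable_lineDeriv_comp [CompleteSpace E'] (hf : Continuous f)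
    (hg : Integrable g μ) (hw : HB.WeakDir μ univ f g v) (hT : LipschitzWith K T) :
    Integrable (fun x => lineDeriv ℝ (fun z => T (f z)) x v) μ := by
  have : ProperSpace E := FiniteDimensional.proper_real E
  have : SecondCountableTopology E := secondCountable_of_proper
  refine Integrable.mono' (hg.norm.const_mul K)
    (stronglyMeasurable_lineDeriv (hT.continuous.comp hf)).aestronglyMeasurable ?_
  filter_upwards [ae_lineDeriv_comp_le hf hg.locallyIntegrable hw hT] with x hx
  exact hx

/-- the integral of a directional derivative of a test function vanishes -/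
theorem integral_fderiv_zero {φ : E → ℝ} (hφ : ContDiff ℝ ∞ φ) (hφc : HasCompactSupport φ)
    (v : E) : ∫ x, fderiv ℝ φ x v ∂μ = 0 := by
  have hd : Continuous fun x => fderiv ℝ φ x v :=
    (hφ.continuous_fderiv (by simp)).clm_apply continuous_const
  have hdc : HasCompactSupport fun x => fderiv ℝ φ x v :=
    (hφc.fderiv ℝ).comp_left (g := fun L : E →L[ℝ] ℝ => L v) (by simp)
  have h := integral_mul_fderiv_eq_neg_fderiv_mul_of_integrable (𝕜 := ℝ) (μ := μ) (v := v)
    (f := fun _ : E => (1 : ℝ)) (g := φ) (by simp)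
    (by simpa using hd.integrable_of_hasCompactSupport hdc)
    (by simpa using hφ.continuous.integrable_of_hasCompactSupport hφc)
    (fun x _ => differentiableAt_const _) (fun x _ => hφ.differentiable (by simp) x)
  simpa using h

/-- **Composition with a Lipschitz function**, global version. -/
theorem weakDir_comp_global [CompleteSpace E'] (hf : Continuous f) (hfc : HasCompactSupport f)
    (hg : Integrable g μ) (hw : HB.WeakDir μ univ f g v) (hT : LipschitzWith K T) :
    HB.WeakDir μ univ (fun z => T (f z)) (fun x => lineDeriv ℝ (fun z => T (f z)) x v) v := by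
  have : ProperSpace E := FiniteDimensional.proper_real E
  have : SecondCountableTopology E := secondCountable_of_proper
  set T' : E' → ℝ := fun y => T y - T 0 with hT'
  have hTl : LipschitzWith K T' := by
    refine LipschitzWith.of_dist_le_mul fun x y => ?_
    have := hT.dist_le_mul x y
    rw [Real.dist_eq] at this ⊢
    simpa [hT'] using this
  have hcu : Continuous fun z => T' (f z) := hTl.continuous.comp hf
  have hcc : HasCompactSupport fun z => T' (f z) := by
    have := hfc.comp_left (g := T') (by simp [hT'])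
    exact this
  have hui : Integrable (fun z => T' (f z)) μ := hcu.integrable_of_hasCompactSupport hcc
  have hG := integrable_lineDeriv_comp hf hg hw hTl
  have key := weakDir_of_goodDir hui hG (by
    filter_upwards [HB.ae_goodDir (μ := μ) isOpen_univ hf.continuousOn
      (hg.locallyIntegrable.locallyIntegrableOn univ) hw] with x hx
    exact (goodDir_comp (hx fun s _ => mem_univ _) hTl).1)
  have e1 : ∀ x, lineDeriv ℝ (fun z => T' (f z)) x v = lineDeriv ℝ (fun z => T (f z)) x v := by
    intro x
    unfold lineDeriv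
    simp only [hT', deriv_sub_const]
  simp only [e1] at key
  intro φ h1 h2 h3
  have h4 := key φ h1 h2 h3
  rw [h4]
  congr 1
  simp only [Measure.restrict_univ]
  have hd : Continuous fun x => fderiv ℝ φ x v :=
    (h1.continuous_fderiv (by simp)).clm_apply continuous_const
  have hdc : HasCompactSupport fun x => fderiv ℝ φ x v :=
    (h2.fderiv ℝ).comp_left (g := fun L : E →L[ℝ] ℝ => L v) (by simp)
  have i1 : Integrable (fun x => fderiv ℝ φ x v • T (f x)) μ := by
    refine Continuous.integrable_of_hasCompactSupport (hd.smul (hT.continuous.comp hf)) ?_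
    exact hdc.smul_right
  have i2 : Integrable (fun x => fderiv ℝ φ x v • T 0) μ :=
    Continuous.integrable_of_hasCompactSupport (hd.smul continuous_const) hdc.smul_right
  have e2 : ∀ x, fderiv ℝ φ x v • T' (f x) = fderiv ℝ φ x v • T (f x) - fderiv ℝ φ x v • T 0 := by
    intro x
    rw [hT', ← smul_sub]
  simp only [e2]
  rw [integral_sub i1 i2, integral_smul_const, integral_fderiv_zero h1 h2 v, zero_smul, sub_zero]

end global

end Vale.Agent.P073.H726
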