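import Vale.Agent.P073.H726.LipB
import Mathlib.Geometry.Manifold.PartitionOfUnity

/-!
# P073: composition of a continuous Sobolev map with a Lipschitz function, local version,
one direction
-/

namespace Vale.Agent.P073.H726

open MeasureTheory Set Filter Topology
open scoped ContDiff ENNReal NNReal

variable {E E' : Type*} [NormedAddCommGroup E] [NormedSpace ℝ E] [FiniteDimensional ℝ E]
  [MeasurableSpace E] [BorelSpace E] {μ : Measure E} [μ.IsAddHaarMeasure]
  [NormedAddCommGroup E'] [NormedSpace ℝ E']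

omit [MeasurableSpace E] [BorelSpace E] in
/-- smooth cut-off functions -/
theorem exists_cutoff {Ω K : Set E} (hΩ : IsOpen Ω) (hK : IsCompact K) (hKΩ : K ⊆ Ω) :
    ∃ χ : E → ℝ, ContDiff ℝ ∞ χ ∧ HasCompactSupport χ ∧ tsupport χ ⊆ Ω ∧
      ∀ x ∈ K, χ =ᶠ[𝓝 x] fun _ => 1 := by
  have : ProperSpace E := FiniteDimensional.proper_real E
  obtain ⟨L, hL, hKL, hLΩ⟩ := exists_compact_between hK hΩ hKΩ
  obtain ⟨δ, hδ, hthick⟩ := hK.exists_cthickening_subset_open isOpen_interior hKL
  obtain ⟨χ, hχ1, hχ0, -⟩ := exists_contMDiffMap_one_nhds_of_subset_interior (n := (⊤ : ℕ∞))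
    (modelWithCornersSelf ℝ E) (Metric.isClosed_cthickening (δ := δ) (E := K)) hthick
  have hsupp : tsupport (χ : E → ℝ) ⊆ L := by
    refine closure_minimal ?_ hL.isClosed
    intro x hx
    by_contra hxL
    exact hx (hχ0 x hxL)
  refine ⟨χ, χ.contMDiff.contDiff, HasCompactSupport.of_support_subset_isCompact hL
    (subset_closure.trans hsupp), hsupp.trans hLΩ, fun x hx => ?_⟩
  have h1 : ∀ᶠ z in 𝓝 x, z ∈ Metric.thickening δ K :=
    Metric.isOpen_thickening.mem_nhds (Metric.self_subset_thickening hδ K hx)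
  filter_upwards [h1] with z hz
  exact hχ1.self_of_nhdsSet z (Metric.thickening_subset_cthickening _ _ hz)

omit [FiniteDimensional ℝ E] [MeasurableSpace E] [BorelSpace E] in
theorem cont_smul' {U : Set E} {f : E → E'} (hU : IsOpen U) (hf : ContinuousOn f U) {c : E → ℝ}
    (hc : Continuous c) (hs : tsupport c ⊆ U) : Continuous fun y => c y • f y := by
  refine ContinuousOn.continuous_of_tsupport_subset (hc.continuousOn.smul hf) hU ?_
  exact (closure_mono (Function.support_smul_subset_left _ _)).trans hs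

omit [FiniteDimensional ℝ E] [MeasurableSpace E] [BorelSpace E] in
theorem dcont {χ : E → ℝ} (hχ : ContDiff ℝ ∞ χ) (v : E) : Continuous fun y => fderiv ℝ χ y v :=
  (hχ.continuous_fderiv (by simp)).clm_apply continuous_const

omit [FiniteDimensional ℝ E] [MeasurableSpace E] [BorelSpace E] in
theorem dcomp {χ : E → ℝ} (hc : HasCompactSupport χ) (v : E) :
    HasCompactSupport fun y => fderiv ℝ χ y v :=
  (hc.fderiv (𝕜 := ℝ)).comp_left (g := fun L : E →L[ℝ] ℝ => L v) rfl

omit [FiniteDimensional ℝ E] [MeasurableSpace E] [BorelSpace E] in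
theorem dsupp {χ : E → ℝ} {U : Set E} (hs : tsupport χ ⊆ U) (v : E) :
    tsupport (fun y => fderiv ℝ χ y v) ⊆ U := by
  refine Subset.trans ?_ ((tsupport_fderiv_subset ℝ (f := χ)).trans hs)
  refine closure_mono fun y hy => ?_
  intro h0
  apply hy
  show fderiv ℝ χ y v = 0
  rw [h0]; rfl

omit [FiniteDimensional ℝ E] [μ.IsAddHaarMeasure] in
theorem integrable_cut {Ω : Set E} {g : E → E'} {χ : E → ℝ} (hg : LocallyIntegrableOn g Ω μ)
    (hχ : Continuous χ) (hc : HasCompactSupport χ) (hs : tsupport χ ⊆ Ω) :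
    Integrable (fun y => χ y • g y) μ := by
  obtain ⟨C, hC⟩ := hc.exists_bound_of_continuous hχ
  have hFi : IntegrableOn g (tsupport χ) μ := hg.integrableOn_compact_subset hs hc
  have h1 : IntegrableOn (fun y => χ y • g y) (tsupport χ) μ :=
    hFi.bdd_smul C hχ.aestronglyMeasurable (ae_of_all _ hC)
  refine (integrableOn_iff_integrable_of_support_subset (s := tsupport χ) ?_).1 h1
  exact (Function.support_smul_subset_left _ _).trans subset_closure

/-- the product rule -/
theorem weakDir_cut {Ω : Set E} {f g : E → E'} {v : E} {χ : E → ℝ}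
    (hΩ : IsOpen Ω) (hf : ContinuousOn f Ω) (hg : LocallyIntegrableOn g Ω μ)
    (hw : HB.WeakDir μ Ω f g v) (hχ : ContDiff ℝ ∞ χ) (hc : HasCompactSupport χ)
    (hs : tsupport χ ⊆ Ω) :
    HB.WeakDir μ univ (fun x => χ x • f x) (fun x => χ x • g x + fderiv ℝ χ x v • f x) v := by
  intro φ h1 h2 _
  simp only [Measure.restrict_univ]
  have iA := integrable_cut (μ := μ) hg hχ.continuous hc hs
  have cB := cont_smul' hΩ hf (dcont hχ v) (dsupp hs v)
  have iB : Integrable (fun x => fderiv ℝ χ x v • f x) μ :=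
    cB.integrable_of_hasCompactSupport (dcomp hc v).smul_right
  have cC := cont_smul' hΩ hf hχ.continuous hs
  have iC : Integrable (fun x => χ x • f x) μ :=
    cC.integrable_of_hasCompactSupport hc.smul_right
  obtain ⟨C, hC⟩ := h2.exists_bound_of_continuous h1.continuous
  obtain ⟨C', hC'⟩ := (dcomp h2 v).exists_bound_of_continuous (dcont h1 v)
  have iA' : Integrable (fun x => φ x • χ x • g x) μ :=
    iA.bdd_smul C h1.continuous.aestronglyMeasurable (ae_of_all _ hC)
  have iB' : Integrable (fun x => φ x • fderiv ℝ χ x v • f x) μ :=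
    iB.bdd_smul C h1.continuous.aestronglyMeasurable (ae_of_all _ hC)
  have iC' : Integrable (fun x => fderiv ℝ φ x v • χ x • f x) μ :=
    iC.bdd_smul C' (dcont h1 v).aestronglyMeasurable (ae_of_all _ hC')
  have hp := hw (fun x => φ x * χ x) (h1.mul hχ) hc.mul_left
    ((closure_mono (Function.support_mul_subset_right _ _)).trans hs)
  rw [setIntegral_eq_integral_of_forall_compl_eq_zero (fun x hx => by
      rw [image_eq_zero_of_notMem_tsupport fun h => hx (hs h), mul_zero, zero_smul]),
    setIntegral_eq_integral_of_forall_compl_eq_zero (fun x hx => by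
      have : x ∉ tsupport fun x => φ x * χ x := fun h => hx
        (hs (closure_mono (Function.support_mul_subset_right _ _) h))
      rw [image_eq_zero_of_notMem_tsupport (f := fderiv ℝ (fun x => φ x * χ x))
        (fun h => this (tsupport_fderiv_subset ℝ h)), _root_.zero_apply,
        zero_smul])] at hp
  have e1 : ∀ x, fderiv ℝ (fun x => φ x * χ x) x v • f x =
      φ x • fderiv ℝ χ x v • f x + fderiv ℝ φ x v • χ x • f x := by
    intro x
    rw [fderiv_fun_mul ((h1.differentiable (by simp)) x) ((hχ.differentiable (by simp)) x)]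
    simp only [_root_.add_apply, _root_.smul_apply, smul_eq_mul,
      add_smul, smul_smul]
    rw [mul_comm (χ x)]
  simp only [e1, ← smul_smul] at hp
  rw [integral_add iB' iC'] at hp
  simp only [smul_add]
  rw [integral_add iA' iB', hp]
  abel

omit [FiniteDimensional ℝ E] [MeasurableSpace E] [BorelSpace E] in
theorem line_congr {F : Type*} {f f' : E → F} {x : E} (h : f =ᶠ[𝓝 x] f') (v : E) :
    (fun t : ℝ => f (x + t • v)) =ᶠ[𝓝 0] fun t => f' (x + t • v) := by
  have hc : Tendsto (fun t : ℝ => x + t • v) (𝓝 0) (𝓝 x) := by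
    have : Continuous fun t : ℝ => x + t • v := by fun_prop
    simpa using this.tendsto 0
  exact hc.eventually h

omit [FiniteDimensional ℝ E] [MeasurableSpace E] [BorelSpace E] in
theorem lineDeriv_congr {F : Type*} [NormedAddCommGroup F] [NormedSpace ℝ F] {f f' : E → F} {x : E}
    (h : f =ᶠ[𝓝 x] f') (v : E) : lineDeriv ℝ f x v = lineDeriv ℝ f' x v :=
  (line_congr h v).deriv_eq

omit [BorelSpace E] [μ.IsAddHaarMeasure] in
theorem ae_of_compact {Ω : Set E} (hΩ : IsOpen Ω) {P : E → Prop}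
    (h : ∀ K ⊆ Ω, IsCompact K → ∀ᵐ x ∂μ, x ∈ K → P x) : ∀ᵐ x ∂μ, x ∈ Ω → P x := by
  have : ProperSpace E := FiniteDimensional.proper_real E
  have : SecondCountableTopology E := secondCountable_of_proper
  have key : μ {x | x ∈ Ω ∧ ¬ P x} = 0 := by
    refine measure_null_of_locally_null _ ?_
    rintro x ⟨hx, -⟩
    obtain ⟨K, hK, hxK, hKU⟩ := exists_compact_subset hΩ hx
    refine ⟨K ∩ {x | x ∈ Ω ∧ ¬ P x},
      inter_mem (mem_nhdsWithin_of_mem_nhds (mem_interior_iff_mem_nhds.1 hxK))
        self_mem_nhdsWithin, ?_⟩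
    refine measure_mono_null ?_ (h K hKU hK)
    rintro y ⟨hy, -, hy'⟩
    simp only [mem_compl_iff, mem_ofPred_eq]
    exact fun hc => hy' (hc hy)
  rw [ae_iff]
  simpa only [Classical.not_imp] using key

section loc

variable {Ω : Set E} {f g : E → E'} {v : E} {T : E' → ℝ} {K : ℝ≥0}

/-- all local facts, near a compact set -/
theorem comp_near [CompleteSpace E'] (hΩ : IsOpen Ω) (hf : ContinuousOn f Ω)
    (hg : LocallyIntegrableOn g Ω μ) (hw : HB.WeakDir μ Ω f g v) (hT : LipschitzWith K T)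
    {L : Set E} (hL : IsCompact L) (hLΩ : L ⊆ Ω) :
    ∃ G : E → ℝ, Integrable G μ ∧
      (∀ x ∈ L, lineDeriv ℝ (fun z => T (f z)) x v = G x) ∧
      (∀ᵐ x ∂μ, x ∈ L → HasDerivAt (fun t : ℝ => f (x + t • v)) (g x) 0 ∧
        LineDifferentiableAt ℝ (fun z => T (f z)) x v ∧ |G x| ≤ K * ‖g x‖) ∧
      ∀ φ : E → ℝ, ContDiff ℝ ∞ φ → HasCompactSupport φ → tsupport φ ⊆ L →
        ∫ x in Ω, φ x • G x ∂μ = - ∫ x in Ω, fderiv ℝ φ x v • T (f x) ∂μ := by
  obtain ⟨χ, hχ, hc, hs, h1⟩ := exists_cutoff hΩ hL hLΩ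
  set f' : E → E' := fun x => χ x • f x with hf'
  set g' : E → E' := fun x => χ x • g x + fderiv ℝ χ x v • f x with hg'
  have cf : Continuous f' := cont_smul' hΩ hf hχ.continuous hs
  have sf : HasCompactSupport f' := hc.smul_right
  have ig : Integrable g' μ := by
    refine (integrable_cut (μ := μ) hg hχ.continuous hc hs).add ?_
    exact (cont_smul' hΩ hf (dcont hχ v) (dsupp hs v)).integrable_of_hasCompactSupport
      (dcomp hc v).smul_right
  have wf : HB.WeakDir μ univ f' g' v := weakDir_cut hΩ hf hg hw hχ hc hs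
  have heq : ∀ x ∈ L, f' =ᶠ[𝓝 x] f := by
    intro x hx
    filter_upwards [h1 x hx] with y hy
    rw [hf']
    simp only [hy, one_smul]
  have hgeq : ∀ x ∈ L, g' x = g x := by
    intro x hx
    rw [hg']
    simp only [(h1 x hx).self_of_nhds, one_smul, (h1 x hx).fderiv_eq]
    simp
  have hTeq : ∀ x ∈ L, (fun z => T (f' z)) =ᶠ[𝓝 x] fun z => T (f z) := by
    intro x hx
    filter_upwards [heq x hx] with y hy
    rw [hy]
  refine ⟨fun x => lineDeriv ℝ (fun z => T (f' z)) x v, integrable_lineDeriv_comp cf ig wf hT,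
    fun x hx => lineDeriv_congr (hTeq x hx).symm v, ?_, ?_⟩
  · filter_upwards [ae_hasDerivAt_global cf ig.locallyIntegrable wf,
      ae_lineDifferentiable_comp cf ig.locallyIntegrable wf hT,
      ae_lineDeriv_comp_le cf ig.locallyIntegrable wf hT] with x a1 a2 a3 hx
    refine ⟨?_, ?_, ?_⟩
    · rw [← hgeq x hx]
      exact a1.congr_of_eventuallyEq (line_congr (heq x hx).symm v)
    · have h2 : DifferentiableAt ℝ (fun t : ℝ => T (f' (x + t • v))) 0 := a2
      exact h2.congr_of_eventuallyEq (line_congr (hTeq x hx).symm v)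
    · rw [← hgeq x hx]
      exact a3
  · intro φ b1 b2 b3
    have key := weakDir_comp_global cf sf ig wf hT φ b1 b2 (subset_univ _)
    simp only [Measure.restrict_univ] at key
    rw [setIntegral_eq_integral_of_forall_compl_eq_zero (fun x hx => by
      rw [image_eq_zero_of_notMem_tsupport fun h => hx (hLΩ (b3 h)), zero_smul]), key,
      setIntegral_eq_integral_of_forall_compl_eq_zero (fun x hx => by
      rw [image_eq_zero_of_notMem_tsupport (f := fun x => fderiv ℝ φ x v)
        (fun h => hx (hLΩ (dsupp b3 v h))), zero_smul])]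
    congr 1
    refine integral_congr_ae (ae_of_all _ fun x => ?_)
    by_cases hx : x ∈ L
    · show fderiv ℝ φ x v • T (f' x) = fderiv ℝ φ x v • T (f x)
      rw [show T (f' x) = T (f x) from (hTeq x hx).self_of_nhds]
    · show fderiv ℝ φ x v • T (f' x) = fderiv ℝ φ x v • T (f x)
      rw [image_eq_zero_of_notMem_tsupport (f := fun x => fderiv ℝ φ x v)
        (fun h => hx (dsupp b3 v h)), zero_smul, zero_smul]

/-- **Composition with a real Lipschitz function**, one direction. -/
theorem lip_comp_real [CompleteSpace E'] (hΩ : IsOpen Ω) (hf : ContinuousOn f Ω)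
    (hg : LocallyIntegrableOn g Ω μ) (hw : HB.WeakDir μ Ω f g v) (hT : LipschitzWith K T) :
    LocallyIntegrableOn (fun x => lineDeriv ℝ (fun z => T (f z)) x v) Ω μ ∧
      HB.WeakDir μ Ω (fun z => T (f z)) (fun x => lineDeriv ℝ (fun z => T (f z)) x v) v ∧
      ∀ᵐ x ∂μ, x ∈ Ω → HasDerivAt (fun t : ℝ => f (x + t • v)) (g x) 0 ∧
        HasDerivAt (fun t : ℝ => T (f (x + t • v))) (lineDeriv ℝ (fun z => T (f z)) x v) 0 ∧
        |lineDeriv ℝ (fun z => T (f z)) x v| ≤ K * ‖g x‖ := by
  have : ProperSpace E := FiniteDimensional.proper_real E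
  refine ⟨?_, ?_, ?_⟩
  · rw [locallyIntegrableOn_iff hΩ.isLocallyClosed]
    intro L hL hLc
    obtain ⟨G, hG, hGe, -, -⟩ := comp_near hΩ hf hg hw hT hLc hL
    exact hG.integrableOn.congr_fun (fun x hx => (hGe x hx).symm) hLc.measurableSet
  · intro φ b1 b2 b3
    obtain ⟨G, hG, hGe, -, hGw⟩ := comp_near hΩ hf hg hw hT b2 b3
    rw [← hGw φ b1 b2 subset_rfl]
    refine integral_congr_ae (ae_of_all _ fun x => ?_)
    by_cases hx : x ∈ tsupport φ
    · simp only [hGe x hx]
    · simp only [image_eq_zero_of_notMem_tsupport hx, zero_smul]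
  · refine ae_of_compact hΩ fun L hL hLc => ?_
    obtain ⟨G, hG, hGe, hGa, -⟩ := comp_near hΩ hf hg hw hT hLc hL
    filter_upwards [hGa] with x hx hxL
    obtain ⟨c1, c2, c3⟩ := hx hxL
    exact ⟨c1, c2.hasLineDerivAt, by rw [hGe x hxL]; exact c3⟩

end loc

end Vale.Agent.P073.H726
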