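import Vale.Agent.P073.H726.LipC

/-!
# P073: composition of a continuous Sobolev map with a Lipschitz map: vector valued, all directions
-/

namespace Vale.Agent.P073.H726

open MeasureTheory Set Filter Topology
open scoped ContDiff ENNReal NNReal

variable {E E' F' : Type*} [NormedAddCommGroup E] [NormedSpace ℝ E] [FiniteDimensional ℝ E]
  [MeasurableSpace E] [BorelSpace E] {μ : Measure E} [μ.IsAddHaarMeasure]
  [NormedAddCommGroup E'] [NormedSpace ℝ E'] [NormedAddCommGroup F'] [NormedSpace ℝ F']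

section alg

variable {Ω : Set E} {v : E}

omit [FiniteDimensional ℝ E] [μ.IsAddHaarMeasure] in
theorem integrableOn_test {g : E → F'} (hg : LocallyIntegrableOn g Ω μ) {φ : E → ℝ}
    (h1 : Continuous φ) (h2 : HasCompactSupport φ) (h3 : tsupport φ ⊆ Ω) :
    IntegrableOn (fun x => φ x • g x) Ω μ :=
  (integrable_cut hg h1 h2 h3).integrableOn

omit [FiniteDimensional ℝ E] [BorelSpace E] [μ.IsAddHaarMeasure] in
theorem weakDir_smul_const [CompleteSpace F'] {u G : E → ℝ} (h : HB.WeakDir μ Ω u G v) (b : F') :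
    HB.WeakDir μ Ω (fun x => u x • b) (fun x => G x • b) v := by
  intro φ h1 h2 h3
  have e := h φ h1 h2 h3
  simp only [smul_eq_mul] at e
  simp only [smul_smul]
  rw [integral_smul_const, integral_smul_const, e, neg_smul]

omit [FiniteDimensional ℝ E] [μ.IsAddHaarMeasure] in
theorem weakDir_sum {ι : Type*} (s : Finset ι) {u G : ι → E → F'}
    (hu : ∀ i ∈ s, LocallyIntegrableOn (u i) Ω μ) (hG : ∀ i ∈ s, LocallyIntegrableOn (G i) Ω μ)
    (h : ∀ i ∈ s, HB.WeakDir μ Ω (u i) (G i) v) :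
    HB.WeakDir μ Ω (fun x => ∑ i ∈ s, u i x) (fun x => ∑ i ∈ s, G i x) v := by
  intro φ h1 h2 h3
  simp only [Finset.smul_sum]
  rw [integral_finsetSum s fun i hi => integrableOn_test (hG i hi) h1.continuous h2 h3,
    integral_finsetSum s fun i hi => integrableOn_test (hu i hi) (dcont h1 v) (dcomp h2 v)
      (dsupp h3 v), ← Finset.sum_neg_distrib]
  exact Finset.sum_congr rfl fun i hi => h i hi φ h1 h2 h3

/-- weak derivatives are unique -/
theorem weakDir_unique [CompleteSpace F'] {u G1 G2 : E → F'} (hΩ : IsOpen Ω)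
    (h1 : LocallyIntegrableOn G1 Ω μ) (h2 : LocallyIntegrableOn G2 Ω μ)
    (w1 : HB.WeakDir μ Ω u G1 v) (w2 : HB.WeakDir μ Ω u G2 v) :
    ∀ᵐ x ∂μ, x ∈ Ω → G1 x = G2 x := by
  have h3 : ∀ᵐ x ∂μ, x ∈ Ω → G1 x - G2 x = 0 := by
    refine hΩ.ae_eq_zero_of_integral_contDiff_smul_eq_zero (h1.sub h2) ?_
    intro φ a1 a2 a3
    have e1 : ∫ x, φ x • (G1 x - G2 x) ∂μ = ∫ x in Ω, φ x • (G1 x - G2 x) ∂μ := by
      rw [setIntegral_eq_integral_of_forall_compl_eq_zero]
      intro x hx
      rw [image_eq_zero_of_notMem_tsupport fun h => hx (a3 h), zero_smul]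
    rw [e1]
    simp only [smul_sub]
    rw [integral_sub (integrableOn_test h1 a1.continuous a2 a3)
      (integrableOn_test h2 a1.continuous a2 a3), w1 φ a1 a2 a3, w2 φ a1 a2 a3, sub_self]
  filter_upwards [h3] with x hx hxΩ
  exact sub_eq_zero.1 (hx hxΩ)

omit [BorelSpace E] [μ.IsAddHaarMeasure] in
theorem locInt_clm {G : E → E'} (hΩ : IsOpen Ω) (hG : LocallyIntegrableOn G Ω μ)
    (L : E' →L[ℝ] F') : LocallyIntegrableOn (fun x => L (G x)) Ω μ := by
  have : ProperSpace E := FiniteDimensional.proper_real E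
  rw [locallyIntegrableOn_iff hΩ.isLocallyClosed] at hG ⊢
  intro k hk hkc
  exact L.integrable_comp (hG k hk hkc)

omit [BorelSpace E] [μ.IsAddHaarMeasure] in
theorem locInt_sum {ι : Type*} (s : Finset ι) {G : ι → E → F'} (hΩ : IsOpen Ω)
    (hG : ∀ i ∈ s, LocallyIntegrableOn (G i) Ω μ) :
    LocallyIntegrableOn (fun x => ∑ i ∈ s, G i x) Ω μ := by
  have : ProperSpace E := FiniteDimensional.proper_real E
  rw [locallyIntegrableOn_iff hΩ.isLocallyClosed]
  intro k hk hkc
  exact integrable_finsetSum s fun i hi =>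
    ((locallyIntegrableOn_iff hΩ.isLocallyClosed).1 (hG i hi)) k hk hkc

omit [MeasurableSpace E] [BorelSpace E] [FiniteDimensional ℝ E] in
theorem lineDiff_of_coord {n : ℕ} (e : F' ≃L[ℝ] (Fin n → ℝ)) {u : E → F'} {x v : E}
    (h : ∀ i, LineDifferentiableAt ℝ (fun z => e (u z) i) x v) :
    LineDifferentiableAt ℝ u x v ∧
      ∀ i, e (lineDeriv ℝ u x v) i = lineDeriv ℝ (fun z => e (u z) i) x v := by
  have h1 : HasDerivAt (fun t : ℝ => e (u (x + t • v)))
      (fun i => lineDeriv ℝ (fun z => e (u z) i) x v) 0 :=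
    hasDerivAt_pi.2 fun i => (h i).hasLineDerivAt
  have h2 : HasDerivAt (fun t : ℝ => e.symm (e (u (x + t • v))))
      (e.symm fun i => lineDeriv ℝ (fun z => e (u z) i) x v) 0 :=
    (e.symm : (Fin n → ℝ) →L[ℝ] F').hasFDerivAt.comp_hasDerivAt 0 h1
  simp only [ContinuousLinearEquiv.symm_apply_apply] at h2
  have h3 : HasLineDerivAt ℝ u (e.symm fun i => lineDeriv ℝ (fun z => e (u z) i) x v) x v := h2
  refine ⟨h3.lineDifferentiableAt, fun i => ?_⟩
  rw [h3.lineDeriv, ContinuousLinearEquiv.apply_symm_apply]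

end alg

section comp

variable {Ω : Set E} {T : E' → F'} {K : ℝ≥0}

/-- **Composition with a Lipschitz map**, one direction. -/
theorem lip_comp [CompleteSpace E'] [FiniteDimensional ℝ F'] {f g : E → E'} {v : E}
    (hΩ : IsOpen Ω) (hf : ContinuousOn f Ω)
    (hg : LocallyIntegrableOn g Ω μ) (hw : HB.WeakDir μ Ω f g v) (hT : LipschitzWith K T) :
    LocallyIntegrableOn (fun x => lineDeriv ℝ (fun z => T (f z)) x v) Ω μ ∧
      HB.WeakDir μ Ω (fun z => T (f z)) (fun x => lineDeriv ℝ (fun z => T (f z)) x v) v ∧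
      ∀ᵐ x ∂μ, x ∈ Ω → HasDerivAt (fun t : ℝ => f (x + t • v)) (g x) 0 ∧
        HasDerivAt (fun t : ℝ => T (f (x + t • v))) (lineDeriv ℝ (fun z => T (f z)) x v) 0 := by
  have : CompleteSpace F' := FiniteDimensional.complete ℝ F'
  set n := Module.finrank ℝ F' with hn
  have e : F' ≃L[ℝ] (Fin n → ℝ) := ContinuousLinearEquiv.ofFinrankEq (by simp [hn])
  have hTi : ∀ i : Fin n, LipschitzWith (‖(e : F' →L[ℝ] (Fin n → ℝ))‖₊ * K)
      fun y => e (T y) i := by
    intro i
    have h1 : LipschitzWith (1 * (‖(e : F' →L[ℝ] (Fin n → ℝ))‖₊ * K)) fun y => e (T y) i :=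
      (LipschitzWith.eval (α := fun _ : Fin n => ℝ) i).comp
        ((e : F' →L[ℝ] (Fin n → ℝ)).lipschitz.comp hT)
    rwa [one_mul] at h1
  have key := fun i => lip_comp_real (μ := μ) hΩ hf hg hw (hTi i)
  have hd : ∀ᵐ x ∂μ, x ∈ Ω → LineDifferentiableAt ℝ (fun z => T (f z)) x v ∧
      ∀ i, e (lineDeriv ℝ (fun z => T (f z)) x v) i =
        lineDeriv ℝ (fun z => e (T (f z)) i) x v := by
    filter_upwards [ae_all_iff.2 fun i => (key i).2.2] with x hx hxΩ
    exact lineDiff_of_coord e fun i =>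
      HasLineDerivAt.lineDifferentiableAt (hx i hxΩ).2.1
  -- the sum over the coordinates
  have hsum : ∀ w : F', ∑ i, e w i • e.symm (Pi.single i 1) = w := by
    intro w
    have h1 : (∑ i, e w i • e.symm (Pi.single i 1)) = e.symm (∑ i, e w i • Pi.single i (1 : ℝ)) := by
      rw [map_sum]
      simp only [map_smul]
    rw [h1]
    have h2 : (∑ i, e w i • Pi.single i (1 : ℝ)) = e w := by
      funext j
      simp [Finset.sum_apply, Pi.single_apply]
    rw [h2, ContinuousLinearEquiv.symm_apply_apply]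
  have hae : ∀ᵐ x ∂μ, x ∈ Ω → ∑ i, lineDeriv ℝ (fun z => e (T (f z)) i) x v •
      e.symm (Pi.single i (1 : ℝ)) = lineDeriv ℝ (fun z => T (f z)) x v := by
    filter_upwards [hd] with x hx hxΩ
    rw [← hsum (lineDeriv ℝ (fun z => T (f z)) x v)]
    exact Finset.sum_congr rfl fun i _ => by rw [(hx hxΩ).2 i]
  have hli : ∀ i ∈ (Finset.univ : Finset (Fin n)),
      LocallyIntegrableOn (fun x => lineDeriv ℝ (fun z => e (T (f z)) i) x v •
        e.symm (Pi.single i (1 : ℝ))) Ω μ := fun i _ =>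
    locInt_clm hΩ (key i).1 ((ContinuousLinearMap.id ℝ ℝ).smulRight (e.symm (Pi.single i (1 : ℝ))))
  have hlu : ∀ i ∈ (Finset.univ : Finset (Fin n)),
      LocallyIntegrableOn (fun x => e (T (f x)) i • e.symm (Pi.single i (1 : ℝ))) Ω μ :=
    fun i _ => by
      refine ContinuousOn.locallyIntegrableOn ?_ hΩ.measurableSet
      exact ((hTi i).continuous.comp_continuousOn hf).smul continuousOn_const
  have hS := locInt_sum Finset.univ hΩ hli
  have hW := weakDir_sum Finset.univ hlu hli fun i _ =>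
    weakDir_smul_const (key i).2.1 (e.symm (Pi.single i (1 : ℝ)))
  refine ⟨?_, ?_, ?_⟩
  · have : ProperSpace E := FiniteDimensional.proper_real E
    rw [locallyIntegrableOn_iff hΩ.isLocallyClosed] at hS ⊢
    intro k hk hkc
    refine (hS k hk hkc).congr_fun_ae ?_
    rw [EventuallyEq, ae_restrict_iff' hkc.measurableSet]
    filter_upwards [hae] with x hx hxk
    exact hx (hk hxk)
  · intro φ h1 h2 h3
    have e1 := hW φ h1 h2 h3
    simp only [hsum] at e1
    rw [← e1]
    refine setIntegral_congr_ae hΩ.measurableSet ?_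
    filter_upwards [hae] with x hx hxΩ
    rw [hx hxΩ]
  · by_cases hn0 : n = 0
    · -- trivial target: the derivative of `f` still has to be found
      have hTc : LipschitzWith 0 fun _ : E' => (0 : ℝ) := LipschitzWith.const 0
      filter_upwards [hd, (lip_comp_real (μ := μ) hΩ hf hg hw hTc).2.2] with x hx hx2 hxΩ
      exact ⟨(hx2 hxΩ).1, (hx hxΩ).1.hasLineDerivAt⟩
    · filter_upwards [hd, (key ⟨0, Nat.pos_of_ne_zero hn0⟩).2.2] with x hx hx2 hxΩ
      exact ⟨(hx2 hxΩ).1, (hx hxΩ).1.hasLineDerivAt⟩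

/-- the derivative of `u`, as a linear map, from the line derivatives along a basis -/
noncomputable def lineMat (u : E → F') (x : E) : E →L[ℝ] F' :=
  ∑ i, (LinearMap.toContinuousLinearMap ((Module.finBasis ℝ E).coord i)).smulRight
    (lineDeriv ℝ u x (Module.finBasis ℝ E i))

omit [MeasurableSpace E] [BorelSpace E] in
theorem lineMat_apply (u : E → F') (x v : E) :
    lineMat u x v = ∑ i, (Module.finBasis ℝ E).coord i v •
      lineDeriv ℝ u x (Module.finBasis ℝ E i) := by
  simp [lineMat]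

/-- **Composition with a Lipschitz map**: the full derivative. -/
theorem lip_comp_deriv [CompleteSpace E'] [FiniteDimensional ℝ F'] {f : E → E'}
    {F : E → E →L[ℝ] E'} (hΩ : IsOpen Ω) (hf : ContinuousOn f Ω)
    (hF : LocallyIntegrableOn F Ω μ) (hw : HB.WeakDeriv μ Ω f F) (hT : LipschitzWith K T) :
    LocallyIntegrableOn (lineMat fun z => T (f z)) Ω μ ∧
      HB.WeakDeriv μ Ω (fun z => T (f z)) (lineMat fun z => T (f z)) ∧
      ∀ v, ∀ᵐ x ∂μ, x ∈ Ω → HasDerivAt (fun t : ℝ => f (x + t • v)) (F x v) 0 ∧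
        HasDerivAt (fun t : ℝ => T (f (x + t • v))) (lineMat (fun z => T (f z)) x v) 0 := by
  have : CompleteSpace F' := FiniteDimensional.complete ℝ F'
  have hFv : ∀ v, LocallyIntegrableOn (fun x => F x v) Ω μ := fun v =>
    locInt_clm hΩ hF (ContinuousLinearMap.apply ℝ E' v)
  have hwv : ∀ v, HB.WeakDir μ Ω f (fun x => F x v) v := fun v φ h1 h2 h3 => hw φ h1 h2 h3 v
  have key := fun v => lip_comp (μ := μ) hΩ hf (hFv v) (hwv v) hT
  set b := Module.finBasis ℝ E with hb
  have hlu : LocallyIntegrableOn (fun x => T (f x)) Ω μ :=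
    (hT.continuous.comp_continuousOn hf).locallyIntegrableOn hΩ.measurableSet
  have hL : LocallyIntegrableOn (lineMat fun z => T (f z)) Ω μ := by
    have h1 := locInt_sum (μ := μ) (Ω := Ω) Finset.univ
      (G := fun i x => (LinearMap.toContinuousLinearMap (b.coord i)).smulRight
        (lineDeriv ℝ (fun z => T (f z)) x (b i))) hΩ fun i _ =>
        locInt_clm hΩ (key (b i)).1 (ContinuousLinearMap.smulRightL ℝ E F'
          (LinearMap.toContinuousLinearMap (b.coord i)))
    exact h1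
  have hW : HB.WeakDeriv μ Ω (fun z => T (f z)) (lineMat fun z => T (f z)) := by
    intro φ h1 h2 h3 v
    have e1 : ∀ i, ∫ x in Ω, φ x • (b.coord i v) • lineDeriv ℝ (fun z => T (f z)) x (b i) ∂μ =
        - ∫ x in Ω, (b.coord i v * fderiv ℝ φ x (b i)) • T (f x) ∂μ := by
      intro i
      have e2 := (key (b i)).2.1 φ h1 h2 h3
      have e3 : ∀ x, φ x • (b.coord i v) • lineDeriv ℝ (fun z => T (f z)) x (b i) =
          (b.coord i v) • (φ x • lineDeriv ℝ (fun z => T (f z)) x (b i)) := fun x =>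
        smul_comm _ _ _
      simp only [e3, ← smul_smul]
      rw [integral_smul, integral_smul, e2, smul_neg]
    simp only [lineMat_apply, Finset.smul_sum]
    rw [integral_finsetSum _ fun i _ => ?_]
    · simp only [← hb, e1]
      rw [Finset.sum_neg_distrib, ← integral_finsetSum _ fun i _ => ?_]
      · congr 1
        refine integral_congr_ae (ae_of_all _ fun x => ?_)
        show ∑ i, (b.coord i v * fderiv ℝ φ x (b i)) • T (f x) = fderiv ℝ φ x v • T (f x)
        rw [← Finset.sum_smul]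
        congr 1
        conv_rhs => rw [← b.sum_repr v]
        rw [map_sum]
        simp only [map_smul, smul_eq_mul, Module.Basis.coord_apply]
      · have h4 := (integrableOn_test hlu (dcont h1 (b i)) (dcomp h2 (b i))
          (dsupp h3 (b i))).smul (b.coord i v)
        simpa only [Pi.smul_def, smul_smul] using h4
    · have h4 := (integrableOn_test (key (b i)).1 h1.continuous h2 h3).smul (b.coord i v)
      refine h4.congr (ae_of_all _ fun x => ?_)
      exact smul_comm _ _ _
  refine ⟨hL, hW, fun v => ?_⟩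
  have hu := weakDir_unique (μ := μ) (u := fun z => T (f z)) hΩ (key v).1
    (locInt_clm hΩ hL (ContinuousLinearMap.apply ℝ F' v)) (key v).2.1
    (fun φ h1 h2 h3 => hW φ h1 h2 h3 v)
  filter_upwards [(key v).2.2, hu] with x hx1 hx2 hxΩ
  refine ⟨(hx1 hxΩ).1, ?_⟩
  have h4 := (hx1 hxΩ).2
  rw [hx2 hxΩ] at h4
  exact h4

/-- **The pointwise rule**. On the preimage of an open set `W` on which `l ∘ T` is controlled by
`N`, the derivative `l (G x v)` is controlled by `N (F x v)`. -/
theorem lip_comp_rule [CompleteSpace E'] [FiniteDimensional ℝ F'] {f : E → E'}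
    {F : E → E →L[ℝ] E'} (hΩ : IsOpen Ω) (hf : ContinuousOn f Ω)
    (hF : LocallyIntegrableOn F Ω μ) (hw : HB.WeakDeriv μ Ω f F) (hT : LipschitzWith K T)
    {W : Set E'} (hW : IsOpen W) (l : F' →L[ℝ] ℝ) {N : E' → ℝ} (hN : Continuous N)
    (hom : ∀ (c : ℝ) (y : E'), N (c • y) = |c| * N y)
    (hle : ∀ y ∈ W, ∀ z ∈ W, |l (T y - T z)| ≤ N (y - z)) :
    ∀ᵐ x ∂μ, x ∈ Ω → f x ∈ W → ∀ v, |l (lineMat (fun z => T (f z)) x v)| ≤ N (F x v) := by
  have : ProperSpace E := FiniteDimensional.proper_real E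
  have : SecondCountableTopology E := secondCountable_of_proper
  have key := (lip_comp_deriv (μ := μ) hΩ hf hF hw hT).2.2
  filter_upwards [ae_all_iff.2 fun n : ℕ => key (TopologicalSpace.denseSeq E n)] with x hx hxΩ hxW
  have h1 : ∀ n, |l (lineMat (fun z => T (f z)) x (TopologicalSpace.denseSeq E n))| ≤
      N (F x (TopologicalSpace.denseSeq E n)) := by
    intro n
    obtain ⟨a1, a2⟩ := hx n hxΩ
    refine deriv_le_of_comp hN hom a1 (l.hasFDerivAt.comp_hasDerivAt 0 a2) ?_
    have hc : Tendsto (fun t : ℝ => f (x + t • TopologicalSpace.denseSeq E n)) (𝓝 0) (𝓝 (f x)) := by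
      have := a1.continuousAt.tendsto
      simpa using this
    filter_upwards [hc.eventually (hW.mem_nhds hxW)] with t ht
    have h2 := hle _ ht _ hxW
    simpa using h2
  have hcl : IsClosed {v : E | |l (lineMat (fun z => T (f z)) x v)| ≤ N (F x v)} :=
    isClosed_le (by fun_prop) (hN.comp (F x).continuous)
  have hd := (TopologicalSpace.denseRange_denseSeq E).closure_range
  intro v
  have hsub : closure (range (TopologicalSpace.denseSeq E)) ⊆
      {v : E | |l (lineMat (fun z => T (f z)) x v)| ≤ N (F x v)} :=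
    closure_minimal (by rintro _ ⟨n, rfl⟩; exact h1 n) hcl
  rw [hd] at hsub
  exact hsub (mem_univ v)

end comp

end Vale.Agent.P073.H726
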