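import Vale.Agent.P073.H726.Area
import Vale.Agent.P073.PK.Sob560a

/-!
# P073: Lusin's condition (N) for homeomorphisms in `W^{1,p}`, `p ≥ 3`; the image of the set of
degenerate points is null
-/

namespace Vale.Agent.P073.H726

open MeasureTheory Set Filter Topology Metric Vale.Agent.P073.St Vale.Agent.P073.AB
open Vale.Agent.P073.PK
open scoped ContDiff ENNReal

variable {p : ℝ} {Ω Λ : Set V} {f : V → V} {F : V → Mat}

theorem cube_energy (hp : 3 ≤ p) (hv : volume Ω ≠ ⊤) (hF : IsSobolev p Ω f F) {L : Set V}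
    (hL : L ⊆ Ω) : ∫⁻ x in L, ENNReal.ofReal (‖cl (F x)‖ ^ (3 : ℝ)) ≠ ⊤ := by
  have h0 : IsFiniteMeasure (volume.restrict Ω) := ⟨by
    rw [Measure.restrict_apply_univ]; exact lt_top_iff_ne_top.2 hv⟩
  have h1 : MemLp (fun x => cl (F x)) (ENNReal.ofReal 3) (volume.restrict Ω) :=
    (IsSob.memLp_cl hF).mono_exponent (ENNReal.ofReal_le_ofReal hp)
  have h2 := (eLpNorm_lt_top_iff_lintegral_rpow_enorm_lt_top (by simp) ENNReal.ofReal_ne_top).1 h1.2
  rw [ENNReal.toReal_ofReal (by norm_num)] at h2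
  refine ne_top_of_le_ne_top h2.ne ?_
  refine (lintegral_mono_set hL).trans (le_of_eq ?_)
  refine lintegral_congr fun x => ?_
  rw [← ofReal_norm, ENNReal.ofReal_rpow_of_nonneg (norm_nonneg _) (by norm_num)]

theorem det_cl (M : Mat) : (cl M).det = (Matrix.of M).det := by
  rw [cl, ContinuousLinearMap.det]
  simp [LinearMap.det_toLin']

theorem det_cl_eq_zero_iff (M : Mat) : (cl M).det = 0 ↔ ¬ NonSing M := by
  rw [det_cl]
  constructor
  · intro h hM
    obtain ⟨v, hv, hv0⟩ := Matrix.exists_mulVec_eq_zero_iff.2 h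
    refine hv (hM v ?_)
    funext i
    exact congrFun hv0 i
  · intro h
    rw [NonSing] at h
    push Not at h
    obtain ⟨v, hv, hv0⟩ := h
    exact Matrix.exists_mulVec_eq_zero_iff.1 ⟨v, hv0, funext fun i => congrFun hv i⟩

/-- **Area inequality** for homeomorphisms in `W^{1,p}`, `p ≥ 3`. -/
theorem area (hp : 3 ≤ p) (hΩ : IsOpen Ω) (hv : volume Ω ≠ ⊤) (hΛ : IsOpen Λ)
    (hf : IsHomeo Ω Λ f) (hF : IsSobolev p Ω f F) {A : Set V} (hA : MeasurableSet A)
    (hAΩ : A ⊆ Ω) : volume (f '' A) ≤ ∫⁻ x in A, ENNReal.ofReal |(cl (F x)).det| := by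
  obtain ⟨h, hinv, hfc, hhc⟩ := hf
  exact image_le hΩ hΛ hinv hfc hhc (IsSob.locallyIntegrableOn_cl (by linarith) hv hF)
    (fun L hL _ => cube_energy hp hv hF hL) (IsSob.weakDeriv (by linarith) hv hF) hA hAΩ

/-- **Lusin's condition (N)** for homeomorphisms in `W^{1,p}`, `p ≥ 3`. -/
theorem lusinN (hp : 3 ≤ p) (hΩ : IsOpen Ω) (hv : volume Ω ≠ ⊤) (hΛ : IsOpen Λ)
    (hf : IsHomeo Ω Λ f) (hF : IsSobolev p Ω f F) {A : Set V} (hAΩ : A ⊆ Ω)
    (hA : volume A = 0) : volume (f '' A) = 0 := by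
  obtain ⟨h, hinv, hfc, hhc⟩ := hf
  exact image_null hΩ hΛ hinv hfc hhc (IsSob.locallyIntegrableOn_cl (by linarith) hv hF)
    (fun L hL _ => cube_energy hp hv hF hL) (IsSob.weakDeriv (by linarith) hv hF) hAΩ hA

/-- The image of a null measurable set at almost all points of which `F` is singular, is null. -/
theorem image_sing (hp : 3 ≤ p) (hΩ : IsOpen Ω) (hv : volume Ω ≠ ⊤) (hΛ : IsOpen Λ)
    (hf : IsHomeo Ω Λ f) (hF : IsSobolev p Ω f F) {A : Set V} (hAΩ : A ⊆ Ω)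
    (hAm : NullMeasurableSet A volume)
    (hA : ∀ᵐ x ∂(volume : Measure V), x ∈ A → ¬ NonSing (F x)) : volume (f '' A) = 0 := by
  obtain ⟨h, hinv, hfc, hhc⟩ := hf
  refine image_det_null hΩ hΛ hinv hfc hhc (IsSob.locallyIntegrableOn_cl (by linarith) hv hF)
    (fun L hL _ => cube_energy hp hv hF hL) (IsSob.weakDeriv (by linarith) hv hF) hAΩ hAm ?_
  filter_upwards [hA] with x hx hxA
  exact (det_cl_eq_zero_iff _).2 (hx hxA)

/-- **The image of the set of degenerate points is null**. -/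
theorem image_degenerate (hp : 3 ≤ p) (hΩ : IsOpen Ω) (hv : volume Ω ≠ ⊤) (hΛ : IsOpen Λ)
    (hf : IsHomeo Ω Λ f) (hF : IsSobolev p Ω f F) :
    volume (f '' {x | x ∈ Ω ∧ ¬ NonSing (F x)}) = 0 := by
  refine image_sing hp hΩ hv hΛ hf hF (fun x hx => hx.1) ?_ (ae_of_all _ fun x hx => hx.2)
  have h1 : AEMeasurable (fun x => (cl (F x)).det) (volume.restrict Ω) :=
    ContinuousLinearMap.continuous_det.measurable.comp_aemeasurable
      (IsSob.aesm hF).aemeasurable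
  obtain ⟨g, hg, hfg⟩ := h1
  have h2 : MeasurableSet ({x | g x = 0} ∩ Ω) :=
    (hg (measurableSet_singleton (0 : ℝ))).inter hΩ.measurableSet
  refine h2.nullMeasurableSet.congr ?_
  have h3 := (ae_restrict_iff' hΩ.measurableSet).1 hfg
  filter_upwards [h3] with x hx
  refine propext ⟨fun h => ⟨h.2, ?_⟩, fun h => ⟨?_, h.1⟩⟩
  · rw [← det_cl_eq_zero_iff, hx h.2]
    exact h.1
  · show g x = 0
    rw [← hx h.1]
    exact (det_cl_eq_zero_iff _).2 h.2

end Vale.Agent.P073.H726
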