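import Vale.Agent.P073.MM.H307.MollLp
import Vale.Agent.P073.HB.Acl2
import Mathlib.Geometry.Manifold.PartitionOfUnity

/-!
# P073: convolution with a bump function, local smooth approximation
-/

namespace Vale.Agent.P073.H726

open MeasureTheory Set Filter Topology Metric Vale.Agent.P073.St
open scoped ContDiff ENNReal Convolution

variable {E : Type*} [NormedAddCommGroup E] [NormedSpace ℝ E]

/-- convolution with the normed bump function -/
noncomputable def cv (φ : ContDiffBump (0 : V)) (u : V → E) (x : V) : E :=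
  ∫ y, φ.normed volume (x - y) • u y

theorem cv_eq (φ : ContDiffBump (0 : V)) (u : V → E) :
    cv φ u = (φ.normed volume ⋆[ContinuousLinearMap.lsmul ℝ ℝ, volume] u) := by
  funext x
  exact (convolution_lsmul_swap).symm

theorem cv_unif [CompleteSpace E] {u : V → E} (hu : Continuous u) (hc : HasCompactSupport u)
    {η : ℝ} (hη : 0 < η) :
    ∃ δ : ℝ, 0 < δ ∧ ∀ φ : ContDiffBump (0 : V), φ.rOut ≤ δ → ∀ x, ‖cv φ u x - u x‖ ≤ η := by
  have h1 : UniformContinuous u := hc.uniformContinuous_of_continuous hu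
  obtain ⟨δ, hδ, h2⟩ := Metric.uniformContinuous_iff.1 h1 η hη
  refine ⟨δ, hδ, fun φ hφ x => ?_⟩
  rw [← dist_eq_norm, cv_eq]
  exact φ.dist_normed_convolution_le hu.aestronglyMeasurable fun y hy =>
    (h2 ((mem_ball.1 hy).trans_le hφ)).le

theorem cv_smooth (φ : ContDiffBump (0 : V)) {u : V → E} (hu : LocallyIntegrable u) :
    ContDiff ℝ ∞ (cv φ u) := by
  rw [cv_eq]
  exact φ.hasCompactSupport_normed.contDiff_convolution_left _ φ.contDiff_normed hu

/-- the kernel times a locally integrable function is integrable -/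
theorem cv_integrable (φ : ContDiffBump (0 : V)) {u : V → E} (hu : LocallyIntegrable u) (x : V) :
    Integrable (fun y => φ.normed volume (x - y) • u y) := by
  have hk : Continuous fun y => φ.normed volume (x - y) :=
    φ.continuous_normed.comp (continuous_const.sub continuous_id)
  have hs : HasCompactSupport fun y => φ.normed volume (x - y) :=
    φ.hasCompactSupport_normed.comp_homeomorph (Homeomorph.subLeft x)
  exact hu.integrable_smul_left_of_hasCompactSupport hk hs

theorem cv_apply (φ : ContDiffBump (0 : V)) {u : V → V →L[ℝ] V} (hu : LocallyIntegrable u)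
    (x v : V) : cv φ u x v = cv φ (fun y => u y v) x := by
  unfold cv
  rw [ContinuousLinearMap.integral_apply (cv_integrable φ hu x)]
  rfl

theorem cv_fderiv (φ : ContDiffBump (0 : V)) {u : V → V} (hu : LocallyIntegrable u) (x v : V) :
    fderiv ℝ (cv φ u) x v = ∫ y, (fderiv ℝ (φ.normed volume) (x - y) v) • u y := by
  have h1 := φ.hasCompactSupport_normed (μ := (volume : Measure V)).hasFDerivAt_convolution_left
    (ContinuousLinearMap.lsmul ℝ ℝ) (φ.contDiff_normed (n := 1)) hu x
  rw [cv_eq, h1.fderiv, convolution_eq_swap, ContinuousLinearMap.integral_apply]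
  · rfl
  · have hk : Continuous fun y => fderiv ℝ (φ.normed volume) (x - y) :=
      ((φ.contDiff_normed (n := 1)).continuous_fderiv (by simp)).comp
        (continuous_const.sub continuous_id)
    have hs : HasCompactSupport fun y => fderiv ℝ (φ.normed volume) (x - y) :=
      (φ.hasCompactSupport_normed.fderiv (𝕜 := ℝ)).comp_homeomorph (Homeomorph.subLeft x)
    have h2 := (φ.hasCompactSupport_normed (μ := (volume : Measure V)).fderiv
      (𝕜 := ℝ)).convolutionExists_left ((ContinuousLinearMap.lsmul ℝ ℝ).precompL V)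
      ((φ.contDiff_normed (n := 1)).continuous_fderiv (by simp)) hu x
    exact h2.integrable_swap

theorem psi_deriv (φ : ContDiffBump (0 : V)) {χ : V → ℝ} (hχ : ContDiff ℝ ∞ χ) (x v y : V) :
    fderiv ℝ (fun y => φ.normed volume (x - y) * χ y) y v =
      - (fderiv ℝ (φ.normed volume) (x - y) v * χ y) +
      φ.normed volume (x - y) * fderiv ℝ χ y v := by
  have e1 : HasFDerivAt (fun y : V => φ.normed volume (x - y))
      ((fderiv ℝ (φ.normed volume) (x - y)).comp (-ContinuousLinearMap.id ℝ V)) y := by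
    have e2 : HasFDerivAt (fun y : V => x - y) (-ContinuousLinearMap.id ℝ V) y :=
      (hasFDerivAt_id y).const_sub x
    exact (((φ.contDiff_normed (n := 1)).differentiable (by simp) _).hasFDerivAt).comp y e2
  have e3 : HasFDerivAt χ (fderiv ℝ χ y) y := ((hχ.differentiable (by simp)) y).hasFDerivAt
  have e4 : HasFDerivAt (fun y => φ.normed volume (x - y) * χ y) _ y := e1.mul e3
  rw [e4.fderiv]
  simp
  ring

section

variable {U : Set V} {f : V → V} {χ : V → ℝ}

theorem cont_smul (hU : IsOpen U) (hf : ContinuousOn f U) {c : V → ℝ} (hc : Continuous c)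
    (hs : tsupport c ⊆ U) : Continuous fun y => c y • f y := by
  refine ContinuousOn.continuous_of_tsupport_subset (hc.continuousOn.smul hf) hU ?_
  exact (closure_mono (Function.support_smul_subset_left _ _)).trans hs

theorem dchi_cont (hχ : ContDiff ℝ ∞ χ) (v : V) : Continuous fun y => fderiv ℝ χ y v :=
  (hχ.continuous_fderiv (by simp)).clm_apply continuous_const

theorem dchi_comp (hc : HasCompactSupport χ) (v : V) :
    HasCompactSupport fun y => fderiv ℝ χ y v :=
  (hc.fderiv (𝕜 := ℝ)).comp_left (g := fun L : V →L[ℝ] ℝ => L v) rfl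

theorem dchi_supp (hs : tsupport χ ⊆ U) (v : V) : tsupport (fun y => fderiv ℝ χ y v) ⊆ U := by
  refine Subset.trans ?_ ((tsupport_fderiv_subset ℝ (f := χ)).trans hs)
  refine closure_mono fun y hy => ?_
  intro h0
  apply hy
  show fderiv ℝ χ y v = 0
  rw [h0]; rfl

theorem part_one (φ : ContDiffBump (0 : V)) {w : V → V} (hs : ∀ y, y ∉ U → χ y = 0) (x : V) :
    ∫ y in U, (φ.normed volume (x - y) * χ y) • w y = cv φ (fun y => χ y • w y) x := by
  unfold cv
  rw [setIntegral_eq_integral_of_forall_compl_eq_zero]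
  · refine integral_congr_ae (ae_of_all _ fun y => ?_)
    simp only [smul_smul]
  · intro y hy
    simp only [hs y hy, mul_zero, zero_smul]

theorem part_two (φ : ContDiffBump (0 : V)) (hU : IsOpen U) (hf : ContinuousOn f U)
    (hχ : ContDiff ℝ ∞ χ) (hc : HasCompactSupport χ) (hs : tsupport χ ⊆ U) (x v : V) :
    ∫ y in U, (- (fderiv ℝ (φ.normed volume) (x - y) v * χ y) +
      φ.normed volume (x - y) * fderiv ℝ χ y v) • f y =
      - fderiv ℝ (cv φ fun y => χ y • f y) x v + cv φ (fun y => fderiv ℝ χ y v • f y) x := by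
  have hχf : Continuous fun y => χ y • f y := cont_smul hU hf hχ.continuous hs
  have hχfs : HasCompactSupport fun y => χ y • f y := hc.smul_right
  have hdf : Continuous fun y => fderiv ℝ χ y v • f y :=
    cont_smul hU hf (dchi_cont hχ v) (dchi_supp hs v)
  have hdfs : HasCompactSupport fun y => fderiv ℝ χ y v • f y := (dchi_comp hc v).smul_right
  have i1 : Integrable fun y => fderiv ℝ (φ.normed volume) (x - y) v • χ y • f y := by
    have c1 : Continuous fun y => fderiv ℝ (φ.normed volume) (x - y) v • χ y • f y :=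
      ((((φ.contDiff_normed (n := 1)).continuous_fderiv (by simp)).comp
        (continuous_const.sub continuous_id)).clm_apply continuous_const).smul hχf
    refine c1.integrable_of_hasCompactSupport (hχfs.mono fun y hy => ?_)
    intro h0
    apply hy
    show _ • χ y • f y = 0
    have h0' : χ y • f y = 0 := h0
    rw [h0', smul_zero]
  have i2 : Integrable fun y => φ.normed volume (x - y) • fderiv ℝ χ y v • f y :=
    cv_integrable φ hdf.locallyIntegrable x
  rw [cv_fderiv φ hχf.locallyIntegrable, setIntegral_eq_integral_of_forall_compl_eq_zero]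
  · unfold cv
    have e1 := integral_add i1.neg i2
    have e2 := integral_neg (μ := (volume : Measure V))
      (fun y => fderiv ℝ (φ.normed volume) (x - y) v • χ y • f y)
    rw [← e2]
    refine Eq.trans ?_ e1
    refine integral_congr_ae (ae_of_all _ fun y => ?_)
    simp only [add_smul, neg_smul, smul_smul, Pi.neg_apply]
  · intro y hy
    have h1 : χ y = 0 := image_eq_zero_of_notMem_tsupport fun h => hy (hs h)
    have h2 : fderiv ℝ χ y v = 0 := image_eq_zero_of_notMem_tsupport (f := fun y => fderiv ℝ χ y v)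
      fun h => hy (dchi_supp hs v h)
    rw [h1, h2]
    simp

/-- **the derivative of the mollification of `χ f`** -/
theorem cv_weak (φ : ContDiffBump (0 : V)) (hU : IsOpen U)
    {D : V → V →L[ℝ] V} (hf : ContinuousOn f U) (hw : HB.WeakDeriv volume U f D)
    (hχ : ContDiff ℝ ∞ χ) (hc : HasCompactSupport χ) (hs : tsupport χ ⊆ U) (x v : V) :
    fderiv ℝ (cv φ fun y => χ y • f y) x v =
      cv φ (fun y => χ y • D y v) x + cv φ (fun y => fderiv ℝ χ y v • f y) x := by
  have hk : ContDiff ℝ ∞ fun y : V => φ.normed volume (x - y) :=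
    φ.contDiff_normed.comp (contDiff_const.sub contDiff_id)
  have key := hw (fun y => φ.normed volume (x - y) * χ y) (hk.mul hχ) hc.mul_left
    ((closure_mono (Function.support_mul_subset_right _ _)).trans hs) v
  simp only [psi_deriv φ hχ] at key
  rw [part_two φ hU hf hχ hc hs x v, part_one φ (fun y hy =>
    image_eq_zero_of_notMem_tsupport fun h => hy (hs h))] at key
  rw [key]
  simp

end

theorem cv_zero (φ : ContDiffBump (0 : V)) {u : V → E} {x : V}
    (h : ∀ y, ‖x - y‖ < φ.rOut → u y = 0) : cv φ u x = 0 := by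
  unfold cv
  rw [← integral_zero V E]
  refine integral_congr_ae (ae_of_all _ fun y => ?_)
  show φ.normed volume (x - y) • u y = 0
  by_cases hy : ‖x - y‖ < φ.rOut
  · rw [h y hy, smul_zero]
  · have h1 : x - y ∉ Function.support (φ.normed (volume : Measure V)) := by
      rw [φ.support_normed_eq]
      simpa using hy
    rw [Function.notMem_support.1 h1, zero_smul]

/-- a smooth cut-off function -/
theorem exists_cut {Ω K : Set V} (hΩ : IsOpen Ω) (hK : IsCompact K) (hKΩ : K ⊆ Ω) :
    ∃ (χ : V → ℝ) (δ : ℝ), 0 < δ ∧ ContDiff ℝ ∞ χ ∧ HasCompactSupport χ ∧ tsupport χ ⊆ Ω ∧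
      ∀ x ∈ K, ∀ y, ‖x - y‖ < δ → χ =ᶠ[𝓝 y] fun _ => 1 := by
  obtain ⟨L, hL, hKL, hLΩ⟩ := exists_compact_between hK hΩ hKΩ
  obtain ⟨δ, hδ, hthick⟩ := hK.exists_cthickening_subset_open isOpen_interior hKL
  obtain ⟨χ, hχ1, hχ0, -⟩ := exists_contMDiffMap_one_nhds_of_subset_interior (n := (⊤ : ℕ∞))
    (modelWithCornersSelf ℝ V) (isClosed_cthickening (δ := δ) (E := K)) hthick
  have hsupp : tsupport (χ : V → ℝ) ⊆ L := by
    refine closure_minimal ?_ hL.isClosed
    intro x hx
    by_contra hxL
    exact hx (hχ0 x hxL)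
  refine ⟨χ, δ, hδ, χ.contMDiff.contDiff, HasCompactSupport.of_support_subset_isCompact hL
    (subset_closure.trans hsupp), hsupp.trans hLΩ, fun x hx y hy => ?_⟩
  have hy' : y ∈ thickening δ K := mem_thickening_iff.2 ⟨x, hx, by
    rw [dist_comm, dist_eq_norm]; exact hy⟩
  have h1 : ∀ᶠ z in 𝓝 y, z ∈ thickening δ K := isOpen_thickening.mem_nhds hy'
  filter_upwards [h1] with z hz
  exact hχ1.self_of_nhdsSet z (thickening_subset_cthickening _ _ hz)

/-- **Local smooth approximation** of a continuous Sobolev map near a compact set. -/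
theorem approx {Ω K : Set V} {f : V → V} {F : V → V →L[ℝ] V} {p : ℝ} (hp : 1 ≤ p)
    (hΩ : IsOpen Ω) (hf : ContinuousOn f Ω) (hF : LocallyIntegrableOn F Ω)
    (hFp : ∀ L ⊆ Ω, IsCompact L → ∫⁻ x in L, ENNReal.ofReal (‖F x‖ ^ p) ≠ ⊤)
    (hw : HB.WeakDeriv volume Ω f F) (hK : IsCompact K) (hKΩ : K ⊆ Ω) {η : ℝ} (hη : 0 < η) :
    ∃ g : V → V, ContDiff ℝ ∞ g ∧ (∀ x ∈ K, ‖g x - f x‖ ≤ η) ∧
      ∫⁻ x in K, ENNReal.ofReal (‖fderiv ℝ g x - F x‖ ^ p) ≤ ENNReal.ofReal η := by
  have hp0 : 0 < p := by linarith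
  obtain ⟨χ, δ0, hδ0, hχ, hχc, hχs, hχ1⟩ := exists_cut hΩ hK hKΩ
  set u1 : V → V := fun y => χ y • f y with hu1
  set u3 : V → V →L[ℝ] V := fun y => χ y • F y with hu3
  have k1 : Continuous u1 := cont_smul hΩ hf hχ.continuous hχs
  have k1s : HasCompactSupport u1 := hχc.smul_right
  obtain ⟨C, hC⟩ := hχc.exists_bound_of_continuous hχ.continuous
  have hC0 : 0 ≤ C := (norm_nonneg _).trans (hC 0)
  have hts : IsCompact (tsupport χ) := hχc
  have hFi : IntegrableOn F (tsupport χ) := hF.integrableOn_compact_subset hχs hts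
  have hoff : ∀ y, y ∉ tsupport χ → u3 y = 0 := fun y hy => by
    rw [hu3]
    show χ y • F y = 0
    rw [image_eq_zero_of_notMem_tsupport hy, zero_smul]
  have k3 : Integrable u3 := by
    have h1 : IntegrableOn u3 (tsupport χ) :=
      hFi.bdd_smul C hχ.continuous.aestronglyMeasurable (ae_of_all _ hC)
    refine (integrableOn_iff_integrable_of_support_subset (s := tsupport χ) (f := u3) ?_).1 h1
    intro y hy
    by_contra h
    exact hy (hoff y h)
  have k3p : ∫⁻ x, ENNReal.ofReal (‖u3 x‖ ^ p) ≠ ⊤ := by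
    have e1 : ∀ x, ENNReal.ofReal (‖u3 x‖ ^ p) ≤
        (tsupport χ).indicator (fun x => ENNReal.ofReal (C ^ p) *
          ENNReal.ofReal (‖F x‖ ^ p)) x := by
      intro x
      by_cases hx : x ∈ tsupport χ
      · rw [indicator_of_mem hx, hu3]
        dsimp only
        rw [norm_smul, Real.mul_rpow (norm_nonneg _) (norm_nonneg _),
          ENNReal.ofReal_mul (by positivity)]
        gcongr
        exact hC x
      · rw [indicator_of_notMem hx, hoff x hx, norm_zero, Real.zero_rpow hp0.ne',
          ENNReal.ofReal_zero]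
    refine ne_top_of_le_ne_top ?_ (lintegral_mono e1)
    rw [lintegral_indicator (isClosed_tsupport χ).measurableSet,
      lintegral_const_mul' _ _ ENNReal.ofReal_ne_top]
    exact ENNReal.mul_ne_top ENNReal.ofReal_ne_top (hFp _ hχs hts)
  obtain ⟨δ1, hδ1, H1⟩ := cv_unif k1 k1s hη
  obtain ⟨δ3, hδ3, H3⟩ := MM.H307.moll p u3 hp k3.aestronglyMeasurable k3p η hη
  set δ : ℝ := min (min δ1 δ0) δ3 with hδ
  have hδp : 0 < δ := lt_min (lt_min hδ1 hδ0) hδ3
  let φ : ContDiffBump (0 : V) := ⟨δ / 2, δ, half_pos hδp, half_lt_self hδp⟩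
  have hφ : φ.rOut = δ := rfl
  have hχK : ∀ x ∈ K, χ =ᶠ[𝓝 x] fun _ => 1 := fun x hx => hχ1 x hx x (by simpa using hδ0)
  refine ⟨cv φ u1, cv_smooth φ k1.locallyIntegrable, fun x hx => ?_, ?_⟩
  · have h1 := H1 φ (hφ.trans_le ((min_le_left _ _).trans (min_le_left _ _))) x
    have h2 : u1 x = f x := by
      show χ x • f x = f x
      rw [(hχK x hx).self_of_nhds, one_smul]
    rwa [h2] at h1
  · have h3 := H3 φ (hφ.trans_le (min_le_right _ _))
    refine le_trans ?_ h3
    refine (setLIntegral_mono_ae' hK.measurableSet ?_).trans (setLIntegral_le_lintegral K _)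
    refine ae_of_all _ fun x hx => ?_
    have h4 : u3 x = F x := by
      show χ x • F x = F x
      rw [(hχK x hx).self_of_nhds, one_smul]
    have h5 : fderiv ℝ (cv φ u1) x = cv φ u3 x := by
      ext v : 1
      rw [cv_weak φ hΩ hf hw hχ hχc hχs x v, cv_apply φ k3.locallyIntegrable]
      have h6 : cv φ (fun y => fderiv ℝ χ y v • f y) x = 0 := by
        refine cv_zero φ fun y hy => ?_
        have h7 : fderiv ℝ χ y = 0 := by
          rw [(hχ1 x hx y (hy.trans_le (hφ.trans_le
            ((min_le_left _ _).trans (min_le_right _ _))))).fderiv_eq]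
          simp
        rw [h7]
        simp
      rw [h6, add_zero]
      rfl
    rw [h5, ← h4]
    exact le_rfl

end Vale.Agent.P073.H726
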