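import Vale.Agent.P073.H471.Stage
import Vale.Agent.P073.H726.VarSlope

/-!
# P073, [P2f]: the collapse of a locally finite family of cubes

`nb c ρ a`: the homothety of ratio `a` (centre `c`) on the cube `closedBall c ρ`, the identity off
`ball c (2 * ρ)`, a piecewise linear homeomorphism which is `2`-Lipschitz for the sup norm.
-/

open Set Metric Topology Filter
open scoped ENNReal NNReal

namespace Vale.Agent.P073.H726.NB

open _root_.P073 _root_.P073.Net
open Vale.Agent.P073.St (V euc)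
open Vale.Agent.P073.H471 (Cubes)

/-! ### One coordinate -/

/-- shrink one coordinate -/
noncomputable def qq (a s v : ℝ) : ℝ := max (min (a * v) (v + s)) (v - s)

theorem qq_lip {a : ℝ} (ha : 0 ≤ a) (ha1 : a ≤ 1) (s s' v v' : ℝ) :
    |qq a s v - qq a s' v'| ≤ |v - v'| + |s - s'| := by
  unfold qq
  refine (abs_max_sub_max_le_max _ _ _ _).trans
    (max_le ((abs_min_sub_min_le_max _ _ _ _).trans (max_le ?_ ?_)) ?_)
  · rw [← mul_sub, abs_mul, abs_of_nonneg ha]
    nlinarith [abs_nonneg (v - v'), abs_nonneg (s - s')]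
  · calc |v + s - (v' + s')| = |(v - v') + (s - s')| := by congr 1; ring
      _ ≤ _ := abs_add_le _ _
  · calc |v - s - (v' - s')| = |(v - v') - (s - s')| := by congr 1; ring
      _ ≤ _ := abs_sub _ _

theorem qq_strictMono {a : ℝ} (ha : 0 < a) (s : ℝ) : StrictMono (qq a s) := by
  intro v v' h
  unfold qq
  refine max_lt_max (min_lt_min ?_ ?_) ?_
  · exact mul_lt_mul_of_pos_left h ha
  · linarith
  · linarith

theorem qq_small {a s v : ℝ} (ha : a ≤ 1) (h : (1 - a) * |v| ≤ s) : qq a s v = a * v := by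
  have h1 := neg_abs_le v
  have h2 := le_abs_self v
  unfold qq
  rw [min_eq_left (by nlinarith), max_eq_left (by nlinarith)]

theorem qq_zero {a v : ℝ} : qq a 0 v = v := by
  unfold qq
  rw [add_zero, sub_zero]
  exact max_eq_right (min_le_right _ _)

theorem qq_neg {a s v : ℝ} (hs : 0 ≤ s) : qq a s (-v) = - qq a s v := by
  have key : ∀ x y z : ℝ, x ≤ y → max (min z y) x = min (max z x) y := by
    intro x y z hxy
    rcases le_total z x with h | h
    · rw [max_eq_right h, min_eq_left (h.trans hxy), max_eq_right h, min_eq_left hxy]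
    · rw [max_eq_left h, max_eq_left (le_min h hxy)]
  unfold qq
  rw [key (v - s) (v + s) (a * v) (by linarith), ← max_neg_neg, ← min_neg_neg]
  congr 1
  · congr 1
    · ring
    · ring
  · ring

theorem qq_abs {a s v : ℝ} (ha : 0 < a) (hs : 0 ≤ s) : |qq a s v| = qq a s |v| := by
  have h0 : qq a s 0 = 0 := by
    unfold qq
    rw [mul_zero, zero_add, zero_sub, min_eq_left hs, max_eq_left (by linarith)]
  rcases le_total 0 v with h | h
  · rw [abs_of_nonneg h, abs_of_nonneg]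
    rw [← h0]
    exact (qq_strictMono ha s).monotone h
  · rw [abs_of_nonpos h, qq_neg hs, abs_of_nonpos]
    rw [← h0]
    exact (qq_strictMono ha s).monotone h

/-- the formula for a nonnegative number -/
theorem qq_nonneg {a s v : ℝ} (ha : a ≤ 1) (hs : 0 ≤ s) (hv : 0 ≤ v) :
    qq a s v = max (a * v) (v - s) := by
  unfold qq
  rw [min_eq_left (by nlinarith)]

theorem qq_le {a s v : ℝ} (ha : a ≤ 1) (hs : 0 ≤ s) (hv : 0 ≤ v) : qq a s v ≤ v := by
  rw [qq_nonneg ha hs hv]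
  exact max_le (by nlinarith) (by linarith)

/-! ### The map -/

/-- the shift -/
noncomputable def ss (ρ a t : ℝ) : ℝ := (1 - a) * max 0 (min ρ (2 * ρ - t))

variable {ρ a : ℝ}

theorem ss_nonneg (ha1 : a ≤ 1) (t : ℝ) : 0 ≤ ss ρ a t :=
  mul_nonneg (by linarith) (le_max_left _ _)

theorem ss_lip (ha : 0 ≤ a) (ha1 : a ≤ 1) (t t' : ℝ) : |ss ρ a t - ss ρ a t'| ≤ |t - t'| := by
  unfold ss
  rw [← mul_sub, abs_mul, abs_of_nonneg (by linarith : (0:ℝ) ≤ 1 - a)]
  have h1 : |max 0 (min ρ (2 * ρ - t)) - max 0 (min ρ (2 * ρ - t'))| ≤ |t - t'| := by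
    refine (abs_max_sub_max_le_max _ _ _ _).trans (max_le (by simp)
      ((abs_min_sub_min_le_max _ _ _ _).trans (max_le (by simp) ?_)))
    rw [show 2 * ρ - t - (2 * ρ - t') = -(t - t') by ring, abs_neg]
  nlinarith [abs_nonneg (max 0 (min ρ (2 * ρ - t)) - max 0 (min ρ (2 * ρ - t')))]

theorem ss_antitone (ha1 : a ≤ 1) : Antitone (ss ρ a) := by
  intro t t' h
  unfold ss
  refine mul_le_mul_of_nonneg_left ?_ (by linarith)
  exact max_le_max le_rfl (min_le_min le_rfl (by linarith))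

theorem ss_of_le (hρ : 0 ≤ ρ) {t : ℝ} (h : t ≤ ρ) : ss ρ a t = (1 - a) * ρ := by
  unfold ss
  rw [min_eq_left (by linarith), max_eq_right hρ]

theorem ss_of_ge {t : ℝ} (h : 2 * ρ ≤ t) : ss ρ a t = 0 := by
  unfold ss
  rw [max_eq_left ((min_le_right _ _).trans (by linarith)), mul_zero]

/-- the collapse of a cube -/
noncomputable def nb (c : V) (ρ a : ℝ) (y : V) : V :=
  fun i => c i + qq a (ss ρ a ‖y - c‖) (y i - c i)

variable {c y y' : V}

theorem nb_of_le (ha1 : a ≤ 1) (h : ‖y - c‖ ≤ ρ) : nb c ρ a y = c + a • (y - c) := by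
  funext i
  have h1 := norm_le_pi_norm (y - c) i
  rw [Pi.sub_apply, Real.norm_eq_abs] at h1
  have h2 : 0 ≤ ρ := (norm_nonneg _).trans h
  show c i + qq a (ss ρ a ‖y - c‖) (y i - c i) = c i + a * (y i - c i)
  rw [ss_of_le h2 h, qq_small ha1 (by nlinarith [h1.trans h])]

theorem nb_of_ge (h : 2 * ρ ≤ ‖y - c‖) : nb c ρ a y = y := by
  funext i
  show c i + qq a (ss ρ a ‖y - c‖) (y i - c i) = y i
  rw [ss_of_ge h, qq_zero]
  ring

theorem nb_lip (ha : 0 ≤ a) (ha1 : a ≤ 1) (y y' : V) :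
    ‖nb c ρ a y - nb c ρ a y'‖ ≤ 2 * ‖y - y'‖ := by
  rw [pi_norm_le_iff_of_nonneg (by positivity)]
  intro i
  rw [Pi.sub_apply, Real.norm_eq_abs]
  show |c i + qq a (ss ρ a ‖y - c‖) (y i - c i) - (c i + qq a (ss ρ a ‖y' - c‖) (y' i - c i))| ≤ _
  rw [add_sub_add_left_eq_sub]
  refine (qq_lip ha ha1 _ _ _ _).trans ?_
  have h1 := norm_le_pi_norm (y - y') i
  rw [Pi.sub_apply, Real.norm_eq_abs] at h1
  have h2 := ss_lip (ρ := ρ) ha ha1 ‖y - c‖ ‖y' - c‖
  have h3 := abs_norm_sub_norm_le (y - c) (y' - c)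
  rw [sub_sub_sub_cancel_right] at h3
  rw [sub_sub_sub_cancel_right]
  linarith

theorem nb_lip_euc (ha : 0 ≤ a) (ha1 : a ≤ 1) (y y' : V) :
    euc (nb c ρ a y - nb c ρ a y') ≤ 3 * euc (y - y') := by
  have h2 := ss_lip (ρ := ρ) ha ha1 ‖y - c‖ ‖y' - c‖
  have h3 := abs_norm_sub_norm_le (y - c) (y' - c)
  rw [sub_sub_sub_cancel_right] at h3
  have hn := norm_le_euc (y - y')
  -- the coordinates are bounded by those of `|y - y'| + ‖y - y'‖`
  have hmono : ∀ v w : V, (∀ i, |v i| ≤ w i) → euc v ≤ euc w := by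
    intro v w h
    unfold euc
    refine Real.sqrt_le_sqrt (Finset.sum_le_sum fun i _ => ?_)
    rw [← sq_abs (v i)]
    exact pow_le_pow_left₀ (abs_nonneg _) (h i) 2
  have h4 : euc (nb c ρ a y - nb c ρ a y') ≤
      euc ((fun i => |y i - y' i|) + (fun _ => ‖y - y'‖) : V) := by
    refine hmono _ _ fun i => ?_
    show |c i + qq a (ss ρ a ‖y - c‖) (y i - c i) -
      (c i + qq a (ss ρ a ‖y' - c‖) (y' i - c i))| ≤ |y i - y' i| + ‖y - y'‖
    rw [add_sub_add_left_eq_sub]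
    refine (qq_lip ha ha1 _ _ _ _).trans ?_
    rw [sub_sub_sub_cancel_right]
    linarith
  have h5 : euc (fun i => |y i - y' i| : V) = euc (y - y') := by
    unfold euc
    congr 1
    refine Finset.sum_congr rfl fun i _ => ?_
    rw [Pi.sub_apply, sq_abs]
  have h6 : euc (fun _ => ‖y - y'‖ : V) ≤ 2 * ‖y - y'‖ := by
    refine (euc_le _).trans ?_
    have : ‖(fun _ => ‖y - y'‖ : V)‖ ≤ ‖y - y'‖ := by
      rw [pi_norm_le_iff_of_nonneg (norm_nonneg _)]
      intro i
      rw [norm_norm]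
    linarith
  have h7 := euc_add_le (fun i => |y i - y' i| : V) (fun _ => ‖y - y'‖)
  linarith

theorem nb_cont (ha : 0 ≤ a) (ha1 : a ≤ 1) : Continuous (nb c ρ a) := by
  have : LipschitzWith 2 (nb c ρ a) := LipschitzWith.of_dist_le_mul fun y y' => by
    rw [dist_eq_norm, dist_eq_norm]
    exact_mod_cast nb_lip ha ha1 y y'
  exact this.continuous

/-- the norm of the image -/
theorem norm_nb (ha : 0 < a) (ha1 : a ≤ 1) (y : V) :
    ‖nb c ρ a y - c‖ = max (a * ‖y - c‖) (‖y - c‖ - ss ρ a ‖y - c‖) := by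
  rw [← qq_nonneg ha1 (ss_nonneg ha1 _) (norm_nonneg _)]
  have hm := (qq_strictMono ha (ss ρ a ‖y - c‖)).monotone
  have hc : ∀ i, (nb c ρ a y - c) i = qq a (ss ρ a ‖y - c‖) (y i - c i) := fun i => by
    show c i + _ - c i = _
    rw [add_sub_cancel_left]
  have h0 : 0 ≤ qq a (ss ρ a ‖y - c‖) ‖y - c‖ := by
    have h1 := qq_abs (v := ‖y - c‖) ha (ss_nonneg (ρ := ρ) ha1 ‖y - c‖)
    rw [abs_of_nonneg (norm_nonneg (y - c))] at h1
    rw [← h1]
    exact abs_nonneg _
  apply le_antisymm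
  · rw [pi_norm_le_iff_of_nonneg h0]
    intro i
    rw [hc, Real.norm_eq_abs, qq_abs ha (ss_nonneg ha1 _)]
    refine hm ?_
    have h1 := norm_le_pi_norm (y - c) i
    rwa [Pi.sub_apply, Real.norm_eq_abs] at h1
  · obtain ⟨i, -, hi⟩ := Finset.exists_mem_eq_sup' (s := (Finset.univ : Finset (Fin 3)))
      Finset.univ_nonempty (fun i => ‖(y - c) i‖₊)
    have hi' : ‖y - c‖ = |y i - c i| := by
      rw [← Pi.sub_apply, ← Real.norm_eq_abs, ← coe_nnnorm, ← coe_nnnorm, NNReal.coe_inj, ← hi,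
        Pi.nnnorm_def, Finset.sup'_eq_sup]
    have h1 := norm_le_pi_norm (nb c ρ a y - c) i
    rw [hc, Real.norm_eq_abs, qq_abs ha (ss_nonneg ha1 _), ← hi'] at h1
    exact h1

theorem norm_nb_le (ha : 0 < a) (ha1 : a ≤ 1) (y : V) : ‖nb c ρ a y - c‖ ≤ ‖y - c‖ := by
  rw [norm_nb ha ha1]
  exact max_le (by nlinarith [norm_nonneg (y - c)])
    (by linarith [ss_nonneg (ρ := ρ) ha1 ‖y - c‖])

theorem nb_injective (ha : 0 < a) (ha1 : a ≤ 1) : Function.Injective (nb c ρ a) := by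
  intro y y' h
  have h1 := norm_nb (ρ := ρ) (c := c) ha ha1 y
  rw [h, norm_nb ha ha1 y'] at h1
  have hmono : StrictMono fun t : ℝ => max (a * t) (t - ss ρ a t) := by
    intro t t' htt
    refine max_lt_max (mul_lt_mul_of_pos_left htt ha) ?_
    have := ss_antitone (ρ := ρ) ha1 htt.le
    linarith
  have h2 : ‖y' - c‖ = ‖y - c‖ := hmono.injective h1
  funext i
  have h3 := congrFun h i
  have h4 : c i + qq a (ss ρ a ‖y - c‖) (y i - c i) =
    c i + qq a (ss ρ a ‖y' - c‖) (y' i - c i) := h3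
  rw [h2, add_right_inj] at h4
  have := (qq_strictMono ha _).injective h4
  linarith

theorem nb_con : ConicalOn (nb c ρ a) (univ : Set V) := by
  have hu : ConicalSet (univ : Set V) := isOpen_univ.conicalSet
  have hn : ConicalOn (fun y : V => ‖y - c‖) univ :=
    (conicalOn_norm_pi 3 hu).comp ((conicalOn_id hu).sub (conicalOn_const c hu))
      (mapsTo_univ _ _) (by fun_prop)
  have hs : ConicalOn (fun y : V => ss ρ a ‖y - c‖) univ := by
    have h1 : ConicalOn (fun y : V => 2 * ρ - ‖y - c‖) univ := (conicalOn_const (2 * ρ) hu).sub hn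
    have h2 : ConicalOn (fun y : V => min ρ (2 * ρ - ‖y - c‖)) univ :=
      (conicalOn_const ρ hu).rmin h1 (by fun_prop) (by fun_prop)
    have h3 : ConicalOn (fun y : V => max 0 (min ρ (2 * ρ - ‖y - c‖))) univ :=
      (conicalOn_const (0:ℝ) hu).rmax h2 (by fun_prop) (by fun_prop)
    exact h3.const_smul (1 - a)
  have hsc : Continuous (fun y : V => ss ρ a ‖y - c‖) := by unfold ss; fun_prop
  intro x _
  refine conicalWithinAt_pi (hu x (mem_univ x)) fun i => ?_
  have hv : ConicalOn (fun y : V => y i - c i) univ :=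
    (conicalOn_linear (LinearMap.proj i) hu).sub (conicalOn_const (c i) hu)
  have h1 : ConicalOn (fun y : V => a * (y i - c i)) univ := hv.const_smul a
  have h2 : ConicalOn (fun y : V => min (a * (y i - c i)) ((y i - c i) + ss ρ a ‖y - c‖)) univ :=
    h1.rmin (hv.add hs) (by fun_prop) (by fun_prop)
  have h3 : ConicalOn (fun y : V => qq a (ss ρ a ‖y - c‖) (y i - c i)) univ :=
    h2.rmax (hv.sub hs) (by fun_prop) (by fun_prop)
  exact ((conicalOn_const (c i) hu).add h3) x (mem_univ x)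

/-- the collapse of a cube is a conical homeomorphism of the space -/
theorem exists_nbc (c : V) (ρ : ℝ) (ha : 0 < a) (ha1 : a ≤ 1) :
    ∃ T : ConHomeo (univ : Set V) (univ : Set V), T.toFun = nb c ρ a := by
  obtain ⟨H, hH1, -⟩ := exists_homeo_of_injective (nb_cont (c := c) (ρ := ρ) ha.le ha1)
    (nb_injective ha ha1) (Λ := ball c (2 * ρ)) isBounded_ball
    (fun y hy => nb_of_ge (by rwa [mem_ball, dist_eq_norm, not_lt] at hy))
  exact ⟨{ toFun := nb c ρ a
           invFun := H.symm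
           mapsTo := mapsTo_univ _ _
           mapsTo_inv := mapsTo_univ _ _
           left_inv := fun y _ => by rw [← hH1]; exact H.symm_apply_apply y
           right_inv := fun y _ => by rw [← hH1]; exact H.apply_symm_apply y
           cont := (nb_cont ha.le ha1).continuousOn
           cont_inv := H.symm.continuous.continuousOn
           conical := nb_con }, rfl⟩

/-! ### Variation of a curve of which a part is in cubes which are collapsed -/

section generic

/-- a preconnected set covered by finitely many disjoint closed sets is in one of them -/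
theorem exists_subset_of_cover {X κ : Type*} [TopologicalSpace X] {J : Set X}
    (hJ : IsPreconnected J) (hne : J.Nonempty) {B : κ → Set X} (hB : ∀ k, IsClosed (B k))
    (hd : ∀ k l, k ≠ l → Disjoint (B k) (B l)) {F : Set κ} (hF : F.Finite)
    (h : ∀ x ∈ J, ∃ k ∈ F, x ∈ B k) : ∃ k ∈ F, J ⊆ B k := by
  obtain ⟨x, hx⟩ := hne
  obtain ⟨k, hk, hxk⟩ := h x hx
  refine ⟨k, hk, fun y hy => ?_⟩
  by_contra hyk
  have hcl : IsClosed (⋃ l ∈ F \ {k}, B l) :=
    (hF.subset sdiff_subset).isClosed_biUnion fun l _ => hB l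
  have := isPreconnected_closed_iff.1 hJ (B k) (⋃ l ∈ F \ {k}, B l) (hB k) hcl ?_ ⟨x, hx, hxk⟩ ?_
  · obtain ⟨z, -, hz1, hz2⟩ := this
    rw [mem_iUnion₂] at hz2
    obtain ⟨l, hl, hz3⟩ := hz2
    exact disjoint_left.1 (hd k l (Ne.symm hl.2)) hz1 hz3
  · intro z hz
    obtain ⟨l, hl, hzl⟩ := h z hz
    by_cases hkl : l = k
    · exact Or.inl (hkl ▸ hzl)
    · exact Or.inr (mem_iUnion₂.2 ⟨l, ⟨hl, hkl⟩, hzl⟩)
  · obtain ⟨l, hl, hyl⟩ := h y hy
    exact ⟨y, hy, mem_iUnion₂.2 ⟨l, ⟨hl, fun hkl => hyk (hkl ▸ hyl)⟩, hyl⟩⟩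

variable {W X κ : Type*} [TopologicalSpace W] [T2Space W] [PseudoEMetricSpace X] {Φ : W → X}
  {τ : W → W} {γ γ' : ℝ → W} {s t : ℝ} {L a : ℝ≥0∞} {B : κ → Set W}

omit [T2Space W] in
/-- the pieces in the cubes -/
theorem edist_le_of_covered (hγ' : ContinuousOn γ' (Icc s t)) (hBc : ∀ k, IsClosed (B k))
    (hd : ∀ k l, k ≠ l → Disjoint (B k) (B l)) (hfin : {k | ∃ u ∈ Icc s t, γ' u ∈ B k}.Finite)
    (hB : ∀ k, (∃ u ∈ Icc s t, γ' u ∈ B k) → ∀ x ∈ B k, ∀ y ∈ B k,
      edist (Φ (τ x)) (Φ (τ y)) ≤ a * edist (Φ x) (Φ y))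
    {u v : ℝ} (hu : u ∈ Icc s t) (hv : v ∈ Icc s t) (huv : u ≤ v)
    (h : ∀ w ∈ Ioo u v, ∃ k, γ' w ∈ B k) :
    edist (Φ (τ (γ' u))) (Φ (τ (γ' v))) ≤ a * edist (Φ (γ' u)) (Φ (γ' v)) := by
  rcases huv.eq_or_lt with rfl | huv
  · simp
  have hsub : Icc u v ⊆ Icc s t := Icc_subset_Icc hu.1 hv.2
  have hpre : IsPreconnected (γ' '' Ioo u v) :=
    isPreconnected_Ioo.image _ (hγ'.mono (Ioo_subset_Icc_self.trans hsub))
  obtain ⟨k, hk, hJ⟩ := exists_subset_of_cover hpre ((nonempty_Ioo.2 huv).image _) hBc hd hfin (by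
    rintro _ ⟨w, hw, rfl⟩
    obtain ⟨k, hk⟩ := h w hw
    exact ⟨k, ⟨w, hsub (Ioo_subset_Icc_self hw), hk⟩, hk⟩)
  have hall : MapsTo γ' (Icc u v) (B k) := by
    have h1 : MapsTo γ' (Ioo u v) (B k) := fun w hw => hJ ⟨w, hw, rfl⟩
    have h2 := h1.closure_of_continuousOn (by
      rw [closure_Ioo huv.ne]; exact hγ'.mono hsub)
    rwa [closure_Ioo huv.ne, (hBc k).closure_eq] at h2
  exact hB k hk _ (hall (left_mem_Icc.2 huv.le)) _ (hall (right_mem_Icc.2 huv.le))

/-- the estimate for two times -/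
theorem edist_two_part (hγ : ContinuousOn γ (Icc s t)) (hγ' : ContinuousOn γ' (Icc s t))
    (hL : ∀ x y, edist (Φ (τ x)) (Φ (τ y)) ≤ L * edist (Φ x) (Φ y))
    (hBc : ∀ k, IsClosed (B k)) (hd : ∀ k l, k ≠ l → Disjoint (B k) (B l))
    (hfin : {k | ∃ u ∈ Icc s t, γ' u ∈ B k}.Finite)
    (hB : ∀ k, (∃ u ∈ Icc s t, γ' u ∈ B k) → ∀ x ∈ B k, ∀ y ∈ B k,
      edist (Φ (τ x)) (Φ (τ y)) ≤ a * edist (Φ x) (Φ y))
    (h : ∀ u ∈ Icc s t, γ' u = γ u ∨ ∃ k, γ' u ∈ B k)
    {u v : ℝ} (hu : u ∈ Icc s t) (hv : v ∈ Icc s t) (huv : u ≤ v) :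
    edist (Φ (τ (γ' u))) (Φ (τ (γ' v))) ≤
      L * eVariationOn (fun w => Φ (γ w)) (Icc u v) +
        a * eVariationOn (fun w => Φ (γ' w)) (Icc u v) := by
  have hsub : Icc u v ⊆ Icc s t := Icc_subset_Icc hu.1 hv.2
  set S : Set ℝ := {w ∈ Icc u v | γ' w = γ w} with hS
  have hScl : IsClosed S :=
    ((hγ'.mono hsub).prodMk (hγ.mono hsub)).preimage_isClosed_of_isClosed isClosed_Icc
      isClosed_diagonal
  rcases S.eq_empty_or_nonempty with hemp | hne
  · have h1 := edist_le_of_covered hγ' hBc hd hfin hB hu hv huv (fun w hw => by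
      have hw' := Ioo_subset_Icc_self hw
      rcases h w (hsub hw') with h2 | h2
      · exact absurd (show w ∈ S from ⟨hw', h2⟩) (by rw [hemp]; exact notMem_empty w)
      · exact h2)
    refine h1.trans (le_add_left ?_)
    gcongr
    exact eVariationOn.edist_le (fun w => Φ (γ' w)) (left_mem_Icc.2 huv) (right_mem_Icc.2 huv)
  · have hbb : BddBelow S := ⟨u, fun w hw => hw.1.1⟩
    have hba : BddAbove S := ⟨v, fun w hw => hw.1.2⟩
    have hu₁ : sInf S ∈ S := hScl.csInf_mem hne hbb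
    have hv₁ : sSup S ∈ S := hScl.csSup_mem hne hba
    set u₁ := sInf S
    set v₁ := sSup S
    have huv₁ : u₁ ≤ v₁ := csInf_le hbb hv₁
    have e1 := edist_le_of_covered (Φ := Φ) (τ := τ) (a := a) hγ' hBc hd hfin hB hu
      (hsub hu₁.1) hu₁.1.1 (fun w hw => by
      have hw' : w ∈ Icc u v := ⟨hw.1.le, hw.2.le.trans hu₁.1.2⟩
      rcases h w (hsub hw') with h2 | h2
      · exact absurd (csInf_le hbb (show w ∈ S from ⟨hw', h2⟩)) (not_le.2 hw.2)
      · exact h2)
    have e2 := edist_le_of_covered (Φ := Φ) (τ := τ) (a := a) hγ' hBc hd hfin hB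
      (hsub hv₁.1) hv hv₁.1.2 (fun w hw => by
      have hw' : w ∈ Icc u v := ⟨hv₁.1.1.trans hw.1.le, hw.2.le⟩
      rcases h w (hsub hw') with h2 | h2
      · exact absurd (le_csSup hba (show w ∈ S from ⟨hw', h2⟩)) (not_le.2 hw.1)
      · exact h2)
    have e3 : edist (Φ (τ (γ' u₁))) (Φ (τ (γ' v₁))) ≤
        L * eVariationOn (fun w => Φ (γ w)) (Icc u v) := by
      rw [hu₁.2, hv₁.2]
      refine (hL _ _).trans ?_
      gcongr
      exact eVariationOn.edist_le (fun w => Φ (γ w)) hu₁.1 hv₁.1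
    have a1 := eVariationOn.Icc_add_Icc (fun w => Φ (γ' w)) (s := univ) hu₁.1.1
      (huv₁.trans hv₁.1.2) (mem_univ _)
    have a2 := eVariationOn.Icc_add_Icc (fun w => Φ (γ' w)) (s := univ) huv₁ hv₁.1.2 (mem_univ _)
    simp only [univ_inter] at a1 a2
    have e4 : edist (Φ (γ' u)) (Φ (γ' u₁)) + edist (Φ (γ' v₁)) (Φ (γ' v)) ≤
        eVariationOn (fun w => Φ (γ' w)) (Icc u v) := by
      rw [← a1, ← a2]
      refine add_le_add (eVariationOn.edist_le (fun w => Φ (γ' w)) (left_mem_Icc.2 hu₁.1.1)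
        (right_mem_Icc.2 hu₁.1.1)) (le_add_left ?_)
      exact eVariationOn.edist_le (fun w => Φ (γ' w)) (left_mem_Icc.2 hv₁.1.2)
        (right_mem_Icc.2 hv₁.1.2)
    calc edist (Φ (τ (γ' u))) (Φ (τ (γ' v)))
        ≤ edist (Φ (τ (γ' u))) (Φ (τ (γ' u₁))) + edist (Φ (τ (γ' u₁))) (Φ (τ (γ' v₁))) +
          edist (Φ (τ (γ' v₁))) (Φ (τ (γ' v))) := edist_triangle4 _ _ _ _
      _ ≤ a * edist (Φ (γ' u)) (Φ (γ' u₁)) + L * eVariationOn (fun w => Φ (γ w)) (Icc u v) +
          a * edist (Φ (γ' v₁)) (Φ (γ' v)) := add_le_add (add_le_add e1 e3) e2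
      _ = L * eVariationOn (fun w => Φ (γ w)) (Icc u v) +
          a * (edist (Φ (γ' u)) (Φ (γ' u₁)) + edist (Φ (γ' v₁)) (Φ (γ' v))) := by ring
      _ ≤ _ := by gcongr

/-- a bound for two times which is a sum of variations gives a bound for the variation -/
theorem eVariationOn_le_of_two {Y Z Z' : Type*} [PseudoEMetricSpace Y] [PseudoEMetricSpace Z]
    [PseudoEMetricSpace Z'] {f : ℝ → Y} {g : ℝ → Z} {g' : ℝ → Z'} {s t : ℝ} {L a : ℝ≥0∞}
    (h : ∀ u ∈ Icc s t, ∀ v ∈ Icc s t, u ≤ v →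
      edist (f u) (f v) ≤ L * eVariationOn g (Icc u v) + a * eVariationOn g' (Icc u v)) :
    eVariationOn f (Icc s t) ≤ L * eVariationOn g (Icc s t) + a * eVariationOn g' (Icc s t) := by
  refine iSup_le ?_
  rintro ⟨n, p, hp, hps⟩
  have key : ∀ n : ℕ, ∑ i ∈ Finset.range n, edist (f (p (i + 1))) (f (p i)) ≤
      L * eVariationOn g (Icc (p 0) (p n)) + a * eVariationOn g' (Icc (p 0) (p n)) := by
    intro n
    induction n with
    | zero => simp
    | succ n ih =>
      have a1 := eVariationOn.Icc_add_Icc g (s := univ) (hp (Nat.zero_le n)) (hp n.le_succ)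
        (mem_univ _)
      have a2 := eVariationOn.Icc_add_Icc g' (s := univ) (hp (Nat.zero_le n)) (hp n.le_succ)
        (mem_univ _)
      simp only [univ_inter] at a1 a2
      rw [Finset.sum_range_succ]
      have h1 := h _ (hps n) _ (hps (n + 1)) (hp n.le_succ)
      rw [edist_comm (f (p n))] at h1
      refine (add_le_add ih h1).trans (le_of_eq ?_)
      rw [← Nat.succ_eq_add_one, ← a1, ← a2]
      ring
  have hsub : Icc (p 0) (p n) ⊆ Icc s t := Icc_subset_Icc (hps 0).1 (hps n).2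
  refine (key n).trans (add_le_add ?_ ?_) <;> gcongr <;> exact eVariationOn.mono _ hsub

/-- **The variation of the collapsed curve.** -/
theorem eVariationOn_two_part (hγ : ContinuousOn γ (Icc s t)) (hγ' : ContinuousOn γ' (Icc s t))
    (hL : ∀ x y, edist (Φ (τ x)) (Φ (τ y)) ≤ L * edist (Φ x) (Φ y))
    (hBc : ∀ k, IsClosed (B k)) (hd : ∀ k l, k ≠ l → Disjoint (B k) (B l))
    (hfin : {k | ∃ u ∈ Icc s t, γ' u ∈ B k}.Finite)
    (hB : ∀ k, (∃ u ∈ Icc s t, γ' u ∈ B k) → ∀ x ∈ B k, ∀ y ∈ B k,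
      edist (Φ (τ x)) (Φ (τ y)) ≤ a * edist (Φ x) (Φ y))
    (h : ∀ u ∈ Icc s t, γ' u = γ u ∨ ∃ k, γ' u ∈ B k) :
    eVariationOn (fun w => Φ (τ (γ' w))) (Icc s t) ≤
      L * eVariationOn (fun w => Φ (γ w)) (Icc s t) +
        a * eVariationOn (fun w => Φ (γ' w)) (Icc s t) :=
  eVariationOn_le_of_two fun _ hu _ hv huv => edist_two_part hγ hγ' hL hBc hd hfin hB h hu hv huv

end generic

/-! ### The collapse of a locally finite family of cubes -/

variable {ι : Type*} {Λ : Set V} {c : ι → V} {ρ a : ι → ℝ}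

/-- what is known about the collapse `T` of the cubes `closedBall (c i) (ρ i)` -/
structure IsNeck (c : ι → V) (ρ a : ι → ℝ) (T : ConHomeo Λ Λ) : Prop where
  pos : ∀ i, 0 < ρ i
  apos : ∀ i, 0 < a i
  a1 : ∀ i, a i ≤ 1
  sub : ∀ i, closedBall (c i) (2 * ρ i) ⊆ Λ
  disj : ∀ i j, i ≠ j → Disjoint (ball (c i) (2 * ρ i)) (ball (c j) (2 * ρ j))
  fin : ∀ y ∈ Λ, ∃ U ∈ 𝓝 y, {i | (closedBall (c i) (2 * ρ i) ∩ U).Nonempty}.Finite
  /-- the map on the cubes of twice the radius -/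
  eq : ∀ i, ∀ y ∈ closedBall (c i) (2 * ρ i), T.toFun y = nb (c i) (ρ i) (a i) y
  off : ∀ y, (∀ i, y ∉ ball (c i) (2 * ρ i)) → T.toFun y = y ∧ T.invFun y = y
  mem : ∀ i, ∀ y ∈ ball (c i) (2 * ρ i), T.toFun y ∈ ball (c i) (2 * ρ i) ∧
    T.invFun y ∈ ball (c i) (2 * ρ i)

/-- **The collapse of a locally finite family of cubes.** -/
theorem exists_isNeck (hΛ : IsOpen Λ) (W : Cubes Λ c (fun i => 2 * ρ i)) (ha : ∀ i, 0 < a i)
    (ha1 : ∀ i, a i ≤ 1) : ∃ T : ConHomeo Λ Λ, IsNeck c ρ a T := by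
  choose Θ hΘ using fun i => exists_nbc (c i) (ρ i) (ha i) (ha1 i)
  have hid : ∀ i x, 2 * ρ i ≤ ‖x - c i‖ → (Θ i).toFun x = x := fun i x hx => by
    rw [hΘ]; exact nb_of_ge hx
  have hidi : ∀ i x, 2 * ρ i ≤ ‖x - c i‖ → (Θ i).invFun x = x := by
    intro i x hx
    have h2 := (Θ i).left_inv (mem_univ x)
    rwa [hid i x hx] at h2
  obtain ⟨T, h1, h2, h3, h4⟩ := exists_glue_ambient hΛ Θ
    (fun i => closedBall (c i) (2 * ρ i)) W.sub
    (fun i x hx => hid i x (by
      rw [mem_closedBall, dist_eq_norm, not_le] at hx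
      exact hx.le)) W.fin
    (fun i j hij x hx hx' => hid i x (by
      by_contra hlt
      rw [not_le] at hlt
      have h5 : x ∈ ball (c i) (2 * ρ i) := by rwa [mem_ball, dist_eq_norm]
      have h6 : x ∈ closure (ball (c j) (2 * ρ j)) := by
        rwa [closure_ball _ (W.pos j).ne']
      obtain ⟨y, hy⟩ := mem_closure_iff.1 h6 _ isOpen_ball h5
      exact disjoint_left.1 (W.disj i j hij) hy.1 hy.2))
  have hin : ∀ i, ball (c i) (2 * ρ i) ⊆ closedBall (c i) (2 * ρ i) :=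
    fun i => ball_subset_closedBall
  refine ⟨T, fun i => by have := W.pos i; linarith, ha, ha1, W.sub, W.disj,
    W.fin, fun i y hy => by rw [h1 i y hy, hΘ], fun y hy => ?_, fun i y hy => ⟨?_, ?_⟩⟩
  · have hy' : ∀ i, 2 * ρ i ≤ ‖y - c i‖ := fun i => by
      have := hy i
      rwa [mem_ball, dist_eq_norm, not_lt] at this
    by_cases hex : ∃ i, y ∈ closedBall (c i) (2 * ρ i)
    · obtain ⟨i, hi⟩ := hex
      exact ⟨by rw [h1 i y hi]; exact hid i y (hy' i), by rw [h3 i y hi]; exact hidi i y (hy' i)⟩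
    · push Not at hex
      exact ⟨h2 y hex, h4 y hex⟩
  · rw [h1 i y (hin i hy), mem_ball, dist_eq_norm, hΘ]
    rw [mem_ball, dist_eq_norm] at hy
    exact (norm_nb_le (ha i) (ha1 i) y).trans_lt hy
  · rw [h3 i y (hin i hy)]
    by_contra hn
    rw [mem_ball, dist_eq_norm, not_lt] at hn
    have h5 := hid i _ hn
    rw [(Θ i).right_inv (mem_univ y)] at h5
    rw [← h5] at hn
    rw [mem_ball, dist_eq_norm] at hy
    linarith

namespace IsNeck

variable {T : ConHomeo Λ Λ}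

/-- a homothety on the cubes -/
theorem eq_small (H : IsNeck c ρ a T) {i : ι} {y : V} (hy : y ∈ closedBall (c i) (ρ i)) :
    T.toFun y = c i + a i • (y - c i) := by
  have h1 := H.pos i
  rw [H.eq i y (closedBall_subset_closedBall (by linarith) hy)]
  rw [mem_closedBall, dist_eq_norm] at hy
  exact nb_of_le (H.a1 i) hy

/-- the image of a cube -/
theorem mem_small (H : IsNeck c ρ a T) {i : ι} {y : V} (hy : y ∈ closedBall (c i) (ρ i)) :
    T.toFun y ∈ closedBall (c i) (a i * ρ i) := by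
  rw [H.eq_small hy, mem_closedBall, dist_eq_norm, add_sub_cancel_left, norm_smul,
    Real.norm_of_nonneg (H.apos i).le]
  rw [mem_closedBall, dist_eq_norm] at hy
  exact mul_le_mul_of_nonneg_left hy (H.apos i).le

/-- the image of a cube -/
theorem mem_small' (H : IsNeck c ρ a T) {i : ι} {y : V} (hy : y ∈ closedBall (c i) (ρ i)) :
    T.toFun y ∈ closedBall (c i) (ρ i) := by
  refine closedBall_subset_closedBall ?_ (H.mem_small hy)
  have h1 := H.pos i
  have h2 := H.a1 i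
  nlinarith

/-- the map as one of the local maps, off the other cubes -/
theorem eq_nb (H : IsNeck c ρ a T) {i : ι} {y : V} (hy : ∀ j, j ≠ i → y ∉ ball (c j) (2 * ρ j)) :
    T.toFun y = nb (c i) (ρ i) (a i) y := by
  by_cases h : y ∈ ball (c i) (2 * ρ i)
  · exact H.eq i y (ball_subset_closedBall h)
  · rw [(H.off y fun j => by
      rcases eq_or_ne j i with rfl | hj
      · exact h
      · exact hy j hj).1, nb_of_ge (by rwa [mem_ball, dist_eq_norm, not_lt] at h)]

/-- general comparison: a bound for the local maps which is additive along segments -/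
theorem le_of_add (H : IsNeck c ρ a T) {N N' : V → V → ℝ}
    (hN : ∀ x y z, N x z ≤ N x y + N y z)
    (hN' : ∀ y y' w, w ∈ segment ℝ y y' → N' y w + N' w y' = N' y y')
    (h0 : ∀ y y', N y y' ≤ N' y y')
    (h : ∀ i y y', N (nb (c i) (ρ i) (a i) y) (nb (c i) (ρ i) (a i) y') ≤ N' y y')
    (y y' : V) : N (T.toFun y) (T.toFun y') ≤ N' y y' := by
  by_cases h1 : ∃ i, y ∈ ball (c i) (2 * ρ i)
  · obtain ⟨i, hi⟩ := h1
    by_cases h2 : ∃ j, j ≠ i ∧ y' ∈ ball (c j) (2 * ρ j)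
    · obtain ⟨j, hji, hj⟩ := h2
      -- a point of the segment which is in no cube `i`, `j`
      obtain ⟨w, hw, hwi, hwj⟩ : ∃ w ∈ segment ℝ y y', w ∉ ball (c i) (2 * ρ i) ∧
          w ∉ ball (c j) (2 * ρ j) := by
        by_contra hcon
        push Not at hcon
        have hpre : IsPreconnected (segment ℝ y y') := (convex_segment y y').isPreconnected
        obtain ⟨x, hx, hx1, hx2⟩ := hpre _ _ isOpen_ball isOpen_ball
          (fun w hw => or_iff_not_imp_left.2 fun hn => hcon w hw hn)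
          ⟨y, left_mem_segment ℝ y y', hi⟩ ⟨y', right_mem_segment ℝ y y', hj⟩
        exact disjoint_left.1 (H.disj i j hji.symm) hx1 hx2
      have e1 : T.toFun y = nb (c i) (ρ i) (a i) y := H.eq i y (ball_subset_closedBall hi)
      have e2 : T.toFun y' = nb (c j) (ρ j) (a j) y' := H.eq j y' (ball_subset_closedBall hj)
      rw [mem_ball, dist_eq_norm, not_lt] at hwi hwj
      have f1 := h i y w
      have f2 := h j w y'
      rw [nb_of_ge (a := a i) hwi] at f1
      rw [nb_of_ge (a := a j) hwj] at f2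
      rw [e1, e2, ← hN' y y' w hw]
      exact (hN _ w _).trans (add_le_add f1 f2)
    · push Not at h2
      rw [H.eq i y (ball_subset_closedBall hi), H.eq_nb (i := i) fun j hj hj' => h2 j hj hj']
      exact h i y y'
  · push Not at h1
    rw [(H.off y h1).1]
    by_cases h2 : ∃ j, y' ∈ ball (c j) (2 * ρ j)
    · obtain ⟨j, hj⟩ := h2
      rw [H.eq j y' (ball_subset_closedBall hj)]
      have h3 := h j y y'
      have h4 := h1 j
      rw [mem_ball, dist_eq_norm, not_lt] at h4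
      rwa [nb_of_ge (a := a j) h4] at h3
    · push Not at h2
      rw [(H.off y' h2).1]
      exact h0 y y'

/-- additivity of a seminorm along segments -/
theorem add_segment {N : V → ℝ} (hN : ∀ (t : ℝ) v, N (t • v) = |t| * N v) {y y' w : V}
    (hw : w ∈ segment ℝ y y') : N (y - w) + N (w - y') = N (y - y') := by
  rw [segment_eq_image'] at hw
  obtain ⟨t, ht, rfl⟩ := hw
  have e1 : y - (y + t • (y' - y)) = t • (y - y') := by module
  have e2 : y + t • (y' - y) - y' = (1 - t) • (y - y') := by module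
  rw [e1, e2, hN, hN, abs_of_nonneg ht.1, abs_of_nonneg (by linarith [ht.2])]
  ring

/-- the collapse is `2`-Lipschitz for the sup norm -/
theorem lip (H : IsNeck c ρ a T) (y y' : V) : ‖T.toFun y - T.toFun y'‖ ≤ 2 * ‖y - y'‖ := by
  refine H.le_of_add (N := fun x y => ‖x - y‖) (N' := fun x y => 2 * ‖x - y‖)
    (fun x y z => norm_sub_le_norm_sub_add_norm_sub x y z) (fun y y' w hw => ?_)
    (fun y y' => by have := norm_nonneg (y - y'); linarith)
    (fun i y y' => nb_lip (H.apos i).le (H.a1 i) y y') y y'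
  have := add_segment (N := fun v => ‖v‖) (fun t v => by rw [norm_smul, Real.norm_eq_abs]) hw
  linarith

/-- the collapse is `3`-Lipschitz for the Euclidean norm -/
theorem lip_euc (H : IsNeck c ρ a T) (y y' : V) :
    euc (T.toFun y - T.toFun y') ≤ 3 * euc (y - y') := by
  refine H.le_of_add (N := fun x y => euc (x - y)) (N' := fun x y => 3 * euc (x - y))
    (fun x y z => ?_) (fun y y' w hw => ?_)
    (fun y y' => by have := euc_nonneg (y - y'); linarith)
    (fun i y y' => nb_lip_euc (H.apos i).le (H.a1 i) y y') y y'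
  · have := euc_add_le (x - y) (y - z)
    rwa [sub_add_sub_cancel] at this
  · have := add_segment (N := fun v => euc v) (fun t v => euc_smul t v) hw
    linarith

/-- the cubes are disjoint -/
theorem disj_small (H : IsNeck c ρ a T) {i j : ι} (hij : i ≠ j) :
    Disjoint (closedBall (c i) (ρ i)) (closedBall (c j) (ρ j)) := by
  have h1 : ∀ k, closedBall (c k) (ρ k) ⊆ ball (c k) (2 * ρ k) := fun k =>
    closedBall_subset_ball (by linarith [H.pos k])
  exact (H.disj i j hij).mono (h1 i) (h1 j)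

/-- a compact set meets finitely many cubes -/
theorem finite_of_compact (H : IsNeck c ρ a T) {K : Set V} (hK : IsCompact K) (hKΛ : K ⊆ Λ) :
    {i | (closedBall (c i) (ρ i) ∩ K).Nonempty}.Finite := by
  choose! U hU hf using H.fin
  obtain ⟨t, ht, hcov⟩ := hK.elim_nhds_subcover U (fun x hx => hU x (hKΛ hx))
  refine Set.Finite.subset (Set.Finite.biUnion (t.finite_toSet) fun x hx =>
    hf x (hKΛ (ht x hx))) fun i hi => ?_
  obtain ⟨y, hy1, hy2⟩ := hi
  obtain ⟨x, hx, hyx⟩ := mem_iUnion₂.1 (hcov hy2)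
  refine mem_iUnion₂.2 ⟨x, hx, y, closedBall_subset_closedBall ?_ hy1, hyx⟩
  linarith [H.pos i]

variable {γ γ' : ℝ → V} {s t a₀ : ℝ}

/-- **The variation of a collapsed curve**, sup norm. -/
theorem var_le (H : IsNeck c ρ a T) (hγ : ContinuousOn γ (Icc s t))
    (hγ' : ContinuousOn γ' (Icc s t)) (hm : MapsTo γ' (Icc s t) Λ)
    (h : ∀ u ∈ Icc s t, γ' u = γ u ∨ ∃ i, γ' u ∈ closedBall (c i) (ρ i))
    (ha₀ : ∀ i, (∃ u ∈ Icc s t, γ' u ∈ closedBall (c i) (ρ i)) → a i ≤ a₀) :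
    var (fun u => T.toFun (γ' u)) (Icc s t) ≤
      2 * var γ (Icc s t) + ENNReal.ofReal a₀ * var γ' (Icc s t) := by
  refine eVariationOn_two_part (Φ := id) (τ := T.toFun) (B := fun i => closedBall (c i) (ρ i))
    hγ hγ' (fun x y => ?_) (fun i => isClosed_closedBall) (fun i j hij => H.disj_small hij) ?_
    (fun i hi x hx y hy => ?_) h
  · show edist (T.toFun x) (T.toFun y) ≤ 2 * edist x y
    rw [edist_dist, dist_eq_norm, edist_dist, dist_eq_norm,
      show (2:ℝ≥0∞) = ENNReal.ofReal 2 by simp, ← ENNReal.ofReal_mul (by norm_num)]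
    exact ENNReal.ofReal_le_ofReal (H.lip x y)
  · refine (H.finite_of_compact (isCompact_Icc.image_of_continuousOn hγ')
      hm.image_subset).subset ?_
    rintro i ⟨u, hu, hui⟩
    exact ⟨γ' u, hui, u, hu, rfl⟩
  · show edist (T.toFun x) (T.toFun y) ≤ ENNReal.ofReal a₀ * edist x y
    have h1 := ha₀ i hi
    have h2 := H.apos i
    rw [H.eq_small hx, H.eq_small hy, edist_dist, dist_eq_norm, edist_dist, dist_eq_norm,
      ← ENNReal.ofReal_mul (by linarith)]
    refine ENNReal.ofReal_le_ofReal ?_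
    rw [add_sub_add_left_eq_sub, ← smul_sub, sub_sub_sub_cancel_right, norm_smul,
      Real.norm_of_nonneg h2.le]
    exact mul_le_mul_of_nonneg_right h1 (norm_nonneg _)

/-- **The length of a collapsed curve**, Euclidean norm. -/
theorem len_le (H : IsNeck c ρ a T) (hγ : ContinuousOn γ (Icc s t))
    (hγ' : ContinuousOn γ' (Icc s t)) (hm : MapsTo γ' (Icc s t) Λ)
    (h : ∀ u ∈ Icc s t, γ' u = γ u ∨ ∃ i, γ' u ∈ closedBall (c i) (ρ i))
    (ha₀ : ∀ i, (∃ u ∈ Icc s t, γ' u ∈ closedBall (c i) (ρ i)) → a i ≤ a₀) :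
    len (fun u => T.toFun (γ' u)) (Icc s t) ≤
      3 * len γ (Icc s t) + ENNReal.ofReal a₀ * len γ' (Icc s t) := by
  refine eVariationOn_two_part (Φ := fun v : V => (WithLp.toLp 2 v : EuclideanSpace ℝ (Fin 3)))
    (τ := T.toFun) (B := fun i => closedBall (c i) (ρ i))
    hγ hγ' (fun x y => ?_) (fun i => isClosed_closedBall) (fun i j hij => H.disj_small hij) ?_
    (fun i hi x hx y hy => ?_) h
  · rw [edist_toLp, edist_toLp,
      show (3:ℝ≥0∞) = ENNReal.ofReal 3 by simp, ← ENNReal.ofReal_mul (by norm_num)]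
    exact ENNReal.ofReal_le_ofReal (H.lip_euc x y)
  · refine (H.finite_of_compact (isCompact_Icc.image_of_continuousOn hγ')
      hm.image_subset).subset ?_
    rintro i ⟨u, hu, hui⟩
    exact ⟨γ' u, hui, u, hu, rfl⟩
  · have h1 := ha₀ i hi
    have h2 := H.apos i
    rw [H.eq_small hx, H.eq_small hy, edist_toLp, edist_toLp,
      ← ENNReal.ofReal_mul (by linarith)]
    refine ENNReal.ofReal_le_ofReal ?_
    rw [add_sub_add_left_eq_sub, ← smul_sub, sub_sub_sub_cancel_right, euc_smul,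
      abs_of_pos h2]
    exact mul_le_mul_of_nonneg_right h1 (euc_nonneg _)

/-- a connected set is mapped into one cube, or every point which is mapped to a cube has an
unmoved partner there -/
theorem exists_partner (H : IsNeck c ρ a T) {E : Type*} [TopologicalSpace E] {F : Set E}
    {g g' : E → V} (hF : IsPreconnected F) (hg : ContinuousOn g F) (hg' : ContinuousOn g' F)
    {K : Set V} (hKΛ : K ⊆ Λ) (hK : IsCompact K) (hm : MapsTo g' F K)
    (h : ∀ x ∈ F, g' x = g x ∨ ∃ i, g' x ∈ closedBall (c i) (ρ i)) {i : ι} {x : E} (hx : x ∈ F)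
    (hxi : g' x ∈ closedBall (c i) (ρ i)) :
    MapsTo g' F (closedBall (c i) (ρ i)) ∨
      ∃ y ∈ F, g' y = g y ∧ g' y ∈ closedBall (c i) (ρ i) := by
  set S : Set ι := {j | (closedBall (c j) (ρ j) ∩ K).Nonempty} with hS
  have hSf : S.Finite := H.finite_of_compact hK hKΛ
  have hpre : IsPreconnected ((fun z => (g' z, g z)) '' F) := hF.image _ (hg'.prodMk hg)
  set t : Set (V × V) := {p | p.1 ∈ closedBall (c i) (ρ i)} with ht
  set t' : Set (V × V) := {p | p.1 = p.2} ∪ {p | p.1 ∈ ⋃ j ∈ S \ {i}, closedBall (c j) (ρ j)}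
    with ht'
  have htc : IsClosed t := isClosed_closedBall.preimage continuous_fst
  have htc' : IsClosed t' := by
    refine (isClosed_eq continuous_fst continuous_snd).union ?_
    exact ((hSf.subset sdiff_subset).isClosed_biUnion fun j _ =>
      isClosed_closedBall).preimage continuous_fst
  have hcov : (fun z => (g' z, g z)) '' F ⊆ t ∪ t' := by
    rintro _ ⟨z, hz, rfl⟩
    rcases h z hz with h1 | ⟨j, hj⟩
    · exact Or.inr (Or.inl h1)
    · by_cases hji : j = i
      · subst hji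
        exact Or.inl hj
      · exact Or.inr (Or.inr (mem_iUnion₂.2 ⟨j, ⟨⟨g' z, hj, hm hz⟩, hji⟩, hj⟩))
  by_cases hne : ((fun z => (g' z, g z)) '' F ∩ t').Nonempty
  · right
    obtain ⟨_, ⟨z, hz, rfl⟩, hz1, hz2⟩ := isPreconnected_closed_iff.1 hpre t t' htc htc' hcov
      ⟨_, ⟨x, hx, rfl⟩, hxi⟩ hne
    rcases hz2 with hz2 | hz2
    · exact ⟨z, hz, hz2, hz1⟩
    · obtain ⟨j, hj, hz3⟩ := mem_iUnion₂.1 hz2
      exact absurd hz3 (fun hz3 => disjoint_left.1 (H.disj_small (Ne.symm hj.2)) hz1 hz3)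
  · left
    intro z hz
    rcases hcov ⟨z, hz, rfl⟩ with h1 | h1
    · exact h1
    · exact absurd ⟨_, ⟨z, hz, rfl⟩, h1⟩ hne

/-- two points of a cube are close after the collapse -/
theorem small_small (H : IsNeck c ρ a T) {i : ι} {y y' : V} (hy : y ∈ closedBall (c i) (ρ i))
    (hy' : y' ∈ closedBall (c i) (ρ i)) : ‖T.toFun y - T.toFun y'‖ ≤ 2 * (a i * ρ i) := by
  have h1 := H.mem_small hy
  have h2 := H.mem_small hy'
  rw [mem_closedBall, dist_eq_norm] at h1 h2
  calc ‖T.toFun y - T.toFun y'‖ ≤ ‖T.toFun y - c i‖ + ‖c i - T.toFun y'‖ :=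
        norm_sub_le_norm_sub_add_norm_sub _ _ _
    _ ≤ _ := by rw [norm_sub_rev (c i)]; linarith

/-- **Oscillation of the collapsed map** on a connected set. -/
theorem osc_le (H : IsNeck c ρ a T) {E : Type*} [TopologicalSpace E] {F : Set E}
    {g g' : E → V} (hF : IsPreconnected F) (hg : ContinuousOn g F) (hg' : ContinuousOn g' F)
    {K : Set V} (hKΛ : K ⊆ Λ) (hK : IsCompact K) (hm : MapsTo g' F K)
    (h : ∀ x ∈ F, g' x = g x ∨ ∃ i, g' x ∈ closedBall (c i) (ρ i)) {D r : ℝ}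
    (hD : ∀ x ∈ F, ∀ y ∈ F, ‖g x - g y‖ ≤ D) (hr0 : 0 ≤ r)
    (hr : ∀ i, (∃ x ∈ F, g' x ∈ closedBall (c i) (ρ i)) → ρ i ≤ r) {x y : E} (hx : x ∈ F)
    (hy : y ∈ F) : ‖T.toFun (g' x) - T.toFun (g' y)‖ ≤ 2 * D + 4 * r := by
  have hD0 : 0 ≤ D := (norm_nonneg _).trans (hD x hx x hx)
  have har : ∀ i, (∃ x ∈ F, g' x ∈ closedBall (c i) (ρ i)) → a i * ρ i ≤ r := fun i hi => by
    have h1 := hr i hi
    have h2 := H.pos i
    have h3 := H.a1 i
    nlinarith
  by_cases hall : ∃ i, MapsTo g' F (closedBall (c i) (ρ i))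
  · obtain ⟨i, hi⟩ := hall
    have h1 := H.small_small (hi hx) (hi hy)
    have h2 := har i ⟨x, hx, hi hx⟩
    linarith
  · push Not at hall
    have hp : ∀ z ∈ F, ∃ w ∈ F, g' w = g w ∧ ‖T.toFun (g' z) - T.toFun (g' w)‖ ≤ 2 * r := by
      intro z hz
      rcases h z hz with h1 | ⟨i, hi⟩
      · exact ⟨z, hz, h1, by rw [sub_self, norm_zero]; linarith⟩
      · rcases H.exists_partner hF hg hg' hKΛ hK hm h hz hi with h2 | ⟨w, hw, h3, h4⟩
        · exact absurd h2 (hall i)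
        · refine ⟨w, hw, h3, (H.small_small hi h4).trans ?_⟩
          have := har i ⟨z, hz, hi⟩
          linarith
    obtain ⟨w, hw, e1, e2⟩ := hp x hx
    obtain ⟨w', hw', e3, e4⟩ := hp y hy
    have e5 := H.lip (g' w) (g' w')
    rw [e1, e3] at e5
    have e6 := hD w hw w' hw'
    rw [e1] at e2
    rw [e3] at e4
    rw [norm_sub_rev] at e4
    calc ‖T.toFun (g' x) - T.toFun (g' y)‖
        ≤ ‖T.toFun (g' x) - T.toFun (g w)‖ + ‖T.toFun (g w) - T.toFun (g' y)‖ :=
          norm_sub_le_norm_sub_add_norm_sub _ _ _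
      _ ≤ ‖T.toFun (g' x) - T.toFun (g w)‖ + (‖T.toFun (g w) - T.toFun (g w')‖ +
          ‖T.toFun (g w') - T.toFun (g' y)‖) := by
          gcongr
          exact norm_sub_le_norm_sub_add_norm_sub _ _ _
      _ ≤ _ := by linarith

/-- the collapse moves points by at most the radius of the cube -/
theorem dist_self_le (H : IsNeck c ρ a T) {i : ι} {y : V} (hy : y ∈ closedBall (c i) (2 * ρ i)) :
    ‖T.toFun y - y‖ ≤ ρ i := by
  rw [H.eq i y hy]
  have hρ := H.pos i
  have ha := H.apos i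
  have ha1 := H.a1 i
  rw [pi_norm_le_iff_of_nonneg hρ.le]
  intro k
  rw [Pi.sub_apply, Real.norm_eq_abs]
  show |c i k + qq (a i) (ss (ρ i) (a i) ‖y - c i‖) (y k - c i k) - y k| ≤ ρ i
  have h1 : ss (ρ i) (a i) ‖y - c i‖ ≤ ρ i := by
    unfold ss
    have h2 : max 0 (min (ρ i) (2 * ρ i - ‖y - c i‖)) ≤ ρ i :=
      max_le hρ.le (min_le_left _ _)
    have h3 : 0 ≤ max 0 (min (ρ i) (2 * ρ i - ‖y - c i‖)) := le_max_left _ _
    nlinarith
  have h0 := ss_nonneg (ρ := ρ i) ha1 ‖y - c i‖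
  have h4 : qq (a i) (ss (ρ i) (a i) ‖y - c i‖) (y k - c i k) ≤
      (y k - c i k) + ss (ρ i) (a i) ‖y - c i‖ :=
    max_le (min_le_right _ _) (by linarith)
  have h5 : (y k - c i k) - ss (ρ i) (a i) ‖y - c i‖ ≤
      qq (a i) (ss (ρ i) (a i) ‖y - c i‖) (y k - c i k) := le_max_right _ _
  rw [abs_le]
  exact ⟨by linarith, by linarith⟩

/-- everywhere: moved by at most `r` if all radii are at most `r` -/
theorem dist_self_le' (H : IsNeck c ρ a T) {r : ℝ} (hr0 : 0 ≤ r) {y : V}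
    (hr : ∀ i, y ∈ closedBall (c i) (2 * ρ i) → ρ i ≤ r) : ‖T.toFun y - y‖ ≤ r := by
  by_cases h : ∃ i, y ∈ closedBall (c i) (2 * ρ i)
  · obtain ⟨i, hi⟩ := h
    exact (H.dist_self_le hi).trans (hr i hi)
  · push Not at h
    rw [(H.off y fun i hi => h i (ball_subset_closedBall hi)).1, sub_self, norm_zero]
    exact hr0

end IsNeck

/-! ### The ratios are chosen last -/

/-- **[P2f] Collapse of the neck cubes.**  `g` is the old map, `g'` the new one: on every curve of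
the family `q` (locally finite in `Ω`) every point is unmoved or is mapped by `g'` to one of the
neck cubes.  Then the ratios can be chosen so small that the lengths of all the curves of the family
increase by a factor of at most `2` (sup norm), `3` (Euclidean norm), up to an error `ε`. -/
theorem exists_collapse {Ω : Set V} (hΛ : IsOpen Λ)
    (W : Cubes Λ c (fun i => 2 * ρ i)) (g' : ConHomeo Ω Λ) {g : V → V} (hg : ContinuousOn g Ω)
    {E : Type*} {q : E → ℝ → V} (hqc : ∀ e, ContinuousOn (q e) (Icc 0 1))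
    (hq : ∀ e, ConicalOn (q e) (Icc 0 1)) (hqm : ∀ e, MapsTo (q e) (Icc 0 1) Ω)
    (hqf : ∀ K ⊆ Ω, IsCompact K → {e | ∃ t ∈ Icc (0:ℝ) 1, q e t ∈ K}.Finite)
    (h : ∀ e, ∀ t ∈ Icc (0:ℝ) 1, g'.toFun (q e t) = g (q e t) ∨
      ∃ i, g'.toFun (q e t) ∈ closedBall (c i) (ρ i))
    {ε : E → ℝ} (hε : ∀ e, 0 < ε e) {α : ι → ℝ} (hα : ∀ i, 0 < α i) :
    ∃ a : ι → ℝ, (∀ i, 0 < a i ∧ a i ≤ 1 ∧ a i ≤ α i) ∧ ∃ T : ConHomeo Λ Λ, IsNeck c ρ a T ∧
      ∀ e, var (fun t => T.toFun (g'.toFun (q e t))) (Icc 0 1) ≤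
          2 * var (fun t => g (q e t)) (Icc 0 1) + ENNReal.ofReal (ε e) ∧
        len (fun t => T.toFun (g'.toFun (q e t))) (Icc 0 1) ≤
          3 * len (fun t => g (q e t)) (Icc 0 1) + ENNReal.ofReal (ε e) := by
  classical
  -- lengths of the new curves
  have hlen : ∀ e, len (fun t => g'.toFun (q e t)) (Icc 0 1) < ⊤ := fun e => by
    have h1 : ConicalOn (fun t => g'.toFun (q e t)) (Icc 0 1) :=
      g'.conical.comp (hq e) (hqm e) (hqc e)
    exact (len_le_var _ _).trans_lt (ENNReal.mul_lt_top (by norm_num)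
      (conical_var_lt_top zero_le_one h1))
  set ℓ : E → ℝ := fun e => (len (fun t => g'.toFun (q e t)) (Icc 0 1)).toReal with hℓ
  have hℓ0 : ∀ e, 0 ≤ ℓ e := fun e => ENNReal.toReal_nonneg
  -- the curves which meet a cube
  have hfin : ∀ i, {e | ∃ t ∈ Icc (0:ℝ) 1, g'.toFun (q e t) ∈ closedBall (c i) (ρ i)}.Finite := by
    intro i
    have hsub : closedBall (c i) (ρ i) ⊆ Λ :=
      (closedBall_subset_closedBall (by have := W.pos i; linarith)).trans (W.sub i)
    refine (hqf (g'.invFun '' closedBall (c i) (ρ i)) ?_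
      ((isCompact_closedBall _ _).image_of_continuousOn (g'.cont_inv.mono hsub))).subset ?_
    · rintro _ ⟨y, hy, rfl⟩
      exact g'.mapsTo_inv (hsub hy)
    · rintro e ⟨t, ht, hti⟩
      exact ⟨t, ht, _, hti, g'.left_inv (hqm e ht)⟩
  set b : ι → ℝ := fun i => ∏ e ∈ (hfin i).toFinset, min 1 (ε e / (ℓ e + 1)) with hb
  have hb0 : ∀ e, 0 < min 1 (ε e / (ℓ e + 1)) := fun e =>
    lt_min one_pos (div_pos (hε e) (by linarith [hℓ0 e]))
  have hbpos : ∀ i, 0 < b i := fun i => Finset.prod_pos fun e _ => hb0 e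
  have hble : ∀ i, ∀ e ∈ (hfin i).toFinset, b i ≤ ε e / (ℓ e + 1) := fun i e he => by
    refine le_trans ?_ (min_le_right 1 _)
    show ∏ e ∈ (hfin i).toFinset, min 1 (ε e / (ℓ e + 1)) ≤ _
    rw [← Finset.mul_prod_erase _ _ he]
    exact mul_le_of_le_one_right (hb0 e).le
      (Finset.prod_le_one (fun e _ => (hb0 e).le) fun e _ => min_le_left _ _)
  refine ⟨fun i => min (b i) (min 1 (α i)), fun i => ⟨lt_min (hbpos i) (lt_min one_pos (hα i)),
    (min_le_right _ _).trans (min_le_left _ _), (min_le_right _ _).trans (min_le_right _ _)⟩, ?_⟩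
  obtain ⟨T, H⟩ := exists_isNeck (ρ := ρ) hΛ W (a := fun i => min (b i) (min 1 (α i)))
    (fun i => lt_min (hbpos i) (lt_min one_pos (hα i)))
    (fun i => (min_le_right _ _).trans (min_le_left _ _))
  refine ⟨T, H, fun e => ?_⟩
  have hγ : ContinuousOn (fun t => g (q e t)) (Icc 0 1) := hg.comp (hqc e) (hqm e)
  have hγ' : ContinuousOn (fun t => g'.toFun (q e t)) (Icc 0 1) := g'.cont.comp (hqc e) (hqm e)
  have hm : MapsTo (fun t => g'.toFun (q e t)) (Icc 0 1) Λ := fun t ht => g'.mapsTo (hqm e ht)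
  have ha₀ : ∀ i, (∃ t ∈ Icc (0:ℝ) 1, g'.toFun (q e t) ∈ closedBall (c i) (ρ i)) →
      min (b i) (min 1 (α i)) ≤ ε e / (ℓ e + 1) := fun i hi =>
    (min_le_left _ _).trans (hble i e (by rw [Set.Finite.mem_toFinset]; exact hi))
  have hd0 : 0 ≤ ε e / (ℓ e + 1) := div_nonneg (hε e).le (by linarith [hℓ0 e])
  have hlast : ENNReal.ofReal (ε e / (ℓ e + 1)) * len (fun t => g'.toFun (q e t)) (Icc 0 1) ≤
      ENNReal.ofReal (ε e) := by
    rw [← ENNReal.ofReal_toReal (hlen e).ne, ← ENNReal.ofReal_mul hd0]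
    refine ENNReal.ofReal_le_ofReal ?_
    have h1 := hℓ0 e
    show ε e / (ℓ e + 1) * ℓ e ≤ ε e
    rw [div_mul_eq_mul_div, div_le_iff₀ (by linarith)]
    have := hε e
    nlinarith
  refine ⟨(H.var_le hγ hγ' hm (h e) ha₀).trans (add_le_add le_rfl ?_),
    (H.len_le hγ hγ' hm (h e) ha₀).trans (add_le_add le_rfl hlast)⟩
  refine le_trans ?_ hlast
  gcongr
  exact Vale.Agent.P073.H471.var_le_len _ _

end Vale.Agent.P073.H726.NB
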