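import Vale.Agent.P073.H726.NeckBall

/-!
# P073, [P2f]: lengths and oscillations after any Lipschitz collapse of the neck cubes
-/

open Set Metric Topology Filter
open scoped ENNReal NNReal

namespace Vale.Agent.P073.H726.NL

open _root_.P073 _root_.P073.Net
open Vale.Agent.P073.St (V euc)
open Vale.Agent.P073.H726.NB (eVariationOn_two_part)

variable {J : Type*} {Ω Λ : Set V} {b : J → V} {ρ : J → ℝ} {T : V → V} {L a₀ : ℝ} {γ γ' : ℝ → V}
  {s t : ℝ}

/-- finitely many cubes: the variation after a Lipschitz collapse -/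
theorem var_le [Finite J] (hd : ∀ i j, i ≠ j → Disjoint (closedBall (b i) (ρ i))
      (closedBall (b j) (ρ j)))
    (hL : 0 ≤ L) (hT : ∀ x y, ‖T x - T y‖ ≤ L * ‖x - y‖) (ha₀ : 0 ≤ a₀)
    (hTB : ∀ j, ∀ x ∈ closedBall (b j) (ρ j), ∀ y ∈ closedBall (b j) (ρ j),
      ‖T x - T y‖ ≤ a₀ * ‖x - y‖)
    (hγ : ContinuousOn γ (Icc s t)) (hγ' : ContinuousOn γ' (Icc s t))
    (h : ∀ u ∈ Icc s t, γ' u = γ u ∨ ∃ j, γ' u ∈ closedBall (b j) (ρ j)) :
    var (fun u => T (γ' u)) (Icc s t) ≤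
      ENNReal.ofReal L * var γ (Icc s t) + ENNReal.ofReal a₀ * var γ' (Icc s t) := by
  refine eVariationOn_two_part (Φ := id) (τ := T) (B := fun j => closedBall (b j) (ρ j))
    hγ hγ' (fun x y => ?_) (fun i => isClosed_closedBall) hd (toFinite _)
    (fun j _ x hx y hy => ?_) h
  · show edist (T x) (T y) ≤ ENNReal.ofReal L * edist x y
    rw [edist_dist, dist_eq_norm, edist_dist, dist_eq_norm, ← ENNReal.ofReal_mul hL]
    exact ENNReal.ofReal_le_ofReal (hT x y)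
  · show edist (T x) (T y) ≤ ENNReal.ofReal a₀ * edist x y
    rw [edist_dist, dist_eq_norm, edist_dist, dist_eq_norm, ← ENNReal.ofReal_mul ha₀]
    exact ENNReal.ofReal_le_ofReal (hTB j x hx y hy)

/-- finitely many cubes: the Euclidean length after a Lipschitz collapse -/
theorem len_le [Finite J] (hd : ∀ i j, i ≠ j → Disjoint (closedBall (b i) (ρ i))
      (closedBall (b j) (ρ j)))
    (hL : 0 ≤ L) (hT : ∀ x y, ‖T x - T y‖ ≤ L * ‖x - y‖) (ha₀ : 0 ≤ a₀)
    (hTB : ∀ j, ∀ x ∈ closedBall (b j) (ρ j), ∀ y ∈ closedBall (b j) (ρ j),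
      ‖T x - T y‖ ≤ a₀ * ‖x - y‖)
    (hγ : ContinuousOn γ (Icc s t)) (hγ' : ContinuousOn γ' (Icc s t))
    (h : ∀ u ∈ Icc s t, γ' u = γ u ∨ ∃ j, γ' u ∈ closedBall (b j) (ρ j)) :
    len (fun u => T (γ' u)) (Icc s t) ≤
      ENNReal.ofReal (2 * L) * len γ (Icc s t) +
        ENNReal.ofReal (2 * a₀) * len γ' (Icc s t) := by
  have key : ∀ {K : ℝ} {x y : V}, 0 ≤ K → ‖T x - T y‖ ≤ K * ‖x - y‖ →
      edist (WithLp.toLp 2 (T x) : EuclideanSpace ℝ (Fin 3)) (WithLp.toLp 2 (T y)) ≤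
        ENNReal.ofReal (2 * K) * edist (WithLp.toLp 2 x : EuclideanSpace ℝ (Fin 3))
          (WithLp.toLp 2 y) := by
    intro K x y hK hxy
    rw [edist_toLp, edist_toLp, ← ENNReal.ofReal_mul (by positivity)]
    refine ENNReal.ofReal_le_ofReal ?_
    have h1 := euc_le (T x - T y)
    have h2 := norm_le_euc (x - y)
    nlinarith
  exact eVariationOn_two_part (Φ := fun v : V => (WithLp.toLp 2 v : EuclideanSpace ℝ (Fin 3)))
    (τ := T) (B := fun j => closedBall (b j) (ρ j))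
    hγ hγ' (fun x y => key hL (hT x y)) (fun i => isClosed_closedBall) hd (toFinite _)
    (fun j _ x hx y hy => key ha₀ (hTB j x hx y hy)) h

/-- a connected set is mapped into one cube, or every point which is mapped to a cube has an
unmoved partner there -/
theorem exists_partner [Finite J] (hd : ∀ i j, i ≠ j → Disjoint (closedBall (b i) (ρ i))
      (closedBall (b j) (ρ j))) {E : Type*} [TopologicalSpace E] {F : Set E}
    {g g' : E → V} (hF : IsPreconnected F) (hg : ContinuousOn g F) (hg' : ContinuousOn g' F)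
    (h : ∀ x ∈ F, g' x = g x ∨ ∃ i, g' x ∈ closedBall (b i) (ρ i)) {i : J} {x : E} (hx : x ∈ F)
    (hxi : g' x ∈ closedBall (b i) (ρ i)) :
    MapsTo g' F (closedBall (b i) (ρ i)) ∨
      ∃ y ∈ F, g' y = g y ∧ g' y ∈ closedBall (b i) (ρ i) := by
  have hpre : IsPreconnected ((fun z => (g' z, g z)) '' F) := hF.image _ (hg'.prodMk hg)
  set t : Set (V × V) := {p | p.1 ∈ closedBall (b i) (ρ i)} with ht
  set t' : Set (V × V) := {p | p.1 = p.2} ∪ {p | p.1 ∈ ⋃ j ∈ ({i}ᶜ : Set J), closedBall (b j) (ρ j)}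
    with ht'
  have htc : IsClosed t := isClosed_closedBall.preimage continuous_fst
  have htc' : IsClosed t' := by
    refine (isClosed_eq continuous_fst continuous_snd).union ?_
    exact ((toFinite ({i}ᶜ : Set J)).isClosed_biUnion fun j _ =>
      isClosed_closedBall).preimage continuous_fst
  have hcov : (fun z => (g' z, g z)) '' F ⊆ t ∪ t' := by
    rintro _ ⟨z, hz, rfl⟩
    rcases h z hz with h1 | ⟨j, hj⟩
    · exact Or.inr (Or.inl h1)
    · by_cases hji : j = i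
      · subst hji
        exact Or.inl hj
      · exact Or.inr (Or.inr (mem_iUnion₂.2 ⟨j, hji, hj⟩))
  by_cases hne : ((fun z => (g' z, g z)) '' F ∩ t').Nonempty
  · right
    obtain ⟨_, ⟨z, hz, rfl⟩, hz1, hz2⟩ := isPreconnected_closed_iff.1 hpre t t' htc htc' hcov
      ⟨_, ⟨x, hx, rfl⟩, hxi⟩ hne
    rcases hz2 with hz2 | hz2
    · exact ⟨z, hz, hz2, hz1⟩
    · obtain ⟨j, hj, hz3⟩ := mem_iUnion₂.1 hz2
      exact absurd hz3 (fun hz3 => disjoint_left.1 (hd i j (Ne.symm hj)) hz1 hz3)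
  · left
    intro z hz
    rcases hcov ⟨z, hz, rfl⟩ with h1 | h1
    · exact h1
    · exact absurd ⟨_, ⟨z, hz, rfl⟩, h1⟩ hne

/-- **Oscillation on a connected set**, after the retractions (no collapse). -/
theorem osc_le [Finite J] (hd : ∀ i j, i ≠ j → Disjoint (closedBall (b i) (ρ i))
      (closedBall (b j) (ρ j))) {E : Type*} [TopologicalSpace E] {F : Set E}
    {g g' : E → V} (hF : IsPreconnected F) (hg : ContinuousOn g F) (hg' : ContinuousOn g' F)
    (h : ∀ x ∈ F, g' x = g x ∨ ∃ i, g' x ∈ closedBall (b i) (ρ i)) {D r : ℝ}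
    (hD : ∀ x ∈ F, ∀ y ∈ F, ‖g x - g y‖ ≤ D) (hr0 : 0 ≤ r)
    (hr : ∀ i, (∃ x ∈ F, g' x ∈ closedBall (b i) (ρ i)) → ρ i ≤ r) {x y : E} (hx : x ∈ F)
    (hy : y ∈ F) : ‖g' x - g' y‖ ≤ D + 4 * r := by
  have hD0 : 0 ≤ D := (norm_nonneg _).trans (hD x hx x hx)
  have hball : ∀ {i : J} {u v : V}, u ∈ closedBall (b i) (ρ i) → v ∈ closedBall (b i) (ρ i) →
      ‖u - v‖ ≤ 2 * ρ i := by
    intro i u v hu hv
    rw [mem_closedBall, dist_eq_norm] at hu hv
    calc ‖u - v‖ ≤ ‖u - b i‖ + ‖b i - v‖ := norm_sub_le_norm_sub_add_norm_sub _ _ _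
      _ ≤ _ := by rw [norm_sub_rev (b i)]; linarith
  by_cases hall : ∃ i, MapsTo g' F (closedBall (b i) (ρ i))
  · obtain ⟨i, hi⟩ := hall
    have h1 := hball (hi hx) (hi hy)
    have h2 := hr i ⟨x, hx, hi hx⟩
    linarith
  · push Not at hall
    have hp : ∀ z ∈ F, ∃ w ∈ F, g' w = g w ∧ ‖g' z - g' w‖ ≤ 2 * r := by
      intro z hz
      rcases h z hz with h1 | ⟨i, hi⟩
      · exact ⟨z, hz, h1, by rw [sub_self, norm_zero]; linarith⟩
      · rcases exists_partner hd hF hg hg' h hz hi with h2 | ⟨w, hw, h3, h4⟩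
        · exact absurd h2 (hall i)
        · refine ⟨w, hw, h3, (hball hi h4).trans ?_⟩
          have := hr i ⟨z, hz, hi⟩
          linarith
    obtain ⟨w, hw, e1, e2⟩ := hp x hx
    obtain ⟨w', hw', e3, e4⟩ := hp y hy
    have e6 := hD w hw w' hw'
    rw [← e1, ← e3] at e6
    rw [norm_sub_rev] at e4
    calc ‖g' x - g' y‖ ≤ ‖g' x - g' w‖ + ‖g' w - g' y‖ := norm_sub_le_norm_sub_add_norm_sub _ _ _
      _ ≤ ‖g' x - g' w‖ + (‖g' w - g' w'‖ + ‖g' w' - g' y‖) := by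
          gcongr
          exact norm_sub_le_norm_sub_add_norm_sub _ _ _
      _ ≤ _ := by linarith

/-- **Static displacement bound.**  `x` is in a connected set `F` off the open cubes; `F` contains a
point which is not in the cube of `h' x`.  Then `h' x` is close to `h x`. -/
theorem near_of_partner [Finite J] (hd : ∀ i j, i ≠ j → Disjoint (closedBall (b i) (ρ i))
      (closedBall (b j) (ρ j))) {E : Type*} [TopologicalSpace E] {F : Set E}
    {g g' : E → V} (hF : IsPreconnected F) (hg : ContinuousOn g F) (hg' : ContinuousOn g' F)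
    (h : ∀ x ∈ F, g' x = g x ∨ ∃ i, g' x ∈ closedBall (b i) (ρ i)) {x : E} (hx : x ∈ F) {D r : ℝ}
    (hD0 : 0 ≤ D) (hr0 : 0 ≤ r) (hr : ∀ i, g' x ∈ closedBall (b i) (ρ i) → ρ i ≤ r)
    (hD : ∀ y ∈ F, ‖g x - g y‖ ≤ D)
    (hout : ∀ i, g' x ∈ closedBall (b i) (ρ i) → ∃ y ∈ F, g' y ∉ closedBall (b i) (ρ i)) :
    ‖g' x - g x‖ ≤ D + 2 * r := by
  rcases h x hx with h1 | ⟨i, hi⟩
  · rw [h1, sub_self, norm_zero]; linarith
  · rcases exists_partner hd hF hg hg' h hx hi with h2 | ⟨y, hy, h3, h4⟩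
    · obtain ⟨y, hy, hyn⟩ := hout i hi
      exact absurd (h2 hy) hyn
    · have h5 := hD y hy
      have h6 := hr i hi
      rw [mem_closedBall, dist_eq_norm] at hi h4
      calc ‖g' x - g x‖ ≤ ‖g' x - b i‖ + ‖b i - g x‖ := norm_sub_le_norm_sub_add_norm_sub _ _ _
        _ ≤ ‖g' x - b i‖ + (‖b i - g' y‖ + ‖g' y - g x‖) := by
            gcongr
            exact norm_sub_le_norm_sub_add_norm_sub _ _ _
        _ ≤ D + 2 * r := by
            have e1 : ‖b i - g' y‖ ≤ ρ i := by rw [norm_sub_rev]; exact h4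
            have e2 : ‖g' y - g x‖ ≤ D := by rw [h3, norm_sub_rev]; exact h5
            linarith

/-- **The collapse is chosen last**: the lengths of all the curves of a locally finite family. -/
theorem exists_iota [Finite J] (hd : ∀ i j, i ≠ j → Disjoint (closedBall (b i) (ρ i))
      (closedBall (b j) (ρ j))) (hB : ∀ j, closedBall (b j) (ρ j) ⊆ Λ)
    (g' : ConHomeo Ω Λ) {g : V → V} (hg : ContinuousOn g Ω)
    {E : Type*} {q : E → ℝ → V} (hqc : ∀ e, ContinuousOn (q e) (Icc 0 1))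
    (hq : ∀ e, ConicalOn (q e) (Icc 0 1)) (hqm : ∀ e, MapsTo (q e) (Icc 0 1) Ω)
    (hqf : ∀ K ⊆ Ω, IsCompact K → {e | ∃ t ∈ Icc (0:ℝ) 1, q e t ∈ K}.Finite)
    (h : ∀ e, ∀ t ∈ Icc (0:ℝ) 1, g'.toFun (q e t) = g (q e t) ∨
      ∃ i, g'.toFun (q e t) ∈ closedBall (b i) (ρ i))
    {ε : E → ℝ} (hε : ∀ e, 0 < ε e) :
    ∃ ι₀ > 0, ∀ ι, 0 ≤ ι → ι ≤ ι₀ → ∀ T : V → V, ∀ L, 0 ≤ L → (∀ x y, ‖T x - T y‖ ≤ L * ‖x - y‖) →
      (∀ j, ∀ x ∈ closedBall (b j) (ρ j), ∀ y ∈ closedBall (b j) (ρ j),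
        ‖T x - T y‖ ≤ ι * ‖x - y‖) →
      ∀ e, var (fun t => T (g'.toFun (q e t))) (Icc 0 1) ≤
          ENNReal.ofReal L * var (fun t => g (q e t)) (Icc 0 1) + ENNReal.ofReal (ε e) ∧
        len (fun t => T (g'.toFun (q e t))) (Icc 0 1) ≤
          ENNReal.ofReal (2 * L) * len (fun t => g (q e t)) (Icc 0 1) +
            ENNReal.ofReal (ε e) := by
  classical
  -- lengths of the new curves
  have hlen : ∀ e, len (fun t => g'.toFun (q e t)) (Icc 0 1) < ⊤ := fun e => by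
    have h1 : ConicalOn (fun t => g'.toFun (q e t)) (Icc 0 1) :=
      g'.conical.comp (hq e) (hqm e) (hqc e)
    exact (len_le_var _ _).trans_lt (ENNReal.mul_lt_top (by norm_num)
      (conical_var_lt_top zero_le_one h1))
  set ℓ : E → ℝ := fun e => (len (fun t => g'.toFun (q e t)) (Icc 0 1)).toReal with hℓ
  have hℓ0 : ∀ e, 0 ≤ ℓ e := fun e => ENNReal.toReal_nonneg
  -- the curves which meet a cube
  have hfin : {e | ∃ t ∈ Icc (0:ℝ) 1, ∃ i, g'.toFun (q e t) ∈ closedBall (b i) (ρ i)}.Finite := by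
    have h0 : {e | ∃ t ∈ Icc (0:ℝ) 1, ∃ i, g'.toFun (q e t) ∈ closedBall (b i) (ρ i)} ⊆
        ⋃ i, {e | ∃ t ∈ Icc (0:ℝ) 1, q e t ∈ g'.invFun '' closedBall (b i) (ρ i)} := by
      rintro e ⟨t, ht, i, hti⟩
      exact mem_iUnion.2 ⟨i, t, ht, _, hti, g'.left_inv (hqm e ht)⟩
    refine (finite_iUnion fun i => hqf (g'.invFun '' closedBall (b i) (ρ i)) ?_
      ((isCompact_closedBall _ _).image_of_continuousOn (g'.cont_inv.mono (hB i)))).subset h0
    rintro _ ⟨y, hy, rfl⟩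
    exact g'.mapsTo_inv (hB i hy)
  set δ : E → ℝ := fun e => min 1 (ε e / (2 * (ℓ e + 1))) with hδ
  have hδ0 : ∀ e, 0 < δ e := fun e =>
    lt_min one_pos (div_pos (hε e) (by linarith [hℓ0 e]))
  set ι₀ : ℝ := ∏ e ∈ hfin.toFinset, δ e with hι₀
  have hι₀0 : 0 < ι₀ := Finset.prod_pos fun e _ => hδ0 e
  have hι₀e : ∀ e ∈ hfin.toFinset, ι₀ ≤ ε e / (2 * (ℓ e + 1)) := fun e he => by
    refine le_trans ?_ (min_le_right 1 _)
    show ∏ e ∈ hfin.toFinset, δ e ≤ δ e
    rw [← Finset.mul_prod_erase _ _ he]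
    exact mul_le_of_le_one_right (hδ0 e).le
      (Finset.prod_le_one (fun e _ => (hδ0 e).le) fun e _ => min_le_left _ _)
  refine ⟨ι₀, hι₀0, fun ι hι0 hι T L hL hT hTB e => ?_⟩
  have hγ : ContinuousOn (fun t => g (q e t)) (Icc 0 1) := hg.comp (hqc e) (hqm e)
  have hγ' : ContinuousOn (fun t => g'.toFun (q e t)) (Icc 0 1) := g'.cont.comp (hqc e) (hqm e)
  by_cases he : e ∈ hfin.toFinset
  · have hlast : ENNReal.ofReal (2 * ι) * len (fun t => g'.toFun (q e t)) (Icc 0 1) ≤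
        ENNReal.ofReal (ε e) := by
      rw [← ENNReal.ofReal_toReal (hlen e).ne, ← ENNReal.ofReal_mul (by positivity)]
      refine ENNReal.ofReal_le_ofReal ?_
      have h1 := hℓ0 e
      have h2 := hι.trans (hι₀e e he)
      rw [le_div_iff₀ (by linarith)] at h2
      show 2 * ι * ℓ e ≤ ε e
      nlinarith
    refine ⟨(var_le hd hL hT hι0 hTB hγ hγ' (h e)).trans (add_le_add le_rfl ?_),
      (len_le hd hL hT hι0 hTB hγ hγ' (h e)).trans (add_le_add le_rfl hlast)⟩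
    refine le_trans ?_ hlast
    gcongr
    · linarith
    · exact Vale.Agent.P073.H471.var_le_len _ _
  · have heq : EqOn (fun t => T (g'.toFun (q e t))) (fun t => T (g (q e t))) (Icc 0 1) := by
      intro t ht
      rcases h e t ht with h1 | h1
      · simp only [h1]
      · exact absurd ((Set.Finite.mem_toFinset hfin).2 ⟨t, ht, h1⟩) he
    refine ⟨?_, ?_⟩
    · rw [var_congr heq]
      exact (var_comp_le hL hT (fun t => g (q e t)) (Icc 0 1)).trans le_self_add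
    · rw [len_congr heq]
      refine le_trans ?_ le_self_add
      refine eVariationOn_le_of_edist fun x _ y _ => ?_
      rw [edist_toLp, edist_toLp, ← ENNReal.ofReal_mul (by positivity)]
      refine ENNReal.ofReal_le_ofReal ?_
      have h1 := euc_le (T (g (q e x)) - T (g (q e y)))
      have h2 := norm_le_euc (g (q e x) - g (q e y))
      have h3 := hT (g (q e x)) (g (q e y))
      nlinarith

end Vale.Agent.P073.H726.NL
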