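import Vale.Agent.P073.PA260.Collar

/-!
# P073 / H726: conical functions below a given function

`exists_plk`: below a `1`-Lipschitz function `r` on `ℝⁿ` there is a `1`-Lipschitz function
`κ ≥ 0`, `κ ≤ max 0 r`, positive on `X ∩ {r > 0}`, conical on `{r > 0}` if `X` is closed there,
and `κ` vanishes off the neighbourhood of `X` of radius `2 r`.
-/

open Set Metric Topology Filter

namespace Vale.Agent.P073.H726

open _root_.P073

variable {n : ℕ}

/-- the grid points -/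
noncomputable def gc (i : ℕ × (Fin n → ℤ)) : Fin n → ℝ := fun k => (i.2 k : ℝ) / 2 ^ i.1

/-- the cones over the grid points -/
noncomputable def gf (i : ℕ × (Fin n → ℤ)) (u : Fin n → ℝ) : ℝ := 2 / 2 ^ i.1 - ‖u - gc i‖

open Classical in
/-- the cones which count -/
noncomputable def gp (r : (Fin n → ℝ) → ℝ) (X : Set (Fin n → ℝ)) (i : ℕ × (Fin n → ℤ))
    (u : Fin n → ℝ) : ℝ :=
  if 4 / 2 ^ i.1 ≤ r (gc i) ∧ (closedBall (gc i) (2 / 2 ^ i.1) ∩ X).Nonempty then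
    max 0 (gf i u) else 0

/-- the conical function -/
noncomputable def plk (r : (Fin n → ℝ) → ℝ) (X : Set (Fin n → ℝ)) (u : Fin n → ℝ) : ℝ :=
  ⨆ i, gp r X i u

variable {X : Set (Fin n → ℝ)}

theorem gp_nonneg (r : (Fin n → ℝ) → ℝ) (i : ℕ × (Fin n → ℤ)) (u : Fin n → ℝ) :
    0 ≤ gp r X i u := by
  unfold gp; split_ifs
  · exact le_max_left _ _
  · exact le_rfl

theorem two_div_le (m : ℕ) : (2:ℝ) / 2 ^ m ≤ 2 := by
  have h1 : (1:ℝ) ≤ 2 ^ m := one_le_pow₀ (by norm_num)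
  rw [div_le_iff₀ (by positivity)]
  linarith

theorem gp_le (r : (Fin n → ℝ) → ℝ) (i : ℕ × (Fin n → ℤ)) (u : Fin n → ℝ) :
    gp r X i u ≤ 2 / 2 ^ i.1 := by
  have h0 : (0:ℝ) ≤ 2 / 2 ^ i.1 := by positivity
  unfold gp; split_ifs
  · refine max_le h0 ?_
    unfold gf
    linarith [norm_nonneg (u - gc i)]
  · exact h0

theorem gp_le_two (r : (Fin n → ℝ) → ℝ) (i : ℕ × (Fin n → ℤ)) (u : Fin n → ℝ) :
    gp r X i u ≤ 2 := (gp_le r i u).trans (two_div_le _)

theorem bddAbove_gp (r : (Fin n → ℝ) → ℝ) (u : Fin n → ℝ) :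
    BddAbove (range fun i => gp r X i u) := ⟨2, by rintro _ ⟨i, rfl⟩; exact gp_le_two r i u⟩

theorem gp_lip (r : (Fin n → ℝ) → ℝ) (i : ℕ × (Fin n → ℤ)) (u v : Fin n → ℝ) :
    gp r X i u ≤ gp r X i v + ‖u - v‖ := by
  unfold gp; split_ifs
  · have h1 : ‖v - gc i‖ ≤ ‖u - gc i‖ + ‖u - v‖ := by
      have := norm_sub_le_norm_sub_add_norm_sub v u (gc i)
      rw [norm_sub_rev v u] at this
      linarith
    refine max_le ?_ ?_
    · exact add_nonneg (le_max_left _ _) (norm_nonneg _)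
    · have : gf i u ≤ gf i v + ‖u - v‖ := by unfold gf; linarith
      exact this.trans (add_le_add (le_max_right _ _) le_rfl)
  · positivity

theorem plk_nonneg (r : (Fin n → ℝ) → ℝ) (u : Fin n → ℝ) : 0 ≤ plk r X u :=
  (gp_nonneg r (0, 0) u).trans (le_ciSup (bddAbove_gp r u) _)

theorem plk_lip (r : (Fin n → ℝ) → ℝ) (u v : Fin n → ℝ) :
    plk r X u ≤ plk r X v + ‖u - v‖ :=
  ciSup_le fun i => (gp_lip r i u v).trans (add_le_add (le_ciSup (bddAbove_gp r v) i) le_rfl)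

theorem plk_le {r : (Fin n → ℝ) → ℝ} (hr : ∀ u v, r u ≤ r v + ‖u - v‖) (u : Fin n → ℝ) :
    plk r X u ≤ max 0 (r u) := by
  refine ciSup_le fun i => ?_
  unfold gp; split_ifs with h
  · refine max_le (le_max_left _ _) ?_
    rcases le_or_gt (gf i u) 0 with h0 | h0
    · exact h0.trans (le_max_left _ _)
    · refine le_trans ?_ (le_max_right _ _)
      have h1 := hr (gc i) u
      rw [norm_sub_rev] at h1
      unfold gf at h0 ⊢
      have h2 : (4:ℝ) / 2 ^ i.1 = 2 * (2 / 2 ^ i.1) := by ring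
      linarith [norm_nonneg (u - gc i)]
  · exact le_max_left _ _

/-- the support is near `X` -/
theorem plk_near {r : (Fin n → ℝ) → ℝ} (hr : ∀ u v, r u ≤ r v + ‖u - v‖) {u : Fin n → ℝ}
    (h : plk r X u ≠ 0) : ∃ x ∈ X, ‖u - x‖ ≤ 2 * r u := by
  by_contra hcon
  push Not at hcon
  apply h
  apply le_antisymm _ (plk_nonneg r u)
  refine ciSup_le fun i => ?_
  unfold gp; split_ifs with hi
  · refine max_le le_rfl ?_
    by_contra h0
    push Not at h0
    obtain ⟨h1, x, hx1, hx2⟩ := hi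
    rw [mem_closedBall, dist_eq_norm] at hx1
    have h2 := hcon x hx2
    have h3 := norm_sub_le_norm_sub_add_norm_sub u (gc i) x
    rw [norm_sub_rev (gc i) x] at h3
    have h4 := hr (gc i) u
    rw [norm_sub_rev (gc i) u] at h4
    unfold gf at h0
    have h5 : (4:ℝ) / 2 ^ i.1 = 2 * (2 / 2 ^ i.1) := by ring
    linarith
  · exact le_rfl

theorem gp_conical (r : (Fin n → ℝ) → ℝ) (i : ℕ × (Fin n → ℤ)) :
    ConicalOn (gp r X i) univ ∧ Continuous (gp r X i) := by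
  have hu : ConicalSet (univ : Set (Fin n → ℝ)) := isOpen_univ.conicalSet
  have h1 : ConicalOn (fun u : Fin n → ℝ => ‖u - gc i‖) univ :=
    (conicalOn_norm_pi n hu).comp ((conicalOn_id hu).sub (conicalOn_const (gc i) hu))
      (mapsTo_univ _ _) (by fun_prop)
  have h2 : Continuous (fun u : Fin n → ℝ => ‖u - gc i‖) := by fun_prop
  have h3 : ConicalOn (gf i) univ := (conicalOn_const _ hu).sub h1
  have h4 : Continuous (gf i) := continuous_const.sub h2
  by_cases h : 4 / 2 ^ i.1 ≤ r (gc i) ∧ (closedBall (gc i) (2 / 2 ^ i.1) ∩ X).Nonempty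
  · have e : gp r X i = fun u => max 0 (gf i u) := by
      funext u; unfold gp; rw [if_pos h]
    rw [e]
    exact ⟨(conicalOn_const _ hu).rmax h3 continuousOn_const h4.continuousOn,
      continuous_const.max h4⟩
  · have e : gp r X i = fun _ => 0 := by
      funext u; unfold gp; rw [if_neg h]
    rw [e]
    exact ⟨conicalOn_const _ hu, continuous_const⟩

theorem conicalOn_fsup' {E ι : Type*} [NormedAddCommGroup E] [NormedSpace ℝ E] {s : Finset ι}
    (hs : s.Nonempty) {f : ι → E → ℝ} {X : Set E}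
    (h : ∀ i, ConicalOn (f i) X) (hc : ∀ i, ContinuousOn (f i) X) :
    ConicalOn (fun x => s.sup' hs fun i => f i x) X ∧
      ContinuousOn (fun x => s.sup' hs fun i => f i x) X := by
  classical
  induction hs using Finset.Nonempty.cons_induction with
  | singleton a => simpa using ⟨h a, hc a⟩
  | cons a s ha hs ih =>
    simp only [Finset.sup'_cons hs]
    exact ⟨(h a).rmax ih.1 (hc a) ih.2, (hc a).sup ih.2⟩

/-- near a point with `r > 0` the function is a finite maximum -/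
theorem plk_local {r : (Fin n → ℝ) → ℝ} (hr : ∀ u v, r u ≤ r v + ‖u - v‖) {u₀ : Fin n → ℝ}
    (h0 : 0 < r u₀) (hX : u₀ ∈ X ∨ ∃ d > 0, ∀ x ∈ X, d ≤ ‖u₀ - x‖) :
    ∃ (S : Finset (ℕ × (Fin n → ℤ))) (hS : S.Nonempty),
      (u₀ ∈ X → 0 < plk r X u₀) ∧ ∀ᶠ u in 𝓝 u₀, plk r X u = S.sup' hS fun i => gp r X i u := by
  classical
  obtain ⟨N, hN, hNX⟩ : ∃ N : ℕ, (8:ℝ) / 2 ^ N ≤ r u₀ ∧
      (u₀ ∈ X ∨ ∀ x ∈ X, (8:ℝ) / 2 ^ N ≤ ‖u₀ - x‖) := by
    have key : ∀ d : ℝ, 0 < d → ∃ N : ℕ, ∀ m ≥ N, (8:ℝ) / 2 ^ m ≤ d := by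
      intro d hd
      obtain ⟨N, hN⟩ := exists_pow_lt_of_lt_one (show 0 < d / 8 by positivity)
        (show (1/2 : ℝ) < 1 by norm_num)
      refine ⟨N, fun m hm => ?_⟩
      have h1 : (1/2 : ℝ) ^ m ≤ (1/2) ^ N := pow_le_pow_of_le_one (by norm_num) (by norm_num) hm
      have : (8:ℝ) / 2 ^ m = 8 * (1/2)^m := by rw [div_pow, one_pow]; ring
      rw [this]; linarith
    obtain ⟨N₁, hN₁⟩ := key _ h0
    rcases hX with hX | ⟨d, hd, hX⟩
    · exact ⟨N₁, hN₁ _ le_rfl, Or.inl hX⟩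
    · obtain ⟨N₂, hN₂⟩ := key d hd
      exact ⟨max N₁ N₂, hN₁ _ (le_max_left _ _), Or.inr fun x hx =>
        (hN₂ _ (le_max_right _ _)).trans (hX x hx)⟩
  have hp : (0:ℝ) < 2 ^ N := by positivity
  set z₀ : Fin n → ℤ := fun k => round (2 ^ N * u₀ k) with hz₀
  set i₀ : ℕ × (Fin n → ℤ) := (N, z₀) with hi₀
  have hd : ‖u₀ - gc i₀‖ ≤ 1 / 2 / 2 ^ N := by
    rw [pi_norm_le_iff_of_nonneg (by positivity)]
    intro k
    have h1 := abs_sub_round (2 ^ N * u₀ k)
    have h2 : (u₀ - gc i₀) k = (2 ^ N * u₀ k - round (2 ^ N * u₀ k)) / 2 ^ N := by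
      simp only [Pi.sub_apply, gc, hi₀, hz₀]
      field_simp
    rw [h2, Real.norm_eq_abs, abs_div, abs_of_pos hp]
    gcongr
  have h5 : (0:ℝ) < 1 / 2 ^ N := by positivity
  have h3 : (1:ℝ) / 2 / 2 ^ N = 1 / 2 * (1 / 2 ^ N) := by ring
  have h4 : (2:ℝ) / 2 ^ i₀.1 = 2 * (1 / 2 ^ N) := by simp only [hi₀]; ring
  have hgi : 4 / 2 ^ i₀.1 ≤ r (gc i₀) := by
    have h1 := hr u₀ (gc i₀)
    have h2 : (8:ℝ) / 2 ^ N = 8 * (1 / 2 ^ N) := by ring
    have h4 : (4:ℝ) / 2 ^ i₀.1 = 4 * (1 / 2 ^ N) := by simp only [hi₀]; ring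
    rw [h4]
    linarith
  have hnear : u₀ ∈ X → ∀ u : Fin n → ℝ, ‖u - u₀‖ ≤ 1 / 2 / 2 ^ N → 1 / 2 ^ N ≤ gp r X i₀ u := by
    intro hX u hu
    have hne : (closedBall (gc i₀) (2 / 2 ^ i₀.1) ∩ X).Nonempty := by
      refine ⟨u₀, ?_, hX⟩
      rw [mem_closedBall, dist_eq_norm, h4]
      linarith
    unfold gp
    rw [if_pos ⟨hgi, hne⟩]
    refine le_trans ?_ (le_max_right _ _)
    have h1 := norm_sub_le_norm_sub_add_norm_sub u u₀ (gc i₀)
    unfold gf
    rw [h4]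
    linarith
  -- small cones do not count
  have hsmall : ∀ u : Fin n → ℝ, ‖u - u₀‖ ≤ 1 / 2 / 2 ^ N → ∀ i : ℕ × (Fin n → ℤ), N + 1 ≤ i.1 →
      gp r X i u ≤ gp r X i₀ u := by
    intro u hu i hi
    have h2 : (2:ℝ) ^ (N + 1) ≤ 2 ^ i.1 := pow_le_pow_right₀ (by norm_num) hi
    have h6 : (2:ℝ) / 2 ^ i.1 ≤ 1 / 2 ^ N := by
      calc (2:ℝ) / 2 ^ i.1 ≤ 2 / 2 ^ (N + 1) := by gcongr
        _ = 1 / 2 ^ N := by rw [pow_succ]; field_simp
    rcases hNX with hX | hX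
    · exact (gp_le r i u).trans (h6.trans (hnear hX u hu))
    · refine le_trans ?_ (gp_nonneg r i₀ u)
      unfold gp; split_ifs with hi
      · refine max_le le_rfl ?_
        by_contra hcon
        push Not at hcon
        obtain ⟨-, x, hx1, hx2⟩ := hi
        rw [mem_closedBall, dist_eq_norm] at hx1
        have k1 := hX x hx2
        have k2 := norm_sub_le_norm_sub_add_norm_sub u₀ u x
        have k3 := norm_sub_le_norm_sub_add_norm_sub u (gc i) x
        rw [norm_sub_rev u₀ u] at k2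
        rw [norm_sub_rev (gc i) x] at k3
        unfold gf at hcon
        have h2 : (8:ℝ) / 2 ^ N = 8 * (1 / 2 ^ N) := by ring
        linarith
      · exact le_rfl
  set K : ℤ := ⌈(2 ^ N : ℝ) * (‖u₀‖ + 3)⌉ with hK
  set S : Finset (ℕ × (Fin n → ℤ)) :=
    insert i₀ ((Finset.range (N + 1)) ×ˢ (Fintype.piFinset fun _ : Fin n => Finset.Icc (-K) K))
    with hS
  refine ⟨S, ⟨i₀, Finset.mem_insert_self _ _⟩, fun hX => ?_, ?_⟩
  · have h1 := hnear hX u₀ (by rw [sub_self, norm_zero]; positivity)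
    have h2 : gp r X i₀ u₀ ≤ plk r X u₀ := le_ciSup (bddAbove_gp r u₀) _
    linarith
  · have hev : ∀ᶠ u in 𝓝 u₀, ‖u - u₀‖ ≤ 1 / 2 / 2 ^ N := by
      have : closedBall u₀ (1 / 2 / 2 ^ N : ℝ) ∈ 𝓝 u₀ := closedBall_mem_nhds _ (by positivity)
      filter_upwards [this] with u hu
      rwa [mem_closedBall, dist_eq_norm] at hu
    filter_upwards [hev] with u hu
    apply le_antisymm
    · refine ciSup_le fun i => ?_
      by_cases hi : i ∈ S
      · exact Finset.le_sup' (fun i => gp r X i u) hi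
      · refine le_trans ?_ (Finset.le_sup' (fun i => gp r X i u) (Finset.mem_insert_self i₀ _))
        rw [hS, Finset.mem_insert, not_or, Finset.mem_product, not_and_or, Finset.mem_range,
          Fintype.mem_piFinset] at hi
        obtain ⟨-, hi | hi⟩ := hi
        · exact hsmall u hu i (by omega)
        · by_cases hm : i.1 ≤ N
          · -- far away
            push Not at hi
            obtain ⟨k, hk⟩ := hi
            rw [Finset.mem_Icc, not_and_or] at hk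
            have h1 : (2 ^ N : ℝ) * (‖u₀‖ + 3) ≤ |(i.2 k : ℝ)| := by
              have h2 : (2 ^ N : ℝ) * (‖u₀‖ + 3) ≤ K := Int.le_ceil _
              rcases hk with hk | hk
              · have h3 : (i.2 k : ℝ) ≤ -K := by exact_mod_cast (not_le.1 hk).le
                have := neg_le_abs (i.2 k : ℝ)
                linarith
              · have h3 : (K : ℝ) ≤ i.2 k := by exact_mod_cast (not_le.1 hk).le
                exact (h2.trans h3).trans (le_abs_self _)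
            have hpi : (0:ℝ) < 2 ^ i.1 := by positivity
            have h4 : ‖u₀‖ + 3 ≤ ‖gc i‖ := by
              have h5 : |gc i k| ≤ ‖gc i‖ := norm_le_pi_norm (gc i) k
              refine le_trans ?_ h5
              simp only [gc]
              rw [abs_div, abs_of_pos hpi, le_div_iff₀ hpi]
              refine le_trans ?_ h1
              rw [mul_comm]
              have : (2:ℝ) ^ i.1 ≤ 2 ^ N := pow_le_pow_right₀ (by norm_num) hm
              gcongr
            have h6 : ‖gc i‖ ≤ ‖u₀‖ + ‖u - u₀‖ + ‖u - gc i‖ := by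
              have e : gc i = u₀ + (u - u₀) - (u - gc i) := by abel
              calc ‖gc i‖ = ‖u₀ + (u - u₀) - (u - gc i)‖ := by rw [← e]
                _ ≤ ‖u₀ + (u - u₀)‖ + ‖u - gc i‖ := norm_sub_le _ _
                _ ≤ ‖u₀‖ + ‖u - u₀‖ + ‖u - gc i‖ := by gcongr; exact norm_add_le _ _
            have h7 : (1:ℝ) / 2 / 2 ^ N ≤ 1 := by
              have : (1:ℝ) ≤ 2 ^ N := one_le_pow₀ (by norm_num)
              rw [div_le_iff₀ hp]; linarith
            have h8 : gf i u ≤ 0 := by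
              unfold gf
              linarith [two_div_le i.1]
            refine le_trans ?_ (gp_nonneg r i₀ u)
            unfold gp
            split_ifs
            · rw [max_eq_left h8]
            · exact le_rfl
          · exact hsmall u hu i (by omega)
    · refine Finset.sup'_le _ _ fun i _ => le_ciSup (bddAbove_gp r u) i

/-- a lower bound on `X` -/
theorem plk_ge {r : (Fin n → ℝ) → ℝ} (hr : ∀ u v, r u ≤ r v + ‖u - v‖) {u₀ : Fin n → ℝ}
    (h0 : 0 < r u₀) (h1 : r u₀ ≤ 1) (hX : u₀ ∈ X) : r u₀ / 16 ≤ plk r X u₀ := by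
  obtain ⟨m, hm1, hm2⟩ := exists_nat_pow_near_of_lt_one (x := r u₀ / 8) (y := (1/2 : ℝ))
    (by positivity) (by linarith) (by norm_num) (by norm_num)
  set N : ℕ := m + 1 with hN
  have hp : (0:ℝ) < 2 ^ N := by positivity
  have e1 : (1/2 : ℝ) ^ N = 1 / 2 ^ N := by rw [div_pow, one_pow]
  have e2 : (1/2 : ℝ) ^ m = 2 * (1 / 2 ^ N) := by
    rw [hN, pow_succ, div_pow, one_pow]; field_simp
  rw [e1] at hm1
  rw [e2] at hm2
  set z₀ : Fin n → ℤ := fun k => round (2 ^ N * u₀ k) with hz₀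
  set i₀ : ℕ × (Fin n → ℤ) := (N, z₀) with hi₀
  have hd : ‖u₀ - gc i₀‖ ≤ 1 / 2 / 2 ^ N := by
    rw [pi_norm_le_iff_of_nonneg (by positivity)]
    intro k
    have h1 := abs_sub_round (2 ^ N * u₀ k)
    have h2 : (u₀ - gc i₀) k = (2 ^ N * u₀ k - round (2 ^ N * u₀ k)) / 2 ^ N := by
      simp only [Pi.sub_apply, gc, hi₀, hz₀]
      field_simp
    rw [h2, Real.norm_eq_abs, abs_div, abs_of_pos hp]
    gcongr
  have h5 : (0:ℝ) < 1 / 2 ^ N := by positivity
  have h3 : (1:ℝ) / 2 / 2 ^ N = 1 / 2 * (1 / 2 ^ N) := by ring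
  have h4 : (2:ℝ) / 2 ^ i₀.1 = 2 * (1 / 2 ^ N) := by simp only [hi₀]; ring
  have hgi : 4 / 2 ^ i₀.1 ≤ r (gc i₀) := by
    have h1 := hr u₀ (gc i₀)
    have h4 : (4:ℝ) / 2 ^ i₀.1 = 4 * (1 / 2 ^ N) := by simp only [hi₀]; ring
    rw [h4]
    linarith
  have hne : (closedBall (gc i₀) (2 / 2 ^ i₀.1) ∩ X).Nonempty := by
    refine ⟨u₀, ?_, hX⟩
    rw [mem_closedBall, dist_eq_norm, h4]
    linarith
  have h6 : gp r X i₀ u₀ ≤ plk r X u₀ := le_ciSup (bddAbove_gp r u₀) _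
  refine le_trans ?_ h6
  unfold gp
  rw [if_pos ⟨hgi, hne⟩]
  refine le_trans ?_ (le_max_right _ _)
  unfold gf
  rw [h4]
  linarith

/-- **conical functions below a given Lipschitz function**, supported near `X` -/
theorem exists_plk_near {r : (Fin n → ℝ) → ℝ} (hr : ∀ u v, r u ≤ r v + ‖u - v‖)
    {X : Set (Fin n → ℝ)}
    (hX : ∀ u, 0 < r u → u ∈ X ∨ ∃ d > 0, ∀ x ∈ X, d ≤ ‖u - x‖) :
    ∃ κ : (Fin n → ℝ) → ℝ, (∀ u, 0 ≤ κ u) ∧ (∀ u v, κ u ≤ κ v + ‖u - v‖) ∧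
      (∀ u, κ u ≤ max 0 (r u)) ∧ (∀ u ∈ X, 0 < r u → 0 < κ u) ∧
      (∀ u ∈ X, 0 < r u → r u ≤ 1 → r u / 16 ≤ κ u) ∧
      (∀ u, κ u ≠ 0 → ∃ x ∈ X, ‖u - x‖ ≤ 2 * r u) ∧
      ∀ u, 0 < r u → ConicalWithinAt κ univ u := by
  refine ⟨plk r X, plk_nonneg r, plk_lip r, plk_le hr, fun u huX hu => ?_,
    fun u huX hu hu1 => plk_ge hr hu hu1 huX, fun u hu => plk_near hr hu, fun u hu => ?_⟩
  · obtain ⟨S, hS, h, -⟩ := plk_local hr hu (hX u hu)
    exact h huX
  · obtain ⟨S, hS, -, h⟩ := plk_local hr hu (hX u hu)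
    have h1 := (conicalOn_fsup' hS (fun i => (gp_conical (X := X) r i).1)
      (fun i => (gp_conical (X := X) r i).2.continuousOn)).1 u (mem_univ u)
    exact h1.congr_nhds (Eventually.of_forall fun y => Iff.rfl) (h.mono fun y hy _ => hy)
      h.self_of_nhds

/-- **conical functions below a given Lipschitz function** -/
theorem exists_plk {r : (Fin n → ℝ) → ℝ} (hr : ∀ u v, r u ≤ r v + ‖u - v‖) :
    ∃ κ : (Fin n → ℝ) → ℝ, (∀ u, 0 ≤ κ u) ∧ (∀ u v, κ u ≤ κ v + ‖u - v‖) ∧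
      (∀ u, κ u ≤ max 0 (r u)) ∧ (∀ u, 0 < r u → 0 < κ u) ∧
      ∀ u, 0 < r u → ConicalWithinAt κ univ u := by
  obtain ⟨κ, h1, h2, h3, h4, -, -, h6⟩ := exists_plk_near hr (X := univ) fun u _ =>
    Or.inl (mem_univ u)
  exact ⟨κ, h1, h2, h3, fun u hu => h4 u (mem_univ u) hu, h6⟩

end Vale.Agent.P073.H726
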