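import Vale.Agent.P073.H726.PLK

/-!
# P073 / H726: a conical version of the product `a t`

`qf ρ R a s = sup_i (ρ^i s - R (ρ^i - a)⁺)` for `0 ≤ s ≤ R`; slopes in `s` in `[ρ a, a / ρ]`,
`R`-Lipschitz in `a`.
-/

open Set Metric Topology Filter

namespace Vale.Agent.P073.H726

open _root_.P073

/-- the terms -/
noncomputable def qt (ρ R : ℝ) (i : ℕ) (a s : ℝ) : ℝ := ρ ^ i * s - R * max 0 (ρ ^ i - a)

/-- conical product on `0 ≤ s ≤ R` -/
noncomputable def qf (ρ R a s : ℝ) : ℝ := ⨆ i, qt ρ R i a s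

section

variable {ρ R a a' s s' : ℝ}

theorem qt_le (hρ0 : 0 < ρ) (hρ1 : ρ < 1) (hR : 0 ≤ R) (hs : 0 ≤ s) (i : ℕ) :
    qt ρ R i a s ≤ s := by
  have h1 : ρ ^ i ≤ 1 := pow_le_one₀ hρ0.le hρ1.le
  have h2 : 0 ≤ R * max 0 (ρ ^ i - a) := mul_nonneg hR (le_max_left _ _)
  have h3 : ρ ^ i * s ≤ 1 * s := by gcongr
  unfold qt
  linarith

theorem bddAbove_qt (hρ0 : 0 < ρ) (hρ1 : ρ < 1) (hR : 0 ≤ R) (hs : 0 ≤ s) :
    BddAbove (range fun i => qt ρ R i a s) :=
  ⟨s, by rintro _ ⟨i, rfl⟩; exact qt_le hρ0 hρ1 hR hs i⟩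

/-- Lipschitz in `a` -/
theorem qf_lip_left (hρ0 : 0 < ρ) (hρ1 : ρ < 1) (hR : 0 ≤ R) (hs : 0 ≤ s) :
    qf ρ R a s ≤ qf ρ R a' s + R * |a - a'| := by
  refine ciSup_le fun i => ?_
  refine le_trans ?_ (add_le_add (le_ciSup (bddAbove_qt hρ0 hρ1 hR hs) i) le_rfl)
  unfold qt
  have h1 : max 0 (ρ ^ i - a') ≤ max 0 (ρ ^ i - a) + |a - a'| := by
    refine max_le (by positivity) ?_
    have := le_max_right 0 (ρ ^ i - a)
    have := le_abs_self (a - a')
    linarith
  have h2 := mul_le_mul_of_nonneg_left h1 hR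
  linarith

theorem qf_zero_right (hρ0 : 0 < ρ) (hρ1 : ρ < 1) (hR : 0 ≤ R) (ha : 0 ≤ a) :
    qf ρ R a 0 = 0 := by
  apply le_antisymm
  · refine ciSup_le fun i => ?_
    have := qt_le (a := a) hρ0 hρ1 hR (le_refl (0:ℝ)) i
    exact this
  · -- for `a = 0` only in the limit
    have key : ∀ i : ℕ, - (R * ρ ^ i) ≤ qf ρ R a 0 := by
      intro i
      refine le_trans ?_ (le_ciSup (bddAbove_qt hρ0 hρ1 hR le_rfl) i)
      unfold qt
      have h1 : max 0 (ρ ^ i - a) ≤ ρ ^ i := max_le (by positivity) (by linarith)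
      have h2 := mul_le_mul_of_nonneg_left h1 hR
      linarith
    have h1 : Tendsto (fun i : ℕ => - (R * ρ ^ i)) atTop (𝓝 (-(R * 0))) :=
      ((tendsto_pow_atTop_nhds_zero_of_lt_one hρ0.le hρ1).const_mul R).neg
    rw [mul_zero, neg_zero] at h1
    exact le_of_tendsto h1 (Eventually.of_forall key)

/-- the value for `ρ^(i+1) ≤ a ≤ ρ^i` -/
theorem qf_eq (hρ0 : 0 < ρ) (hρ1 : ρ < 1) (hs : 0 ≤ s) (hsR : s ≤ R) {i : ℕ}
    (h1 : ρ ^ (i + 1) ≤ a) (h2 : a ≤ ρ ^ i) :
    qf ρ R a s = max (ρ ^ (i + 1) * s) (ρ ^ i * s - R * (ρ ^ i - a)) := by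
  have hR : 0 ≤ R := hs.trans hsR
  apply le_antisymm
  · refine ciSup_le fun j => ?_
    rcases Nat.lt_or_ge i j with hj | hj
    · refine le_trans ?_ (le_max_left _ _)
      have h3 : ρ ^ j ≤ ρ ^ (i + 1) := pow_le_pow_of_le_one hρ0.le hρ1.le hj
      have h4 : 0 ≤ R * max 0 (ρ ^ j - a) := mul_nonneg hR (le_max_left _ _)
      have h5 : ρ ^ j * s ≤ ρ ^ (i + 1) * s := by gcongr
      unfold qt
      linarith
    · refine le_trans ?_ (le_max_right _ _)
      have h3 : ρ ^ i ≤ ρ ^ j := pow_le_pow_of_le_one hρ0.le hρ1.le hj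
      have h4 : R * (ρ ^ j - a) ≤ R * max 0 (ρ ^ j - a) :=
        mul_le_mul_of_nonneg_left (le_max_right _ _) hR
      unfold qt
      nlinarith [mul_nonneg (sub_nonneg.2 h3) (sub_nonneg.2 hsR)]
  · refine max_le ?_ ?_
    · refine le_trans ?_ (le_ciSup (bddAbove_qt hρ0 hρ1 hR hs) (i + 1))
      unfold qt
      rw [max_eq_left (by linarith), mul_zero, sub_zero]
    · refine le_trans ?_ (le_ciSup (bddAbove_qt hρ0 hρ1 hR hs) i)
      unfold qt
      rw [max_eq_right (by linarith)]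

theorem exists_pow_index (hρ0 : 0 < ρ) (hρ1 : ρ < 1) (ha0 : 0 < a) (ha1 : a ≤ 1) :
    ∃ i : ℕ, ρ ^ (i + 1) ≤ a ∧ a ≤ ρ ^ i := by
  obtain ⟨i, h1, h2⟩ := exists_nat_pow_near_of_lt_one ha0 ha1 hρ0 hρ1
  exact ⟨i, h1.le, h2⟩

/-- slopes in `s` -/
theorem qf_slope (hρ0 : 0 < ρ) (hρ1 : ρ < 1) (ha0 : 0 < a) (ha1 : a ≤ 1)
    (hs' : 0 ≤ s') (hss : s' ≤ s) (hsR : s ≤ R) :
    ρ * a * (s - s') ≤ qf ρ R a s - qf ρ R a s' ∧
      qf ρ R a s - qf ρ R a s' ≤ ρ⁻¹ * a * (s - s') := by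
  obtain ⟨i, h1, h2⟩ := exists_pow_index hρ0 hρ1 ha0 ha1
  rw [qf_eq hρ0 hρ1 (hs'.trans hss) hsR h1 h2, qf_eq hρ0 hρ1 hs' (hss.trans hsR) h1 h2]
  have hd : 0 ≤ s - s' := sub_nonneg.2 hss
  have h3 : ρ * a ≤ ρ ^ (i + 1) := by rw [pow_succ, mul_comm]; gcongr
  have h4 : ρ ^ i ≤ ρ⁻¹ * a := by
    rw [← mul_le_mul_iff_right₀ hρ0, ← mul_assoc, mul_inv_cancel₀ hρ0.ne', one_mul, mul_comm,
      ← pow_succ]
    exact h1
  have h5 : ρ ^ (i + 1) ≤ ρ ^ i := pow_le_pow_of_le_one hρ0.le hρ1.le (Nat.le_succ i)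
  have e1 : ρ ^ (i + 1) * s = ρ ^ (i + 1) * s' + ρ ^ (i + 1) * (s - s') := by ring
  have e2 : ρ ^ i * s = ρ ^ i * s' + ρ ^ i * (s - s') := by ring
  have k1 : ρ * a * (s - s') ≤ ρ ^ (i + 1) * (s - s') := by gcongr
  have k2 : ρ ^ (i + 1) * (s - s') ≤ ρ ^ i * (s - s') := by gcongr
  have k3 : ρ ^ i * (s - s') ≤ ρ⁻¹ * a * (s - s') := by gcongr
  constructor
  · have m1 : max (ρ ^ (i + 1) * s') (ρ ^ i * s' - R * (ρ ^ i - a)) + ρ ^ (i + 1) * (s - s') ≤
        max (ρ ^ (i + 1) * s) (ρ ^ i * s - R * (ρ ^ i - a)) := by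
      rw [← max_add_add_right]
      refine max_le_max ?_ ?_ <;> linarith
    linarith
  · have m1 : max (ρ ^ (i + 1) * s) (ρ ^ i * s - R * (ρ ^ i - a)) ≤
        max (ρ ^ (i + 1) * s') (ρ ^ i * s' - R * (ρ ^ i - a)) + ρ ^ i * (s - s') := by
      rw [← max_add_add_right]
      refine max_le_max ?_ ?_ <;> linarith
    linarith

/-- conical and continuous near `a > 0` -/
theorem qf_local (hρ0 : 0 < ρ) (hρ1 : ρ < 1) (hR : 0 ≤ R) {i : ℕ} (h1 : ρ ^ i ≤ a) (hs : 0 ≤ s) :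
    qf ρ R a s = (Finset.range (i + 1)).sup' ⟨0, by simp⟩ fun j => qt ρ R j a s := by
  apply le_antisymm
  · refine ciSup_le fun j => ?_
    rcases Nat.lt_or_ge i j with hj | hj
    · refine le_trans ?_ (Finset.le_sup' (fun j => qt ρ R j a s)
        (Finset.mem_range.2 (Nat.lt_succ_self i)))
      have h3 : ρ ^ j ≤ ρ ^ i := pow_le_pow_of_le_one hρ0.le hρ1.le hj.le
      unfold qt
      rw [max_eq_left (by linarith), max_eq_left (by linarith)]
      have h5 : ρ ^ j * s ≤ ρ ^ i * s := by gcongr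
      linarith
    · exact Finset.le_sup' (fun j => qt ρ R j a s) (Finset.mem_range.2 (Nat.lt_succ_of_le hj))
  · exact Finset.sup'_le _ _ fun j _ => le_ciSup (bddAbove_qt hρ0 hρ1 hR hs) j

end

/-- the odd extension -/
noncomputable def qo (ρ R a t : ℝ) : ℝ := qf ρ R a (max t 0) - qf ρ R a (max (-t) 0)

section

variable {ρ R a a' t t' : ℝ}

theorem abs_le_iff_pos_neg : |t| ≤ R ↔ max t 0 ≤ R ∧ max (-t) 0 ≤ R := by
  constructor
  · intro h
    exact ⟨max_le ((le_abs_self t).trans h) ((abs_nonneg _).trans h),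
      max_le ((neg_le_abs t).trans h) ((abs_nonneg _).trans h)⟩
  · intro h
    exact abs_le'.2 ⟨(le_max_left _ _).trans h.1, (le_max_left _ _).trans h.2⟩

theorem qo_zero : qo ρ R a 0 = 0 := by simp [qo]

theorem qo_lip_left (hρ0 : 0 < ρ) (hρ1 : ρ < 1) (hR : 0 ≤ R) (ha : 0 ≤ a) (ha' : 0 ≤ a') :
    |qo ρ R a t - qo ρ R a' t| ≤ R * |a - a'| := by
  have hu := abs_sub_comm a a'
  rcases le_total 0 t with h | h
  · have e : ∀ b, 0 ≤ b → qo ρ R b t = qf ρ R b t := fun b hb => by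
      rw [qo, max_eq_left h, max_eq_right (by linarith), qf_zero_right hρ0 hρ1 hR hb, sub_zero]
    rw [e a ha, e a' ha', abs_le]
    have h1 := qf_lip_left (a := a) (a' := a') hρ0 hρ1 hR h
    have h2 := qf_lip_left (a := a') (a' := a) hρ0 hρ1 hR h
    rw [← hu] at h2
    constructor <;> linarith
  · have e : ∀ b, 0 ≤ b → qo ρ R b t = - qf ρ R b (-t) := fun b hb => by
      rw [qo, max_eq_left (by linarith : 0 ≤ -t), max_eq_right h, qf_zero_right hρ0 hρ1 hR hb,
        zero_sub]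
    have h' : 0 ≤ -t := by linarith
    rw [e a ha, e a' ha', abs_le]
    have h1 := qf_lip_left (a := a) (a' := a') hρ0 hρ1 hR h'
    have h2 := qf_lip_left (a := a') (a' := a) hρ0 hρ1 hR h'
    rw [← hu] at h2
    constructor <;> linarith

/-- the slopes of the odd extension -/
theorem qo_slope (hρ0 : 0 < ρ) (hρ1 : ρ < 1) (ha0 : 0 < a) (ha1 : a ≤ 1)
    (hR : |t| ≤ R) (hR' : |t'| ≤ R) (htt : t' ≤ t) :
    ρ * a * (t - t') ≤ qo ρ R a t - qo ρ R a t' ∧
      qo ρ R a t - qo ρ R a t' ≤ ρ⁻¹ * a * (t - t') := by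
  obtain ⟨h1, h2⟩ := abs_le_iff_pos_neg.1 hR
  obtain ⟨h1', h2'⟩ := abs_le_iff_pos_neg.1 hR'
  have a1 := qf_slope hρ0 hρ1 ha0 ha1 (le_max_right t' 0) (max_le_max_right 0 htt) h1
  have a2 := qf_slope hρ0 hρ1 ha0 ha1 (le_max_right (-t) 0)
    (max_le_max_right 0 (neg_le_neg htt)) h2'
  have e : t - t' = (max t 0 - max t' 0) + (max (-t') 0 - max (-t) 0) := by
    have b1 : ∀ x : ℝ, max x 0 - max (-x) 0 = x := fun x => max_zero_sub_max_neg_zero_eq_self x
    have := b1 t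
    have := b1 t'
    linarith
  unfold qo
  constructor
  · calc ρ * a * (t - t') = ρ * a * (max t 0 - max t' 0) + ρ * a * (max (-t') 0 - max (-t) 0) := by
          rw [← mul_add, ← e]
      _ ≤ _ := by linarith [a1.1, a2.1]
  · calc _ ≤ ρ⁻¹ * a * (max t 0 - max t' 0) + ρ⁻¹ * a * (max (-t') 0 - max (-t) 0) := by
          linarith [a1.2, a2.2]
      _ = ρ⁻¹ * a * (t - t') := by rw [← mul_add, ← e]

/-- **the difference with the product** -/
theorem qo_error (hρ0 : 0 < ρ) (hρ1 : ρ < 1) (ha0 : 0 < a) (ha1 : a ≤ 1)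
    (hR : |t| ≤ R) (hR' : |t'| ≤ R) {η : ℝ} (h1 : 1 - ρ ≤ η) (h2 : ρ⁻¹ - 1 ≤ η) :
    |qo ρ R a t - qo ρ R a t' - a * (t - t')| ≤ η * a * |t - t'| := by
  wlog htt : t' ≤ t generalizing t t'
  · have := this hR' hR (le_of_not_ge htt)
    rw [abs_sub_comm t t', ← abs_neg]
    convert this using 2
    ring
  obtain ⟨b1, b2⟩ := qo_slope hρ0 hρ1 ha0 ha1 hR hR' htt
  have hd : 0 ≤ t - t' := sub_nonneg.2 htt
  rw [abs_of_nonneg hd, abs_le]
  have hda : 0 ≤ a * (t - t') := by positivity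
  have c1 := mul_le_mul_of_nonneg_right h1 hda
  have c2 := mul_le_mul_of_nonneg_right h2 hda
  constructor <;> nlinarith

theorem qo_abs_le (hρ0 : 0 < ρ) (hρ1 : ρ < 1) (ha0 : 0 ≤ a) (ha1 : a ≤ 1) (hR : |t| ≤ R)
    (h2 : ρ⁻¹ ≤ 2) : |qo ρ R a t| ≤ 2 * a * R := by
  have hR0 : 0 ≤ R := (abs_nonneg _).trans hR
  rcases eq_or_lt_of_le ha0 with h0 | h0
  · -- `a = 0`: by continuity, from the values at small `a`
    have key : ∀ b : ℝ, 0 < b → b ≤ 1 → |qo ρ R a t| ≤ 3 * b * R := by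
      intro b hb hb1
      have h3 := qo_lip_left (t := t) (a := a) (a' := b) hρ0 hρ1 hR0 ha0 hb.le
      have h4 : |qo ρ R b t| ≤ 2 * b * R := by
        rcases le_total 0 t with h | h
        · have := qo_slope (t' := 0) hρ0 hρ1 hb hb1 hR (by simpa using hR0) h
          rw [qo_zero, sub_zero, sub_zero] at this
          rw [abs_of_nonneg (le_trans (by positivity) this.1)]
          rw [abs_of_nonneg h] at hR
          refine this.2.trans ?_
          gcongr
        · have := qo_slope (t := 0) (t' := t) hρ0 hρ1 hb hb1 (by simpa using hR0) hR h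
          rw [qo_zero, zero_sub, zero_sub] at this
          rw [← abs_neg, abs_of_nonneg (le_trans (mul_nonneg (by positivity) (by linarith))
            this.1)]
          rw [abs_of_nonpos h] at hR
          have ht0 : 0 ≤ -t := by linarith
          refine this.2.trans ?_
          gcongr
      have h5 : |a - b| = b := by rw [← h0, zero_sub, abs_neg, abs_of_pos hb]
      rw [h5] at h3
      have h6 := abs_sub_abs_le_abs_sub (qo ρ R a t) (qo ρ R b t)
      linarith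
    rw [← h0]
    rw [← h0] at key
    by_contra hcon
    push Not at hcon
    rw [mul_zero, zero_mul] at hcon
    set x := |qo ρ R 0 t| with hx
    have hb : 0 < min 1 (x / (6 * (R + 1))) := by positivity
    have h3 := key _ hb (min_le_left _ _)
    have h4 : min 1 (x / (6 * (R + 1))) ≤ x / (6 * (R + 1)) := min_le_right _ _
    have h5 : 3 * (min 1 (x / (6 * (R + 1)))) * R ≤ 3 * (x / (6 * (R + 1))) * R := by gcongr
    have h6 : 3 * (x / (6 * (R + 1))) * R ≤ x / 2 := by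
      rw [show 3 * (x / (6 * (R + 1))) * R = x / 2 * (R / (R + 1)) by field_simp; ring]
      have : R / (R + 1) ≤ 1 := by rw [div_le_one (by positivity)]; linarith
      calc x / 2 * (R / (R + 1)) ≤ x / 2 * 1 := by gcongr
        _ = x / 2 := by ring
    linarith
  · rcases le_total 0 t with h | h
    · have := qo_slope (t' := 0) hρ0 hρ1 h0 ha1 hR (by simpa using hR0) h
      rw [qo_zero, sub_zero, sub_zero] at this
      rw [abs_of_nonneg (le_trans (by positivity) this.1)]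
      rw [abs_of_nonneg h] at hR
      refine this.2.trans ?_
      gcongr
    · have := qo_slope (t := 0) (t' := t) hρ0 hρ1 h0 ha1 (by simpa using hR0) hR h
      rw [qo_zero, zero_sub, zero_sub] at this
      rw [← abs_neg, abs_of_nonneg (le_trans (mul_nonneg (by positivity) (by linarith))
        this.1)]
      rw [abs_of_nonpos h] at hR
      have ht0 : 0 ≤ -t := by linarith
      refine this.2.trans ?_
      gcongr

end

theorem conicalWithinAt_fsup' {E ι : Type*} [NormedAddCommGroup E] [NormedSpace ℝ E]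
    {s : Finset ι} (hs : s.Nonempty) {f : ι → E → ℝ} {X : Set E} {x : E}
    (h : ∀ i, ConicalWithinAt (f i) X x) (hc : ∀ i, ContinuousWithinAt (f i) X x) :
    ConicalWithinAt (fun x => s.sup' hs fun i => f i x) X x ∧
      ContinuousWithinAt (fun x => s.sup' hs fun i => f i x) X x := by
  classical
  induction hs using Finset.Nonempty.cons_induction with
  | singleton a => simpa using ⟨h a, hc a⟩
  | cons a s ha hs ih =>
    simp only [Finset.sup'_cons hs]
    exact ⟨(h a).rmax ih.1 (hc a) ih.2, (hc a).sup ih.2⟩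

/-- **conicality** of `x ↦ q (a x) (t x)` where `a x > 0` -/
theorem conicalWithinAt_qo {E : Type*} [NormedAddCommGroup E] [NormedSpace ℝ E] {ρ R : ℝ}
    (hρ0 : 0 < ρ) (hρ1 : ρ < 1) (hR : 0 ≤ R) {a t : E → ℝ} {X : Set E} {x : E}
    (ha : ConicalWithinAt a X x) (hac : ContinuousWithinAt a X x) (ht : ConicalWithinAt t X x)
    (htc : ContinuousWithinAt t X x) (ha0 : 0 < a x) :
    ConicalWithinAt (fun y => qo ρ R (a y) (t y)) X x ∧
      ContinuousWithinAt (fun y => qo ρ R (a y) (t y)) X x := by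
  have hXx : ConicalSetAt X x := ha.conicalSetAt
  obtain ⟨i, hi⟩ := exists_pow_lt_of_lt_one ha0 hρ1
  have hev : ∀ᶠ y in 𝓝[X] x, ρ ^ i < a y := hac.eventually_const_lt hi
  rw [eventually_nhdsWithin_iff] at hev
  have hcst : ∀ c : ℝ, ConicalWithinAt (fun _ : E => c) X x := fun c =>
    conicalWithinAt_of_affine (AffineMap.const ℝ E c) hXx
  have hq : ∀ (s : E → ℝ), ConicalWithinAt s X x → ContinuousWithinAt s X x → ∀ j : ℕ,
      ConicalWithinAt (fun y => qt ρ R j (a y) (s y)) X x ∧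
        ContinuousWithinAt (fun y => qt ρ R j (a y) (s y)) X x := by
    intro s hs hsc j
    have h1 : ConicalWithinAt (fun y => max 0 (ρ ^ j - a y)) X x :=
      (hcst 0).rmax ((hcst (ρ ^ j)).sub ha) continuousWithinAt_const
        (continuousWithinAt_const.sub hac)
    have h2 : ContinuousWithinAt (fun y => max 0 (ρ ^ j - a y)) X x :=
      continuousWithinAt_const.sup (continuousWithinAt_const.sub hac)
    exact ⟨(hs.const_smul (ρ ^ j)).sub (h1.const_smul R),
      (continuousWithinAt_const.mul hsc).sub (continuousWithinAt_const.mul h2)⟩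
  have hp : ConicalWithinAt (fun y => max (t y) 0) X x :=
    ht.rmax (hcst 0) htc continuousWithinAt_const
  have hpc : ContinuousWithinAt (fun y => max (t y) 0) X x := htc.sup continuousWithinAt_const
  have hn : ConicalWithinAt (fun y => max (-t y) 0) X x :=
    ht.neg.rmax (hcst 0) htc.neg continuousWithinAt_const
  have hnc : ContinuousWithinAt (fun y => max (-t y) 0) X x :=
    htc.neg.sup continuousWithinAt_const
  have hr : (Finset.range (i + 1)).Nonempty := ⟨0, by simp⟩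
  have k1 := conicalWithinAt_fsup' hr (fun j => (hq _ hp hpc j).1) (fun j => (hq _ hp hpc j).2)
  have k2 := conicalWithinAt_fsup' hr (fun j => (hq _ hn hnc j).1) (fun j => (hq _ hn hnc j).2)
  have e1 : ∀ y, ρ ^ i < a y → qo ρ R (a y) (t y) =
      ((Finset.range (i + 1)).sup' hr fun j => qt ρ R j (a y) (max (t y) 0)) -
        ((Finset.range (i + 1)).sup' hr fun j => qt ρ R j (a y) (max (-t y) 0)) := by
    intro y hy
    simp only [qo]
    rw [qf_local hρ0 hρ1 hR hy.le (le_max_right _ _),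
      qf_local hρ0 hρ1 hR hy.le (le_max_right _ _)]
  refine ⟨(k1.1.sub k2.1).congr_nhds (Eventually.of_forall fun y => Iff.rfl) ?_ (e1 x hi), ?_⟩
  · filter_upwards [hev] with y hy hyX
    exact e1 y (hy hyX)
  · refine (k1.2.sub k2.2).congr_of_eventuallyEq ?_ (e1 x hi)
    rw [Filter.EventuallyEq, eventually_nhdsWithin_iff]
    filter_upwards [hev] with y hy hyX
    exact e1 y (hy hyX)

end Vale.Agent.P073.H726
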