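import Vale.Agent.P073.H239.FSpec2
import Vale.Agent.P073.H439.Ener
import Vale.Agent.P073.H16.GSetSpec
import Vale.Agent.P073.H761.SmTools
import Vale.Agent.P073.H726.PreF1

/-!
# P073, block B10, **[PRE-F]**: the assembly `SpecPreFAsm`
-/

open Set Metric Topology Filter MeasureTheory Matrix
open scoped ENNReal NNReal

namespace Vale.Agent.P073.H726

open Vale.Agent.P073
open Vale.Agent.P073.St (V Mat)
open Vale.Agent.P073.SQ (ev)
open Vale.Agent.P073.LOC (Near Q1 BdClose)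
open Vale.Agent.P073.AB (Idx Part pt edge eInt squ FaceOf EdgeOf EdgeOfSq MinSq cl FinDist RatGood)
open Vale.Agent.P073.H194 (sInt cellT Gen partMesh Rg up)
open Vale.Agent.P073.H235 (Bx Fr Co cmp cmpD P2 En rect redge VData VData2 GSet)
open Vale.Agent.P073.H304 (K3C)
open Vale.Agent.P073.H696 (R2 HF)
open Vale.Agent.P073.H851 (M3)
open Vale.Agent.P073.H239
open _root_.P073 (ConHomeo)
open _root_.P073.Net (dyc dyo IsTile SizeFn)

theorem tgB_mono {p Cu : ℝ} {Lc : M3 → ℝ} {δ : ℝ} {j : ℕ} {ε : ℝ} {Ω Λ : Set V} {f : V → V}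
    {F : V → Mat} {v : V} {X : R2 p Cu Lc δ j ε Ω Λ f F v} {c c' : ℝ} (h : c ≤ c') {nS : ℕ}
    {a b : Fin 3 → ℤ} {mt : ℕ} {G : Finset (Fin 3 → ℤ)} {gg : V → V}
    (H : TgB c X nS a b mt G gg) : TgB c' X nS a b mt G gg :=
  { H with
    tan := fun k hk x hx z hz => H.tan k hk x hx z fun i hi =>
      ⟨le_trans (by gcongr) (hz i hi).1, (hz i hi).2.trans (by gcongr)⟩ }

theorem hf_fin {p C₀ θ κ : ℝ} {m₀ : ℕ} {Λ : Set V} {f : V → V} {F : V → Mat} (hp : 0 < p)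
    (D : VData p C₀ θ κ m₀ Λ f F) :
    ∫⁻ y, HF p (Bx (H235.fl θ)) (cmpD (H235.fl θ) F) y ≠ ⊤ := by
  refine ne_top_of_le_ne_top D.fin (lintegral_mono_ae ?_)
  have h : ∀ᵐ x ∂(volume : Measure V), x ∉ D.N := measure_eq_zero_iff_ae_notMem.1 D.null
  filter_upwards [h] with x hx
  unfold HF
  by_cases hxB : x ∈ Bx (H235.fl θ)
  · rw [indicator_of_mem hxB]
    exact (D.eq x hxB hx).ge
  · rw [indicator_of_notMem hxB]
    have h0 : ‖(0 : V →L[ℝ] V)‖ₑ ^ p = 0 := by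
      rw [← ofReal_norm, norm_zero, ENNReal.ofReal_zero, ENNReal.zero_rpow_of_pos hp]
    exact h0.le.trans zero_le

set_option maxHeartbeats 1000000 in
/-- **(F9) [PRE-F]**: the assembly of the data before `K3C` -/
theorem specPreFAsm {p : ℝ} (hp : 1 ≤ p) : SpecPreFAsm p := by
  intro hVB hRQ hBox hPB hTgt hDom hK hCh hEnF hPlF hTgF hEdF
  obtain ⟨Cu, Lc, hCu, hLc, hTgt'⟩ := hTgt
  obtain ⟨Cc, hCc, hCh'⟩ := hCh hK
  obtain ⟨C, hC, hEn'⟩ := hEnF Cc hCc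
  obtain ⟨Ke, hKe, hEd'⟩ := hEdF
  refine ⟨Cu, C, Lc, hCu, hC, fun ν hν hν4 => ⟨1 / 2, by norm_num,
    fun θ hθ hθ2 τ hτ j δ c ε hj hδ hc hε hε1 => ?_⟩⟩
  obtain ⟨e, rfl⟩ : ∃ e, ε = 3 * e := ⟨ε / 3, by ring⟩
  have he : 0 < e := by linarith
  have he3 : e ≤ 3 * e := by linarith
  -- the numbers
  obtain ⟨b₀, hb₀, hTg⟩ := hTgt' e he
  set b : ℝ := min b₀ (1 / 2) with hb
  have hb0 : 0 < b := lt_min hb₀ (by norm_num)
  obtain ⟨κP, hκP, hP⟩ := hPB 16 (3 * e) b (by norm_num) hε hb0 (min_le_right _ _)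
  obtain ⟨m₀, -, hm₀⟩ := PF.exists_pow_le (lt_min (show 0 < ν / 16 by positivity)
    (lt_min (show 0 < θ / 2 by positivity) hτ)) 0
  have hm1 : (1:ℝ) / 2 ^ m₀ ≤ ν / 16 := hm₀.trans (min_le_left _ _)
  have hm2 : (1:ℝ) / 2 ^ m₀ ≤ θ / 2 := (hm₀.trans (min_le_right _ _)).trans (min_le_left _ _)
  have hm3 : (1:ℝ) / 2 ^ m₀ ≤ τ := (hm₀.trans (min_le_right _ _)).trans (min_le_right _ _)
  set u : ℝ := e / Ke with hu
  have hu0 : 0 < u := by positivity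
  have hs0 : 0 < (κP / 2) ^ (1 - p) := Real.rpow_pos_of_pos (by positivity) _
  set κ : ℝ := min (min (ν * θ) u) (κP / 2 / (κP / 2) ^ (1 - p)) with hκ
  have hκ0 : 0 < κ := lt_min (lt_min (by positivity) hu0) (by positivity)
  have hκ1 : κ ≤ ν * θ := (min_le_left _ _).trans (min_le_left _ _)
  have hκ2 : κ ≤ u := (min_le_left _ _).trans (min_le_right _ _)
  have hκ4 : (κP / 2) ^ (1 - p) * κ ≤ κP / 2 := by
    have h1 : κ ≤ κP / 2 / (κP / 2) ^ (1 - p) := min_le_right _ _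
    rw [le_div_iff₀ hs0] at h1
    linarith
  obtain ⟨κ', hκ', HV⟩ := hVB p 16 hp H16.specGSet θ κ m₀ hθ hθ2 hκ0
  refine ⟨κ', hκ', fun Λ f F hN => ?_⟩
  obtain ⟨hhom, hsob, D, hgen, hown⟩ := HV Λ f F hN
  have hΛ := hN.dom
  obtain ⟨-, -, -, -, -, E6⟩ := H439.EN.specEner p 16 θ κ m₀ Λ f F hp hθ hθ2 D
  -- the rectangle
  obtain ⟨α, β, hα, hlt0, hquad, hsize, hRg, hcard, hcov⟩ :=
    hRQ ν θ D.v m₀ D.B hν hν4 hθ hm1 hm2 D.mid
  have hlt : ∀ i, i ≠ 2 → α i < β i := by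
    intro i hi
    fin_cases i
    · exact hlt0
    · show α 1 < β 1
      omega
    · exact absurd rfl hi
  have hUd : St.IsBoundedDomain (Bx (H235.fl θ)) := H761.isBoundedDomain_Bx fun i => by
    fin_cases i <;> simp [H235.fl, hθ]
  have hsq : ∀ k ∈ rect α β, squ D.v ((m₀, k), 2) ⊆ Rg D.v m₀ α β := fun k hk =>
    H194.squ_sub_Rg (a := α) (b := β) ⟨le_rfl, by simp, by simp⟩ hk
  have hS₀ : ∀ k ∈ rect α β, k 2 = D.B ∧ squ D.v ((m₀, k), 2) ⊆ Bx (H235.fl θ) := fun k hk =>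
    ⟨by rw [(H194.mem_rect.1 hk).1, hα], (hsq k hk).trans hRg⟩
  have hsum : ∑ k ∈ rect α β, sInt D.v ((m₀, k), 2)
      (fun x => ‖AB.cl (cmpD (H235.fl θ) F x) - P2‖ₑ) ≤ ENNReal.ofReal κP := by
    refine ((E6 m₀ _ fun k hk => (hS₀ k hk).2).2 (κP / 2) (by positivity)).trans ?_
    calc _ ≤ ENNReal.ofReal (κP / 2) + ENNReal.ofReal ((κP / 2) ^ (1 - p)) * ENNReal.ofReal κ := by
          gcongr
          · have h1 : ((rect α β).card : ℝ) ≤ 4 ^ m₀ := by exact_mod_cast hcard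
            have h2 : ((rect α β).card : ℝ) / 4 ^ m₀ ≤ 1 := by
              rw [div_le_one (by positivity)]; exact h1
            nlinarith
          · exact D.slice _ hS₀
      _ ≤ ENNReal.ofReal (κP / 2) + ENNReal.ofReal (κP / 2) := by
          rw [← ENNReal.ofReal_mul hs0.le]
          gcongr
      _ = _ := by rw [← ENNReal.ofReal_add (by positivity) (by positivity)]; congr 1; ring
  have hSc : IsCompact (Rg D.v m₀ α β) := H194.isCompact_Rg _ _ _ _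
  have hS0 : volume (Rg D.v m₀ α β) = 0 :=
    PF.volume_plane (i := 2) (c := D.v 2 + α 2 / 2 ^ m₀) fun x hx => hx.1
  obtain ⟨r₀, hr₀, ε₂, hε₂, hEnB⟩ :=
    hEn' 16 θ ν κ m₀ Λ f F D hθ hθ2 hν hν4 hκ1 (3 * e) hε
  obtain ⟨l₀, hEdB⟩ := hEd' 16 θ κ m₀ Λ f F hθ hθ2 hκ0 D α β hα hlt hRg hcard u hu0
  have hHf := hf_fin (by linarith) D.toVData
  have hHf' : ∫⁻ y in Bx (H235.fl θ), HF p (Bx (H235.fl θ)) (cmpD (H235.fl θ) F) y ≠ ⊤ :=
    ne_top_of_le_ne_top hHf (setLIntegral_le_lintegral _ _)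
  -- the plates
  have hCc0 : 0 < Cc := by linarith
  obtain ⟨rz, hrz, hz⟩ := PF.exists_zo hUd.1 hhom hRg hSc hS0 hHf'
    (η := ENNReal.ofReal (e / Cc)) (ENNReal.ofReal_pos.2 (by positivity)).ne'
  obtain ⟨n₀, hP'⟩ := hP (Bx (H235.fl θ)) Λ (cmp (H235.fl θ) f) _ D.v m₀ (rect α β) D.B hUd.1
    hΛ.1 hhom D.gset hS₀ hcard hsum (min (rz / 2) e) (lt_min (by positivity) he)
  obtain ⟨G₃, j₀, hG1, hG2, hP''⟩ := hP' (max n₀ m₀) (le_max_left _ _)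
  obtain ⟨ι, hι, lo, hi, R, rP, hrP, hPF, hR, hgr, hbx, hpl⟩ := hP'' j₀ le_rfl
  obtain ⟨r, hr, hrr, Kc, hKcΛ, hKc, hKcm⟩ := PF.exists_kc hΛ.1 hhom hRg hSc hrP
  have hZo : ∃ r > 0, ∫⁻ x in {x | x ∈ Bx (H235.fl θ) ∧ ∃ y ∈ ⋃ z, bx (lo z) (hi z) (R z),
      ‖cmp (H235.fl θ) f x - y‖ ≤ r}, HF p (Bx (H235.fl θ)) (cmpD (H235.fl θ) F) x ≤
      ENNReal.ofReal (e / Cc) := by
    refine ⟨rz / 2, by positivity, le_trans (lintegral_mono_set ?_) hz⟩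
    rintro x ⟨hx, y, hy, hxy⟩
    obtain ⟨z, hy⟩ := mem_iUnion.1 hy
    obtain ⟨k, hk, x', hx', hyx⟩ := hbx z y hy
    refine ⟨hx, x', hsq k hk hx', ?_⟩
    calc _ ≤ ‖cmp (H235.fl θ) f x - y‖ + ‖y - cmp (H235.fl θ) f x'‖ :=
          norm_sub_le_norm_sub_add_norm_sub _ _ _
      _ ≤ rz / 2 + rz / 2 := add_le_add hxy (hyx.trans (min_le_left _ _))
      _ = rz := by ring
  -- the oracles
  obtain ⟨εB, hεB, M₀, hM₀, hBO⟩ := hBox (Bx (H235.fl θ)) Λ (cmp (H235.fl θ) f)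
    (cmpD (H235.fl θ) F) D.v D.nn hUd hΛ hhom hsob D.mono D.rat hgen hown (Rg D.v m₀ α β) hRg hSc
    hS0 e he
  set cT : ℝ := min c (δ / 4) with hcT
  have hcT0 : 0 < cT := lt_min hc (by positivity)
  have hTO := hTg (Bx (H235.fl θ)) Λ hΛ ι hι lo hi R b r cT j₀ Kc (min_le_left _ _) hPF
    (fun z => (hR z).trans (min_le_right _ _)) hr hcT0 hKcΛ hKc hgr M₀ hM₀ j D.v (by omega)
  have hDO := hDom (Bx (H235.fl θ)) D.v D.nn (HF p (Bx (H235.fl θ)) (cmpD (H235.fl θ) F))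
    (Rg D.v m₀ α β) r₀ (max (max n₀ m₀) (D.nn l₀)) hUd D.mono hgen hHf hr₀ hRg hSc
  -- the chain
  set bc : ℝ := min r (min u 1) with hbc
  have hbc0 : 0 < bc := lt_min hr (lt_min hu0 one_pos)
  have hbcu : bc ≤ u := (min_le_right _ _).trans (min_le_left _ _)
  have hbc1 : bc ≤ 1 := (min_le_right _ _).trans (min_le_right _ _)
  obtain ⟨X, I, k₁, r', O⟩ := hCh' Cu δ Lc j hCu hLc hδ hj (Bx (H235.fl θ)) Λ
    (cmp (H235.fl θ) f) (cmpD (H235.fl θ) F) D.v D.nn εB e (3 * e) ε₂ M₀ bc r₀ (Rg D.v m₀ α β)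
    _ _ _ hUd hΛ hhom hsob D.rat D.mono hgen he he3 hε1 hε₂ hM₀ hbc0 hr₀ hRg hSc hZo hBO hTO hDO
  obtain ⟨mt, gg, hr', hTP⟩ := O.xt
  obtain ⟨nS, hN₁, ⟨l, hl⟩, hgS⟩ := O.xd
  subst hl
  have hn₃ : max n₀ m₀ ≤ D.nn l := (le_max_left _ _).trans hN₁
  have hmS : m₀ ≤ D.nn l := (le_max_right _ _).trans hn₃
  have hll : l₀ ≤ l := D.mono.le_iff_le.1 ((le_max_right _ _).trans hN₁)
  have hsc := H194.sc_up hmS α β
  -- the middle plane
  have pl : PlB θ ν τ X (D.nn l) (up m₀ (D.nn l) α) (up m₀ (D.nn l) β) :=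
    hPlF p Cu Lc δ j (3 * e) θ ν τ Λ (cmp (H235.fl θ) f) (cmpD (H235.fl θ) F) D.v X I k₁ m₀
      (D.nn l) D.B α β hθ hν D.mid hm3 hα hlt0 hquad hsize hRg hcov O.eq O.off hmS hgS
  have hnear : ∀ x ∈ Rg D.v m₀ α β, ‖X.h₁.toFun x - cmp (H235.fl θ) f x‖ ≤ bc := fun x hx =>
    O.close x (hRg hx) fun k hk hxk => Set.disjoint_left.1 (O.off k hk) hxk hx
  have hup : ∀ i, i ≠ 2 → up m₀ (D.nn l) α i < up m₀ (D.nn l) β i := fun i hi => by
    show 2 ^ (D.nn l - m₀) * α i < 2 ^ (D.nn l - m₀) * β i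
    exact mul_lt_mul_of_pos_left (hlt i hi) (by positivity)
  -- the energies
  have en : EnB C θ ν X (D.nn l) (up m₀ (D.nn l) α) (up m₀ (D.nn l) β) :=
    hEnB Cu Lc δ j X (D.nn l) (up m₀ (D.nn l) α) (up m₀ (D.nn l) β)
      (by rw [hsc.div_a 2, hα]) hup O.en
  -- the target
  obtain ⟨G, tp⟩ := hTgF p Cu Lc δ j (3 * e) (Bx (H235.fl θ)) Λ (cmp (H235.fl θ) f)
    (cmpD (H235.fl θ) F) D.v X m₀ (max n₀ m₀) (D.nn l) mt α β G₃ ι lo hi R b r cT Kc gg hr hcT0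
    (min_le_right _ _) hlt hRg (le_max_right _ _) hn₃ hG1 hG2
    (fun k hk => by
      obtain ⟨z, hz⟩ := hpl k hk
      refine ⟨z, fun x hx y hy => (hz x hx y (hy.trans hrr)).trans ?_⟩
      linarith)
    hKcm O.off (fun x hx => (hnear x hx).trans (min_le_left _ _)) pl.minS
    (fun a ha => (O.small a ha).trans (hr' a).le) hTP
  -- the edges
  obtain ⟨Xe, ed⟩ := hEdB l hll hmS Cu Lc δ j (3 * e) X bc hbc0 hbc1
    (by
      have h1 : Ke * u = e := by rw [hu]; field_simp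
      calc Ke * (κ + u + bc) ≤ Ke * (u + u + u) := by gcongr
        _ = 3 * (Ke * u) := by ring
        _ = 3 * e := by rw [h1])
    (fun i hi k hk => O.edge ((D.nn l, k), i) (pl.minE i hi k hk) fun k' hk' =>
      (O.off k' hk').symm.mono_left (H194.edge_sub_Rg hsc hi hk))
  exact ⟨D.v, ⟨{
    toR2 := X
    nS := D.nn l
    a := up m₀ (D.nn l) α
    b := up m₀ (D.nn l) β
    mt := mt
    G := G
    gg := gg
    Xe := Xe
    en := en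
    pl := pl
    tp := tgB_mono (min_le_left _ _) tp
    ed := ed }⟩⟩

end Vale.Agent.P073.H726
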