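import Vale.Agent.P073.H726.PreF2
import Vale.Agent.P073.H819.PlateB
import Vale.Agent.P073.H819.TgF
import Vale.Agent.P073.H851.TgtF
import Vale.Agent.P073.H953.EnF2
import Vale.Agent.P073.H193.PlF
import Vale.Agent.P073.H582.EdB
import Vale.Agent.P073.H911.BoxAt
import Vale.Agent.P073.H194.DomL
import Vale.Agent.P073.H83.RectQ
import Vale.Agent.P073.H83.VB
import Vale.Agent.P073.H407.PostF

/-!
# P073, block B10: rank two, `p ≥ 3`, from the open leaves
-/

namespace Vale.Agent.P073.H726

open Vale.Agent.P073.H304 (K3C)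
open Vale.Agent.P073.H235 (P2)
open Vale.Agent.P073.H239

/-- the data before `K3C`, rank two -/
theorem specPreF {p : ℝ} (hp : 3 ≤ p) (hK : K3C p) (hC : SpecChain p) : SpecPreF p :=
  specPreFAsm (by linarith) H83.specVB H83.specRectQ (H911.specBoxAt hp) H819.specPlateB
    H851.specTgtF H194.specDomL hK hC (H953.specEnF (by linarith)) H193.specPlF H819.specTgF
    (H582.specEdF (by linarith))

/-- rank two, `p ≥ 3` -/
theorem specConFlatB {p : ℝ} (hp : 3 ≤ p) (hK : K3C p) (hC : SpecChain p)
    (hR : SpecR2F p) (hRo : SpecRowsB) : SpecConFlatB p P2 :=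
  specConFlatB_of hK (specPreF hp hK hC) (H407.specPostFOf (by linarith) hR hRo)

end Vale.Agent.P073.H726
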