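import Vale.Agent.P073.H726.FinAll
import Vale.Agent.P073.H304.SegJoin
import Vale.Agent.P073.H950.SpecGlue
import Vale.Agent.P073.H605.GlueTop

/-!
# P073: `3 ≤ p`, the filler part plugged
-/

open Set Metric Topology Filter MeasureTheory

namespace Vale.Agent.P073.H726

open Vale.Agent.P073
open Vale.Agent.P073.St (V Mat)
open Vale.Agent.P073.H304 (K3C)
open Vale.Agent.P073.H608 (Full)
open Vale.Agent.P073.H234.GX (GXT GXOk)

/-- the full theorem for `3 ≤ p`, from a generic property of the origin with families of conical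
approximations on the rational boxes, the hybrid map and `K3C` -/
theorem full_of_fam {p : ℝ} (hp : 3 ≤ p) {GX : GXT} (hG : GXOk p GX) (hHy : H304.SpecHyb)
    (hX : ∀ (Ω Λ : Set V) (f : V → V) (F : V → Mat) (v : V) (nn : ℕ → ℕ),
      St.IsBoundedDomain Ω → St.IsBoundedDomain Λ → St.IsHomeo Ω Λ f → St.IsSobolev p Ω f F →
      GX Ω f F v nn → ∀ R ∈ H989.ratBoxes Ω, ∃ (φ : ℕ → V → V) (G : ℕ → V → Mat),
        H304.Fam Ω v nn R f F φ G) (hK : K3C p) : Full p :=
  full_of_seg hp hG (H304.specSegNet_of (by linarith) (H950.specGlue_of H605.glueBox) hHy hX) hK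

end Vale.Agent.P073.H726
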