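import Vale.Agent.P073.HB.Acl2
import Mathlib.MeasureTheory.Group.FundamentalDomain
import Mathlib.MeasureTheory.Integral.IntervalIntegral.Periodic
import Mathlib.MeasureTheory.Function.Floor

/-!
# P073: choice of the offset of a periodic family of levels
-/

namespace Vale.Agent.P073.H726

open MeasureTheory Set Filter Topology
open scoped ENNReal NNReal

/-- the transition part of the levels: the last fraction `τ` of every period `s` -/
def trs (s τ : ℝ) : Set ℝ := {t | 1 - τ ≤ Int.fract (t / s)}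

variable {s τ : ℝ}

theorem mem_trs {t : ℝ} : t ∈ trs s τ ↔ 1 - τ ≤ Int.fract (t / s) := Iff.rfl

theorem measurableSet_trs (s τ : ℝ) : MeasurableSet (trs s τ) :=
  measurableSet_le measurable_const (measurable_fract.comp (measurable_id.div_const s))

theorem trs_add_int (hs : s ≠ 0) (t : ℝ) (k : ℤ) : t + k * s ∈ trs s τ ↔ t ∈ trs s τ := by
  rw [mem_trs, mem_trs]
  have : (t + k * s) / s = t / s + k := by field_simp
  rw [this, Int.fract_add_intCast]

/-- one period, starting at `0` -/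
theorem volume_trs_zero (hs : 0 < s) (h1 : τ ≤ 1) :
    volume (trs s τ ∩ Ioc 0 s) = ENNReal.ofReal (τ * s) := by
  have e : volume (trs s τ ∩ Ioc 0 s) = volume (Ico ((1 - τ) * s) s) := by
    refine measure_congr ?_
    have h2 : ∀ᵐ t : ℝ, t ≠ s := by simp [ae_iff, measure_singleton]
    have h3 : ∀ᵐ t : ℝ, t ≠ 0 := by simp [ae_iff, measure_singleton]
    filter_upwards [h2, h3] with t ht ht0
    refine propext ?_
    show t ∈ trs s τ ∩ Ioc 0 s ↔ t ∈ Ico ((1 - τ) * s) s
    constructor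
    · rintro ⟨ha, hb⟩
      have hlt : t < s := lt_of_le_of_ne hb.2 ht
      rw [mem_trs, Int.fract_eq_self.2 ⟨by have := hb.1; positivity, by rwa [div_lt_one hs]⟩,
        le_div_iff₀ hs] at ha
      exact ⟨ha, hlt⟩
    · rintro ⟨ha, hb⟩
      have hnn : 0 ≤ t := le_trans (by nlinarith) ha
      have hpos : 0 < t := lt_of_le_of_ne hnn (Ne.symm ht0)
      refine ⟨?_, hpos, hb.le⟩
      rw [mem_trs, Int.fract_eq_self.2 ⟨by positivity, by rwa [div_lt_one hs]⟩, le_div_iff₀ hs]
      exact ha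
  rw [e, Real.volume_Ico]
  congr 1
  ring

/-- one period, starting anywhere -/
theorem volume_trs (hs : 0 < s) (h1 : τ ≤ 1) (a : ℝ) :
    volume (trs s τ ∩ Ioc a (a + s)) = ENNReal.ofReal (τ * s) := by
  have d1 := isAddFundamentalDomain_Ioc hs a (volume : Measure ℝ)
  have d2 := isAddFundamentalDomain_Ioc hs 0 (volume : Measure ℝ)
  have h := d1.measure_set_eq d2 (measurableSet_trs s τ) (by
    rintro ⟨g, hg⟩
    obtain ⟨k, hk⟩ := AddSubgroup.mem_zmultiples_iff.1 hg
    ext t
    show g + t ∈ trs s τ ↔ t ∈ trs s τ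
    rw [← hk, zsmul_eq_mul, add_comm, trs_add_int hs.ne'])
  rw [zero_add] at h
  rw [h, volume_trs_zero hs h1]

theorem volume_offset (hs : 0 < s) (h1 : τ ≤ 1) (t : ℝ) :
    volume ({c | t - c ∈ trs s τ} ∩ Ico 0 s) = ENNReal.ofReal (τ * s) := by
  have e : {c | t - c ∈ trs s τ} ∩ Ico 0 s =
      (fun c => t - c) ⁻¹' (trs s τ ∩ Ioc (t - s) (t - s + s)) := by
    ext c
    simp only [mem_inter_iff, mem_ofPred_eq, mem_Ico, mem_preimage, mem_Ioc]
    constructor
    · rintro ⟨a, b, c⟩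
      exact ⟨a, by linarith, by linarith⟩
    · rintro ⟨a, b, c⟩
      exact ⟨a, by linarith, by linarith⟩
  rw [e, (Measure.measurePreserving_sub_left (volume : Measure ℝ) t).measure_preimage
    ((measurableSet_trs s τ).inter measurableSet_Ioc).nullMeasurableSet, volume_trs hs h1]

section offset

variable {X : Type*} [MeasurableSpace X] {μ : Measure X} [SFinite μ] {u : X → ℝ}

theorem lintegral_offset (hs : 0 < s) (h1 : τ ≤ 1) (hu : Measurable u)
    {h : X → ℝ≥0∞} (hm : AEMeasurable h μ) :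
    AEMeasurable (fun c : ℝ => ∫⁻ x, (trs s τ).indicator 1 (u x - c) * h x ∂μ) ∧
    ∫⁻ c in Ico 0 s, (∫⁻ x, (trs s τ).indicator 1 (u x - c) * h x ∂μ) =
      ENNReal.ofReal (τ * s) * ∫⁻ x, h x ∂μ := by
  have hI : Measurable ((trs s τ).indicator (1 : ℝ → ℝ≥0∞)) :=
    measurable_one.indicator (measurableSet_trs s τ)
  have hI2 : Measurable fun q : ℝ × X => (trs s τ).indicator (1 : ℝ → ℝ≥0∞) (u q.2 - q.1) :=
    hI.comp ((hu.comp measurable_snd).sub measurable_fst)
  have hm2 : AEMeasurable (fun q : ℝ × X => (trs s τ).indicator (1 : ℝ → ℝ≥0∞) (u q.2 - q.1) *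
      h q.2) ((volume : Measure ℝ).prod μ) :=
    hI2.aemeasurable.mul hm.comp_snd
  have hm3 : AEMeasurable (fun q : ℝ × X => (trs s τ).indicator (1 : ℝ → ℝ≥0∞) (u q.2 - q.1) *
      h q.2) (((volume : Measure ℝ).restrict (Ico 0 s)).prod μ) :=
    hI2.aemeasurable.mul hm.comp_snd
  refine ⟨hm2.lintegral_prod_right', ?_⟩
  rw [lintegral_lintegral_swap hm3, ← lintegral_const_mul'' _ hm]
  refine lintegral_congr fun x => ?_
  have hmc : Measurable fun c : ℝ => (trs s τ).indicator (1 : ℝ → ℝ≥0∞) (u x - c) :=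
    hI.comp (measurable_const.sub measurable_id)
  rw [lintegral_mul_const'' _ hmc.aemeasurable]
  congr 1
  have e : ∀ c, (trs s τ).indicator (1 : ℝ → ℝ≥0∞) (u x - c) =
      {c | u x - c ∈ trs s τ}.indicator 1 c := fun c => rfl
  have hmeas : MeasurableSet {c | u x - c ∈ trs s τ} :=
    (measurable_const.sub measurable_id) (measurableSet_trs s τ)
  simp only [e]
  rw [lintegral_indicator_one hmeas, Measure.restrict_apply hmeas, volume_offset hs h1]

/-- **choice of the offset**: finitely many weights are simultaneously small on the transition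
part, and any almost sure property can be had in addition -/
theorem exists_offset (hs : 0 < s) (h0 : 0 < τ) (h1 : τ ≤ 1) (hu : Measurable u) {ι : Type*}
    (J : Finset ι) {h : ι → X → ℝ≥0∞} (hm : ∀ i ∈ J, AEMeasurable (h i) μ) {Q : ℝ → Prop}
    (hQ : ∀ᵐ c : ℝ, Q c) :
    ∃ c ∈ Ico 0 s, Q c ∧ ∀ i ∈ J, ∫⁻ x, (trs s τ).indicator 1 (u x - c) * h i x ∂μ ≤
      J.card * ENNReal.ofReal τ * ∫⁻ x, h i x ∂μ := by
  have hB0 : (volume : Measure ℝ) (Ico 0 s) ≠ 0 := by
    rw [Real.volume_Ico, sub_zero, Ne, ENNReal.ofReal_eq_zero]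
    linarith
  have hBt : (volume : Measure ℝ) (Ico 0 s) ≠ ⊤ := by
    rw [Real.volume_Ico]; exact ENNReal.ofReal_ne_top
  obtain ⟨c, hc, hQc, hJ⟩ := HB.exists_good_point (ν := (volume : Measure ℝ)) hB0 hBt
    measurableSet_Ico J (fun i c => ∫⁻ x, (trs s τ).indicator 1 (u x - c) * h i x ∂μ)
    (fun i hi => (lintegral_offset hs h1 hu (hm i hi)).1.restrict) (P := Q)
    (by filter_upwards [hQ] with c hc _ using hc)
  refine ⟨c, hc, hQc, fun i hi => ?_⟩
  have h2 := hJ i hi
  rw [(lintegral_offset hs h1 hu (hm i hi)).2, Real.volume_Ico, sub_zero,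
    ENNReal.ofReal_mul h0.le] at h2
  have hs0 : ENNReal.ofReal s ≠ 0 := by
    rw [Ne, ENNReal.ofReal_eq_zero]; linarith
  rw [← ENNReal.mul_le_mul_iff_left hs0 ENNReal.ofReal_ne_top]
  refine h2.trans (le_of_eq ?_)
  ring

end offset

end Vale.Agent.P073.H726
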