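import Vale.Agent.P073.ConHomeo
import Vale.Agent.P073.St

/-!
# P073: the asymmetric sawtooth, and homeomorphisms of the form `y - D(y) e_j`
-/

namespace Vale.Agent.P073.H726

open Set Filter Topology Vale.Agent.P073.St
open scoped NNReal

/-! ### The sawtooth -/

/-- asymmetric sawtooth: slope `α` to the right of an integer, slope `-β` to the left -/
noncomputable def saw (α β r : ℝ) : ℝ := min (α * Int.fract r) (β * (1 - Int.fract r))

variable {α β : ℝ}

theorem saw_nonneg (hα : 0 ≤ α) (hβ : 0 ≤ β) (r : ℝ) : 0 ≤ saw α β r :=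
  le_min (mul_nonneg hα (Int.fract_nonneg _))
    (mul_nonneg hβ (by linarith [Int.fract_lt_one r]))

theorem saw_le (hα : 0 ≤ α) (r : ℝ) : saw α β r ≤ α :=
  (min_le_left _ _).trans (mul_le_of_le_one_right hα (Int.fract_lt_one r).le)

/-- the cone with vertex `0` -/
noncomputable def tooth (α β r : ℝ) : ℝ := max (α * r) (β * (-r))

theorem saw_le_tooth (hα : 0 ≤ α) (hβ : 0 ≤ β) (r : ℝ) (k : ℤ) :
    saw α β r ≤ tooth α β (r - k) := by
  rcases le_or_gt (k : ℝ) r with h | h
  · have h1 : (k : ℝ) ≤ ⌊r⌋ := by exact_mod_cast Int.le_floor.2 h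
    have h2 : Int.fract r ≤ r - k := by
      have := Int.floor_add_fract r
      linarith
    exact (min_le_left _ _).trans ((mul_le_mul_of_nonneg_left h2 hα).trans (le_max_left _ _))
  · have h1 : (⌊r⌋ : ℝ) + 1 ≤ k := by
      have : ⌊r⌋ < k := Int.floor_lt.2 h
      exact_mod_cast this
    have h2 : 1 - Int.fract r ≤ -(r - k) := by
      have := Int.floor_add_fract r
      linarith
    exact (min_le_right _ _).trans ((mul_le_mul_of_nonneg_left h2 hβ).trans (le_max_right _ _))

theorem exists_saw_eq (hα : 0 ≤ α) (hβ : 0 ≤ β) (r : ℝ) :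
    ∃ k : ℤ, (k = ⌊r⌋ ∨ k = ⌊r⌋ + 1) ∧ saw α β r = tooth α β (r - k) := by
  have h0 := Int.fract_nonneg r
  have h1 := (Int.fract_lt_one r).le
  have h2 := Int.floor_add_fract r
  rcases min_cases (α * Int.fract r) (β * (1 - Int.fract r)) with ⟨e, -⟩ | ⟨e, -⟩
  · refine ⟨⌊r⌋, Or.inl rfl, ?_⟩
    rw [saw, e, tooth, max_eq_left]
    · rfl
    · have a1 : 0 ≤ α * (r - ⌊r⌋) := mul_nonneg hα (by linarith)
      have a2 : β * (-(r - ⌊r⌋)) ≤ 0 := mul_nonpos_of_nonneg_of_nonpos hβ (by linarith)
      linarith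
  · refine ⟨⌊r⌋ + 1, Or.inr rfl, ?_⟩
    rw [saw, e, tooth, max_eq_right]
    · congr 1
      push_cast
      linarith
    · push_cast
      have a1 : 0 ≤ β * (-(r - (⌊r⌋ + 1))) := mul_nonneg hβ (by linarith)
      have a2 : α * (r - (⌊r⌋ + 1)) ≤ 0 := mul_nonpos_of_nonneg_of_nonpos hα (by linarith)
      linarith

theorem tooth_up (hα : 0 ≤ α) (hβ : 0 ≤ β) {r r' : ℝ} (h : r ≤ r') :
    tooth α β r' ≤ tooth α β r + α * (r' - r) := by
  refine max_le ?_ ?_
  · have := le_max_left (α * r) (β * (-r))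
    unfold tooth
    nlinarith
  · have h1 := le_max_right (α * r) (β * (-r))
    have h2 : β * (-r') ≤ β * (-r) := mul_le_mul_of_nonneg_left (by linarith) hβ
    have h3 : 0 ≤ α * (r' - r) := mul_nonneg hα (by linarith)
    unfold tooth
    linarith

theorem tooth_down (hα : 0 ≤ α) (hβ : 0 ≤ β) {r r' : ℝ} (h : r ≤ r') :
    tooth α β r ≤ tooth α β r' + β * (r' - r) := by
  refine max_le ?_ ?_
  · have h1 := le_max_left (α * r') (β * (-r'))
    have h2 : α * r ≤ α * r' := mul_le_mul_of_nonneg_left h hα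
    have h3 : 0 ≤ β * (r' - r) := mul_nonneg hβ (by linarith)
    unfold tooth
    linarith
  · have := le_max_right (α * r') (β * (-r'))
    unfold tooth
    nlinarith

theorem saw_up (hα : 0 ≤ α) (hβ : 0 ≤ β) {r r' : ℝ} (h : r ≤ r') :
    saw α β r' ≤ saw α β r + α * (r' - r) := by
  obtain ⟨k, -, hk⟩ := exists_saw_eq hα hβ r
  have h1 := saw_le_tooth hα hβ r' k
  have h2 := tooth_up hα hβ (r := r - k) (r' := r' - k) (by linarith)
  rw [hk]
  have e : r' - k - (r - k) = r' - r := by ring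
  rw [e] at h2
  linarith

theorem saw_down (hα : 0 ≤ α) (hβ : 0 ≤ β) {r r' : ℝ} (h : r ≤ r') :
    saw α β r ≤ saw α β r' + β * (r' - r) := by
  obtain ⟨k, -, hk⟩ := exists_saw_eq hα hβ r'
  have h1 := saw_le_tooth hα hβ r k
  have h2 := tooth_down hα hβ (r := r - k) (r' := r' - k) (by linarith)
  rw [hk]
  have e : r' - k - (r - k) = r' - r := by ring
  rw [e] at h2
  linarith

theorem abs_saw_sub_le (hα : 0 ≤ α) (hβ : 0 ≤ β) (r r' : ℝ) :
    |saw α β r - saw α β r'| ≤ max α β * |r - r'| := by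
  wlog h : r ≤ r' generalizing r r'
  · rw [abs_sub_comm, abs_sub_comm r]
    exact this r' r (le_of_not_ge h)
  have h1 := saw_up hα hβ h
  have h2 := saw_down hα hβ h
  have h3 : 0 ≤ r' - r := by linarith
  have h4 : α * (r' - r) ≤ max α β * (r' - r) := by gcongr; exact le_max_left _ _
  have h5 : β * (r' - r) ≤ max α β * (r' - r) := by gcongr; exact le_max_right _ _
  rw [abs_sub_comm r r', abs_of_nonneg h3, abs_le]
  constructor <;> linarith

/-- the sawtooth is conical -/
theorem conicalOn_tooth (α β k : ℝ) :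
    _root_.P073.ConicalOn (fun r : ℝ => tooth α β (r - k)) univ := by
  have hu : _root_.P073.ConicalSet (univ : Set ℝ) := _root_.P073.IsOpen.conicalSet isOpen_univ
  have h1 : _root_.P073.ConicalOn (fun r : ℝ => r - k) univ :=
    (_root_.P073.conicalOn_id hu).sub (_root_.P073.conicalOn_const k hu)
  have h2 : _root_.P073.ConicalOn (fun r : ℝ => α * (r - k)) univ := h1.const_smul α
  have h3 : _root_.P073.ConicalOn (fun r : ℝ => β * (-(r - k))) univ := (h1.neg).const_smul β
  exact h2.rmax h3 (by fun_prop) (by fun_prop)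

theorem continuous_tooth (α β : ℝ) : Continuous (tooth α β) := by
  unfold tooth; fun_prop

theorem saw_eq_near (hα : 0 ≤ α) (hβ : 0 ≤ β) {r r0 : ℝ} (h1 : (⌊r0⌋ : ℝ) - 1 ≤ r)
    (h2 : r < ⌊r0⌋ + 1) :
    saw α β r = min (tooth α β (r - (⌊r0⌋ - 1))) (min (tooth α β (r - ⌊r0⌋))
      (tooth α β (r - (⌊r0⌋ + 1)))) := by
  apply le_antisymm
  · refine le_min ?_ (le_min (saw_le_tooth hα hβ r _) ?_)
    · have := saw_le_tooth hα hβ r (⌊r0⌋ - 1)
      push_cast at this
      exact this
    · have := saw_le_tooth hα hβ r (⌊r0⌋ + 1)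
      push_cast at this
      exact this
  · obtain ⟨k, hk, he⟩ := exists_saw_eq hα hβ r
    rw [he]
    have a1 : ⌊r0⌋ - 1 ≤ ⌊r⌋ := Int.le_floor.2 (by push_cast; exact h1)
    have a2 : ⌊r⌋ < ⌊r0⌋ + 1 := Int.floor_lt.2 (by push_cast; exact h2)
    have a3 : k = ⌊r0⌋ - 1 ∨ k = ⌊r0⌋ ∨ k = ⌊r0⌋ + 1 := by omega
    rcases a3 with rfl | rfl | rfl
    · push_cast
      exact min_le_left _ _
    · exact (min_le_right _ _).trans (min_le_left _ _)
    · push_cast
      exact (min_le_right _ _).trans (min_le_right _ _)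

theorem conicalOn_saw (hα : 0 ≤ α) (hβ : 0 ≤ β) :
    _root_.P073.ConicalOn (saw α β) univ := by
  intro r0 _
  have c := continuous_tooth α β
  have h1 := conicalOn_tooth α β (⌊r0⌋ - 1)
  have h2 := conicalOn_tooth α β ⌊r0⌋
  have h3 := conicalOn_tooth α β (⌊r0⌋ + 1)
  have h4 := h1.rmin (h2.rmin h3 (by fun_prop) (by fun_prop)) (by fun_prop) (by fun_prop)
  have b1 : (⌊r0⌋ : ℝ) - 1 < r0 := by have := Int.floor_le r0; linarith
  have b2 : r0 < ⌊r0⌋ + 1 := Int.lt_floor_add_one r0
  refine (h4 r0 (mem_univ _)).congr_nhds (Eventually.of_forall fun y => Iff.rfl) ?_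
    (saw_eq_near hα hβ b1.le b2)
  filter_upwards [Ioo_mem_nhds b1 b2] with y hy _
  exact saw_eq_near hα hβ hy.1.le hy.2

/-! ### Shears -/

section shear

/-- the map `y ↦ y - D(y) e_j` -/
noncomputable def shr (D : V → ℝ) (j : Fin 3) (y : V) : V := y - D y • Pi.single j 1

variable {D : V → ℝ} {j : Fin 3} {K : ℝ≥0} {l : ℝ}

theorem shr_apply_self (y : V) : shr D j y j = y j - D y := by
  simp [shr]

theorem shr_apply_ne {i : Fin 3} (h : i ≠ j) (y : V) : shr D j y i = y i := by
  simp [shr, h]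

theorem norm_single (j : Fin 3) : ‖(Pi.single j 1 : V)‖ = 1 := by
  rw [Pi.norm_single]; simp

theorem shr_dist (y : V) : ‖shr D j y - y‖ = |D y| := by
  rw [shr, sub_sub_cancel_left, norm_neg, norm_smul, norm_single, mul_one, Real.norm_eq_abs]

theorem shr_lip (hD : LipschitzWith K D) : LipschitzWith (1 + K) (shr D j) := by
  refine LipschitzWith.of_dist_le_mul fun y z => ?_
  have h1 := hD.dist_le_mul y z
  rw [Real.dist_eq] at h1
  rw [dist_eq_norm, dist_eq_norm] at *
  have h2 : shr D j y - shr D j z = (y - z) - (D y - D z) • Pi.single j 1 := by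
    simp only [shr, sub_smul]; abel
  rw [h2]
  refine (norm_sub_le _ _).trans ?_
  rw [norm_smul, norm_single, mul_one, Real.norm_eq_abs]
  push_cast
  linarith

/-- upper bound of the slope of `D` along `e_j` -/
def Slope (D : V → ℝ) (j : Fin 3) (l : ℝ) : Prop :=
  ∀ (y : V) (t : ℝ), 0 ≤ t → D (y + t • Pi.single j 1) ≤ D y + l * t

theorem shr_lower (hD : LipschitzWith K D) (hS : Slope D j l) (y z : V) :
    (1 - l) * |y j - z j| ≤ (1 + K) * ‖shr D j y - shr D j z‖ := by
  wlog h : z j ≤ y j generalizing y z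
  · rw [abs_sub_comm, norm_sub_rev]
    exact this z y (le_of_not_ge h)
  set w : V := z + (y j - z j) • Pi.single j 1 with hw
  have h1 := hS z (y j - z j) (by linarith)
  have h2 := hD.dist_le_mul y w
  rw [Real.dist_eq, dist_eq_norm] at h2
  have h3 : ‖y - w‖ ≤ ‖shr D j y - shr D j z‖ := by
    rw [pi_norm_le_iff_of_nonneg (norm_nonneg _)]
    intro i
    by_cases hi : i = j
    · subst hi
      simp [hw]
    · have e1 : (y - w) i = (shr D j y - shr D j z) i := by
        simp [hw, Pi.sub_apply, shr_apply_ne hi, hi]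
      rw [e1]
      exact norm_le_pi_norm _ i
  have h4 : y j - z j - (D y - D z) ≤ ‖shr D j y - shr D j z‖ := by
    have h5 := norm_le_pi_norm (shr D j y - shr D j z) j
    rw [Pi.sub_apply, shr_apply_self, shr_apply_self, Real.norm_eq_abs] at h5
    have := le_abs_self (y j - D y - (z j - D z))
    linarith
  have h6 := (abs_le.1 h2).2
  have hK : (0 : ℝ) ≤ K := K.2
  rw [abs_of_nonneg (by linarith)]
  nlinarith [mul_le_mul_of_nonneg_left h3 hK]

theorem shr_expand (hD : LipschitzWith K D) (hS : Slope D j l) (hl : l < 1) (hl0 : 0 ≤ l)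
    (y z : V) : (1 - l) * ‖y - z‖ ≤ (1 + K) * ‖shr D j y - shr D j z‖ := by
  have hK : (0 : ℝ) ≤ K := K.2
  have h0 : 0 ≤ (1 + K) * ‖shr D j y - shr D j z‖ := by positivity
  have h1 : ‖y - z‖ ≤ ((1 + K) * ‖shr D j y - shr D j z‖) / (1 - l) := by
    rw [pi_norm_le_iff_of_nonneg (by apply div_nonneg h0; linarith)]
    intro i
    rw [le_div_iff₀ (by linarith)]
    by_cases hi : i = j
    · subst hi
      rw [Pi.sub_apply, Real.norm_eq_abs, mul_comm]
      exact shr_lower hD hS y z
    · have e1 : (y - z) i = (shr D j y - shr D j z) i := by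
        simp [Pi.sub_apply, shr_apply_ne hi]
      rw [e1]
      have h2 := norm_le_pi_norm (shr D j y - shr D j z) i
      have h3 : (0 : ℝ) ≤ ‖(shr D j y - shr D j z) i‖ := norm_nonneg _
      nlinarith [norm_nonneg (shr D j y - shr D j z)]
  rw [le_div_iff₀ (by linarith)] at h1
  linarith

theorem shr_injective (hD : LipschitzWith K D) (hS : Slope D j l) (hl : l < 1) (hl0 : 0 ≤ l) :
    Function.Injective (shr D j) := by
  intro y z h
  have h1 := shr_expand hD hS hl hl0 y z
  rw [h, sub_self, norm_zero, mul_zero] at h1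
  have h2 : ‖y - z‖ ≤ 0 := by
    by_contra h3
    have : 0 < (1 - l) * ‖y - z‖ := mul_pos (by linarith) (not_le.1 h3)
    linarith
  exact sub_eq_zero.1 (norm_le_zero_iff.1 h2)

theorem shr_surjective (hD : LipschitzWith K D) (hS : Slope D j l) (hl : l < 1) :
    Function.Surjective (shr D j) := by
  intro w
  -- solve on the line through `w` in direction `e_j`
  let g : ℝ → ℝ := fun t => t - D (w + t • Pi.single j 1)
  have hg : Continuous g := by
    have := hD.continuous
    fun_prop
  have hmono : ∀ a b : ℝ, a ≤ b → (1 - l) * (b - a) ≤ g b - g a := by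
    intro a b hab
    have h1 := hS (w + a • Pi.single j 1) (b - a) (by linarith)
    have e : w + a • (Pi.single j 1 : V) + (b - a) • Pi.single j 1 = w + b • Pi.single j 1 := by
      rw [add_assoc, ← add_smul]; congr 2; ring
    rw [e] at h1
    simp only [g]
    linarith
  have hpos : 0 < 1 - l := by linarith
  have t1 : Tendsto g atTop atTop := by
    refine tendsto_atTop_mono' atTop (f₁ := fun b => g 0 + (1 - l) * b) ?_ ?_
    · filter_upwards [eventually_ge_atTop (0 : ℝ)] with b hb
      have := hmono 0 b hb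
      simp only [sub_zero] at this
      linarith
    · exact tendsto_atTop_add_const_left _ _ (tendsto_id.const_mul_atTop hpos)
  have t2 : Tendsto g atBot atBot := by
    refine tendsto_atBot_mono' atBot (f₂ := g) (f₁ := fun b => g 0 + (1 - l) * b) ?_ ?_
    · filter_upwards [eventually_le_atBot (0 : ℝ)] with b hb
      have := hmono b 0 hb
      linarith
    · exact tendsto_atBot_add_const_left _ _ (tendsto_id.const_mul_atBot hpos)
  obtain ⟨t, ht⟩ := hg.surjective t1 t2 0
  refine ⟨w + t • Pi.single j 1, ?_⟩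
  have ht' : t - D (w + t • Pi.single j 1) = 0 := ht
  rw [shr, add_sub_assoc, ← sub_smul, ht', zero_smul, add_zero]

end shear

end Vale.Agent.P073.H726
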