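import Vale.Agent.P073.H726.Comp2
import Vale.Agent.P073.H726.Slab1
import Vale.Agent.P073.H726.Slab2

/-!
# P073: squeezing one component on a periodic family of slabs
-/

namespace Vale.Agent.P073.H726

open MeasureTheory Set Filter Topology Vale.Agent.P073.St Vale.Agent.P073.AB
open Vale.Agent.P073.PK
open scoped ContDiff ENNReal NNReal

/-! ### Shears as conical homeomorphisms -/

section shear

variable {D : V → ℝ} {j : Fin 3} {K : ℝ≥0} {l : ℝ}

theorem conicalOn_shr (hc : _root_.P073.ConicalOn D univ) (j : Fin 3) :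
    _root_.P073.ConicalOn (shr D j) univ := by
  have hu : _root_.P073.ConicalSet (univ : Set V) := _root_.P073.IsOpen.conicalSet isOpen_univ
  have h1 : _root_.P073.ConicalOn (fun y => D y • (Pi.single j 1 : V)) univ :=
    hc.linear_comp ((LinearMap.id : ℝ →ₗ[ℝ] ℝ).smulRight (Pi.single j 1 : V))
  exact (_root_.P073.conicalOn_id hu).sub h1

/-- the shear as a conical homeomorphism of the space -/
theorem exists_shr_homeo (hD : LipschitzWith K D) (hS : Slope D j l) (hl : l < 1) (hl0 : 0 ≤ l) :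
    ∃ S : V → V, Function.LeftInverse S (shr D j) ∧ Function.RightInverse S (shr D j) ∧
      LipschitzWith (Real.toNNReal ((1 + K) / (1 - l))) S := by
  have hb : Function.Bijective (shr D j) :=
    ⟨shr_injective hD hS hl hl0, shr_surjective hD hS hl⟩
  obtain ⟨S, h1, h2⟩ := Function.bijective_iff_has_inverse.1 hb
  refine ⟨S, h1, h2, LipschitzWith.of_dist_le_mul fun y z => ?_⟩
  have h3 := shr_expand hD hS hl hl0 (S y) (S z)
  rw [h2 y, h2 z] at h3
  have h4 : 0 < 1 - l := by linarith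
  rw [dist_eq_norm, dist_eq_norm, Real.coe_toNNReal _ (by positivity), div_mul_eq_mul_div,
    le_div_iff₀ h4, mul_comm]
  exact h3

/-- the shear as a conical homeomorphism of an open set containing the support of `D` -/
theorem exists_shr_conHomeo (hD : LipschitzWith K D) (hS : Slope D j l) (hl : l < 1) (hl0 : 0 ≤ l)
    (hc : _root_.P073.ConicalOn D univ) {Λ : Set V} (hΛ : IsOpen Λ) (h0 : ∀ y, y ∉ Λ → D y = 0) :
    ∃ H : _root_.P073.ConHomeo Λ Λ, H.toFun = shr D j := by
  obtain ⟨S, h1, h2, h3⟩ := exists_shr_homeo hD hS hl hl0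
  have hfix : ∀ y, y ∉ Λ → shr D j y = y := by
    intro y hy
    rw [shr, h0 y hy, zero_smul, sub_zero]
  have hm : MapsTo (shr D j) Λ Λ := by
    intro y hy
    by_contra hn
    have h4 := hfix _ hn
    have h5 := shr_injective hD hS hl hl0 h4
    rw [h5] at hn
    exact hn hy
  have hm' : MapsTo S Λ Λ := by
    intro y hy
    by_contra hn
    have h4 := hfix _ hn
    rw [h2 y] at h4
    rw [← h4] at hn
    exact hn hy
  have hcon : _root_.P073.ConicalOn (shr D j) Λ :=
    (conicalOn_shr hc j).mono (_root_.P073.IsOpen.conicalSet hΛ) (subset_univ _)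
  exact ⟨⟨shr D j, S, hm, hm', fun y _ => h1 y, fun y _ => h2 y,
    (shr_lip hD).continuous.continuousOn, h3.continuous.continuousOn, hcon⟩, rfl⟩

end shear

/-! ### Derivatives of `shr D j ∘ f` -/

section deriv

variable {p : ℝ} {Ω : Set V} {f : V → V} {F : V → Mat} {D : V → ℝ} {j : Fin 3} {K : ℝ≥0}

theorem ap_single (M : Mat) (k i : Fin 3) : ap M (Pi.single k (1 : ℝ)) i = M i k := by
  simp [ap, Pi.single_apply]

/-- the rows `i ≠ j` are unchanged -/
theorem shr_row_ne (hp : 1 ≤ p) (hΩ : IsOpen Ω) (hv : volume Ω ≠ ⊤) (hf : ContinuousOn f Ω)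
    (hF : IsSobolev p Ω f F) (hD : LipschitzWith K D) :
    ∀ᵐ x ∂(volume : Measure V), x ∈ Ω → ∀ i, i ≠ j → ∀ k, compMat (shr D j) f x i k = F x i k := by
  have key : ∀ i : Fin 3, i ≠ j → ∀ᵐ x ∂(volume : Measure V), x ∈ Ω →
      ∀ k, compMat (shr D j) f x i k = F x i k := by
    intro i hi
    filter_upwards [comp_rule2 hp hΩ hv hf hF (shr_lip (j := j) hD) isOpen_univ
      (ContinuousLinearMap.proj (R := ℝ) (φ := fun _ : Fin 3 => ℝ) i)
      (ContinuousLinearMap.proj (R := ℝ) (φ := fun _ : Fin 3 => ℝ) i) (N := fun _ => 0)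
      continuous_const (fun c y => by simp) (fun y _ z _ => by
        simp [shr_apply_ne hi])] with x hx hxΩ k
    have h1 := hx hxΩ (mem_univ _) (Pi.single k 1)
    simp only [ContinuousLinearMap.proj_apply, ap_single] at h1
    have h2 := abs_nonpos_iff.1 h1
    linarith
  filter_upwards [ae_all_iff.2 fun i : Fin 3 => ae_all_iff.2 fun h : i ≠ j => key i h]
    with x hx hxΩ i hi k
  exact hx i hi hxΩ k

/-- the row `j` where `D` is, up to an error, linear in `y_j` -/
theorem shr_row_self (hp : 1 ≤ p) (hΩ : IsOpen Ω) (hv : volume Ω ≠ ⊤) (hf : ContinuousOn f Ω)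
    (hF : IsSobolev p Ω f F) (hD : LipschitzWith K D) {W : Set V} (hW : IsOpen W) {a : ℝ}
    (hle : ∀ y ∈ W, ∀ z ∈ W, D y - D z = a * (y j - z j)) :
    ∀ᵐ x ∂(volume : Measure V), x ∈ Ω → f x ∈ W →
      ∀ k, compMat (shr D j) f x j k = (1 - a) * F x j k := by
  filter_upwards [comp_rule2 hp hΩ hv hf hF (shr_lip hD) hW
    (ContinuousLinearMap.proj (R := ℝ) (φ := fun _ : Fin 3 => ℝ) j)
    ((1 - a) • ContinuousLinearMap.proj (R := ℝ) (φ := fun _ : Fin 3 => ℝ) j) (N := fun _ => 0)
    continuous_const (fun c y => by simp) (fun y hy z hz => by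
      have h1 := hle y hy z hz
      have e : (ContinuousLinearMap.proj (R := ℝ) (φ := fun _ : Fin 3 => ℝ) j)
          (shr D j y - shr D j z) - ((1 - a) • ContinuousLinearMap.proj (R := ℝ)
          (φ := fun _ : Fin 3 => ℝ) j) (y - z) = 0 := by
        simp only [ContinuousLinearMap.proj_apply, Pi.sub_apply, shr_apply_self,
          _root_.smul_apply, smul_eq_mul]
        linarith
      rw [e, abs_zero])] with x hx hxΩ hxW k
  have h1 := hx hxΩ hxW (Pi.single k 1)
  simp only [ContinuousLinearMap.proj_apply, ap_single, _root_.smul_apply, smul_eq_mul] at h1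
  have h2 := abs_nonpos_iff.1 h1
  linarith

/-- the row `j`, general bound -/
theorem shr_row_le (hp : 1 ≤ p) (hΩ : IsOpen Ω) (hv : volume Ω ≠ ⊤) (hf : ContinuousOn f Ω)
    (hF : IsSobolev p Ω f F) (hD : LipschitzWith K D) {W : Set V} (hW : IsOpen W) {a b : ℝ}
    (hle : ∀ y ∈ W, ∀ z ∈ W, |D y - D z| ≤ a * |y j - z j| + b * ‖y - z‖) :
    ∀ᵐ x ∂(volume : Measure V), x ∈ Ω → f x ∈ W →
      ∀ k, |compMat (shr D j) f x j k - F x j k| ≤ a * |F x j k| +
        b * ‖ap (F x) (Pi.single k 1)‖ := by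
  filter_upwards [comp_rule2 hp hΩ hv hf hF (shr_lip hD) hW
    (ContinuousLinearMap.proj (R := ℝ) (φ := fun _ : Fin 3 => ℝ) j)
    (ContinuousLinearMap.proj (R := ℝ) (φ := fun _ : Fin 3 => ℝ) j)
    (N := fun y => a * |y j| + b * ‖y‖)
    (by fun_prop) (fun c y => by
      rw [norm_smul, Pi.smul_apply, smul_eq_mul, abs_mul, Real.norm_eq_abs]; ring)
    (fun y hy z hz => by
      have h1 := hle y hy z hz
      have e : (ContinuousLinearMap.proj (R := ℝ) (φ := fun _ : Fin 3 => ℝ) j)
          (shr D j y - shr D j z) - (ContinuousLinearMap.proj (R := ℝ)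
          (φ := fun _ : Fin 3 => ℝ) j) (y - z) = -(D y - D z) := by
        simp only [ContinuousLinearMap.proj_apply, Pi.sub_apply, shr_apply_self]
        ring
      rw [e, abs_neg]
      exact h1)] with x hx hxΩ hxW k
  have h1 := hx hxΩ hxW (Pi.single k 1)
  simp only [ContinuousLinearMap.proj_apply, ap_single] at h1
  exact h1

/-- where `D ≥ 0` vanishes, the derivative is unchanged -/
theorem shr_eq_of_zero (hp : 1 ≤ p) (hΩ : IsOpen Ω) (hv : volume Ω ≠ ⊤) (hf : ContinuousOn f Ω)
    (hF : IsSobolev p Ω f F) (hD : LipschitzWith K D) (h0 : ∀ y, 0 ≤ D y) :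
    ∀ᵐ x ∂(volume : Measure V), x ∈ Ω → D (f x) = 0 → compMat (shr D j) f x = F x := by
  filter_upwards [ae_all_iff.2 fun k : Fin 3 =>
    comp_hasDerivAt hp hΩ hv hf hF (shr_lip (j := j) hD) (Pi.single k (1 : ℝ)),
    shr_row_ne (j := j) hp hΩ hv hf hF hD] with x hx hx2 hxΩ hxD
  funext i k
  by_cases hi : i = j
  · subst hi
    obtain ⟨a1, a2⟩ := hx k hxΩ
    have b1 := hasDerivAt_pi.1 a1 i
    have b2 := hasDerivAt_pi.1 a2 i
    rw [ap_single] at b1 b2
    have b3 : HasDerivAt (fun t : ℝ => D (f (x + t • (Pi.single k (1 : ℝ) : V))))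
        (F x i k - compMat (shr D i) f x i k) 0 := by
      refine (b1.sub b2).congr_of_eventuallyEq (Eventually.of_forall fun t => ?_)
      simp only [Pi.sub_apply, shr_apply_self]
      ring
    have hmin : IsLocalMin (fun t : ℝ => D (f (x + t • (Pi.single k (1 : ℝ) : V)))) 0 := by
      refine Eventually.of_forall fun t => ?_
      simp only [zero_smul, add_zero, hxD]
      exact h0 _
    have := hmin.hasDerivAt_eq_zero b3
    linarith
  · exact hx2 hxΩ i hi k

end deriv

end Vale.Agent.P073.H726
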